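import Vale.Agent.P012.BaseCount
import Mathlib.Data.Nat.Log

/-!
Coincidences of the slot products modulo an integer, and at short distance.
-/

namespace Vale.Agent.P012

open Finset

lemma two_rpow_nat (n : ℕ) : (2 : ℝ) ^ ((n : ℝ)) = (2 : ℝ) ^ n := Real.rpow_natCast 2 n

lemma inv_two_pow_eq (n : ℕ) : 1 / (2 : ℝ) ^ n = (2 : ℝ) ^ (-(n : ℝ)) := by
  rw [Real.rpow_neg (by norm_num), Real.rpow_natCast, one_div]

/-- Coincidences modulo `g` of the slot products. -/
lemma phi_dProd_le {k j r g : ℕ} (hk : 8 ≤ k) (hr : 6 ≤ r) (hj : 1 ≤ j)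
    (hjs : j * 2 ^ r ≤ 2 ^ k) (hg : 1 ≤ g) (hgle : g ≤ 2 ^ (4 * k * j)) :
    phi (dProd k j (2 ^ r)) g ≤
      2 ^ (r + 3) * (g : ℝ) ^ (-((r : ℝ) / (16 * k))) := by
  classical
  set s := 2 ^ r with hs
  have hs0 : 0 < s := by positivity
  have hrk : r ≤ k := by
    have : 2 ^ r ≤ 2 ^ k := le_trans (Nat.le_mul_of_pos_left _ hj) hjs
    exact (Nat.pow_le_pow_iff_right (by norm_num)).1 this
  set η := Nat.log 2 g with hη
  have hηle : 2 ^ η ≤ g := Nat.pow_log_le_self 2 (by omega)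
  have hηlt : g < 2 ^ (η + 1) := Nat.lt_pow_succ_log_self (by norm_num) g
  have hηj : η ≤ 4 * k * j :=
    (Nat.pow_le_pow_iff_right (by norm_num)).1 (hηle.trans hgle)
  set j' := η / (4 * k) with hj'
  have hj'j : j' ≤ j := Nat.div_le_of_le_mul hηj
  set u0 := (η + 4 * k - 1) / (4 * k) with hu0
  set U := (Finset.range (j * s)).filter (fun x => pr k x ∣ g) with hU
  -- few pool primes divide `g`
  have hUcard : k * U.card ≤ η := by
    have h1 : (2 ^ k) ^ U.card ≤ ∏ p ∈ U.image (pr k), p := by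
      rw [Finset.prod_image fun x _ y _ h => pr_inj h, ← Finset.prod_const]
      exact Finset.prod_le_prod' fun x _ => (two_pow_lt_pr k x).le
    have h2 : ∏ p ∈ U.image (pr k), p ∣ g := by
      refine Finset.prod_primes_dvd g ?_ ?_
      · intro p hp
        obtain ⟨x, -, rfl⟩ := Finset.mem_image.1 hp
        exact (prime_pr k x).prime
      · intro p hp
        obtain ⟨x, hx, rfl⟩ := Finset.mem_image.1 hp
        exact (Finset.mem_filter.1 hx).2
    have h3 := (h1.trans (Nat.le_of_dvd hg h2)).trans_lt hηlt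
    rw [← pow_mul] at h3
    have := (Nat.pow_lt_pow_iff_right (by norm_num)).1 h3
    omega
  -- bad choices
  set good := fun f : Fin j → Fin s => (Nat.gcd g (dProd k j s f)) ^ 2 < g with hgood
  have hbad : ∀ f, ¬ good f → ∃ W ∈ U.powersetCard u0, ∀ x ∈ W, ∃ t, slotIdx j s f t = x := by
    intro f hf
    set T := univ.filter (fun t : Fin j => slotPrime k j s f t ∣ g) with hT
    have hgcd : Nat.gcd g (dProd k j s f) ≤ 2 ^ (2 * k * T.card) := by
      have hsplit : dProd k j s f =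
          (∏ t ∈ T, slotPrime k j s f t) *
            ∏ t ∈ univ.filter (fun t : Fin j => ¬ slotPrime k j s f t ∣ g), slotPrime k j s f t :=
        (Finset.prod_filter_mul_prod_filter_not univ _ _).symm
      have hcop : Nat.Coprime
          (∏ t ∈ univ.filter (fun t : Fin j => ¬ slotPrime k j s f t ∣ g), slotPrime k j s f t)
          g := by
        refine Nat.Coprime.prod_left fun t ht => ?_
        exact (prime_slotPrime k j s f t).coprime_iff_not_dvd.2 (Finset.mem_filter.1 ht).2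
      rw [hsplit, Nat.Coprime.gcd_mul_right_cancel_right _ hcop]
      refine (Nat.le_of_dvd ?_ (Nat.gcd_dvd_right _ _)).trans ?_
      · exact Finset.prod_pos fun t _ => (prime_slotPrime k j s f t).pos
      · calc ∏ t ∈ T, slotPrime k j s f t ≤ ∏ _t ∈ T, 4 ^ k :=
              Finset.prod_le_prod' fun t _ => pr_le hk ((slotIdx_lt f t).trans_le hjs)
          _ = 2 ^ (2 * k * T.card) := by
              rw [Finset.prod_const, show (4 : ℕ) ^ k = 2 ^ (2 * k) by rw [pow_mul]; norm_num,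
                ← pow_mul]
    have hT' : η ≤ 4 * k * T.card := by
      have h1 : 2 ^ η ≤ (2 ^ (2 * k * T.card)) ^ 2 :=
        (hηle.trans (not_lt.1 hf)).trans (Nat.pow_le_pow_left hgcd 2)
      rw [← pow_mul] at h1
      have := (Nat.pow_le_pow_iff_right (by norm_num)).1 h1
      linarith
    have hu : u0 ≤ T.card := by
      have : (η + 4 * k - 1) / (4 * k) < T.card + 1 := by
        rw [Nat.div_lt_iff_lt_mul (by omega)]
        have : (T.card + 1) * (4 * k) = 4 * k * T.card + 4 * k := by ring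
        omega
      omega
    obtain ⟨T0, hT0, hT0c⟩ := Finset.exists_subset_card_eq hu
    refine ⟨T0.image (slotIdx j s f), Finset.mem_powersetCard.2 ⟨?_, ?_⟩, ?_⟩
    · intro x hx
      obtain ⟨t, ht, rfl⟩ := Finset.mem_image.1 hx
      exact Finset.mem_filter.2 ⟨Finset.mem_range.2 (slotIdx_lt f t),
        (Finset.mem_filter.1 (hT0 ht)).2⟩
    · rw [Finset.card_image_of_injective _ fun t u h => Fin.ext
        (by rw [← slotIdx_div f t, ← slotIdx_div f u, h]), hT0c]
    · intro x hx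
      obtain ⟨t, -, rfl⟩ := Finset.mem_image.1 hx
      exact ⟨t, rfl⟩
  have hbadP : prb (fun f => ¬ good f) ≤ (2 : ℝ) ^ U.card / (s : ℝ) ^ u0 := by
    refine (prb_mono hbad).trans ((prb_exists_le _ _).trans ?_)
    calc ∑ W ∈ U.powersetCard u0, prb (fun f : Fin j → Fin s => ∀ x ∈ W, ∃ t, slotIdx j s f t = x)
        ≤ ∑ _W ∈ U.powersetCard u0, 1 / (s : ℝ) ^ u0 := by
          refine Finset.sum_le_sum fun W hW => ?_
          have := prb_contains_le (j := j) hs0 W
          rwa [(Finset.mem_powersetCard.1 hW).2] at this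
      _ ≤ (2 : ℝ) ^ U.card / (s : ℝ) ^ u0 := by
          rw [Finset.sum_const, nsmul_eq_mul, mul_one_div]
          gcongr
          rw [Finset.card_powersetCard]
          exact_mod_cast Nat.choose_le_two_pow _ _
  -- good choices
  have hgoodP : prb (fun w : (Fin j → Fin s) × (Fin j → Fin s) =>
      good w.1 ∧ (g : ℤ) ∣ dif (dProd k j s) w) ≤ 1 / (s : ℝ) ^ j' := by
    rw [prb_prod_swap]
    refine prb_prod_le (fun f' => ?_) (by positivity)
    have := prb_le_of_agree (L := 1) hs0 j' hj'j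
      (fun f => good f ∧ (g : ℤ) ∣ dif (dProd k j s) (f, f')) (fun _ => 0) ?_
    · simpa using this
    intro f hf f2 hf2 hag _
    obtain ⟨hfg, hd⟩ := hf
    obtain ⟨-, hd2⟩ := hf2
    set r0 := highProd k j s j' f with hr0
    have hd3 : (g : ℤ) ∣ ((lowProd k j s j' f : ℤ) - lowProd k j s j' f2) * (r0 : ℤ) := by
      have h1 := dvd_sub hd hd2
      unfold dif at h1
      simp only [dProd_eq_low_mul_high k j s j'] at h1
      rw [← highProd_congr hag, ← hr0] at h1
      refine h1.trans (dvd_of_eq ?_)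
      push_cast
      ring
    have hd4 : g ∣ ((lowProd k j s j' f : ℤ) - lowProd k j s j' f2).natAbs * r0 := by
      have := Int.natCast_dvd.1 hd3
      rwa [Int.natAbs_mul, Int.natAbs_natCast] at this
    set h := Nat.gcd g r0 with hh
    have hhpos : 0 < h := Nat.gcd_pos_of_pos_left _ hg
    have hdiv : g / h ∣ ((lowProd k j s j' f : ℤ) - lowProd k j s j' f2).natAbs := by
      refine Nat.Coprime.dvd_of_dvd_mul_right (Nat.coprime_div_gcd_div_gcd hhpos) ?_
      rw [← Nat.mul_div_assoc _ (Nat.gcd_dvd_right _ _)]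
      exact Nat.div_dvd_div (Nat.gcd_dvd_left _ _) hd4
    have hhle : h ^ 2 < g := by
      refine lt_of_le_of_lt (Nat.pow_le_pow_left (Nat.le_of_dvd ?_ ?_) 2) hfg
      · exact Nat.gcd_pos_of_pos_left _ hg
      · exact Nat.gcd_dvd_gcd_of_dvd_right g
          ⟨lowProd k j s j' f, by rw [dProd_eq_low_mul_high k j s j' f, mul_comm, hr0]⟩
    have hbig : 2 ^ (2 * k * j') < g / h := by
      by_contra hc
      push Not at hc
      have hgh : h * (g / h) = g := Nat.mul_div_cancel' (Nat.gcd_dvd_left _ _)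
      have h1 : 4 * k * j' ≤ η := Nat.mul_div_le _ _
      have h2 : (2 ^ (2 * k * j')) ^ 2 ≤ g := by
        refine le_trans ?_ hηle
        rw [← pow_mul]
        exact Nat.pow_le_pow_right (by norm_num) (by linarith)
      have h3 : g ^ 2 < g * g := by
        calc g ^ 2 = h ^ 2 * (g / h) ^ 2 := by rw [← mul_pow, hgh]
          _ ≤ h ^ 2 * g := Nat.mul_le_mul_left _ ((Nat.pow_le_pow_left hc 2).trans h2)
          _ < g * g := Nat.mul_lt_mul_of_lt_of_le hhle le_rfl hg
      rw [sq] at h3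
      exact lt_irrefl _ h3
    have hzero : ((lowProd k j s j' f : ℤ) - lowProd k j s j' f2).natAbs = 0 := by
      refine Nat.eq_zero_of_dvd_of_lt hdiv (lt_of_le_of_lt ?_ hbig)
      have h1 := lowProd_le hk hjs j' f
      have h2 := lowProd_le hk hjs j' f2
      omega
    refine eq_of_lowProd_eq (k := k) hag ?_
    omega
  -- combine
  have hmain : phi (dProd k j s) g ≤ (2 : ℝ) ^ U.card / (s : ℝ) ^ u0 + 1 / (s : ℝ) ^ j' := by
    unfold phi
    refine le_trans (prb_mono (Q := fun w => ¬ good w.1 ∨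
      (good w.1 ∧ (g : ℤ) ∣ dif (dProd k j s) w)) fun w hw => ?_) ?_
    · by_cases hgd : good w.1
      · exact Or.inr ⟨hgd, hw⟩
      · exact Or.inl hgd
    refine (prb_or_le _ _).trans (add_le_add ?_ hgoodP)
    rw [prb_prod_swap]
    exact prb_prod_le (fun _ => hbadP) (by positivity)
  refine hmain.trans ?_
  set c : ℝ := (r : ℝ) / (16 * k) with hc
  have hk0 : (0 : ℝ) < k := by exact_mod_cast (show 0 < k by omega)
  have hU' : (U.card : ℝ) ≤ (η : ℝ) / k := by
    rw [le_div_iff₀ hk0]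
    exact_mod_cast (by rw [mul_comm]; exact hUcard)
  have hu0' : (η : ℝ) / (4 * k) ≤ (u0 : ℝ) := by
    have h1 : η ≤ 4 * k * u0 := by
      have := Nat.lt_mul_div_succ (η + 4 * k - 1) (show 0 < 4 * k by omega)
      rw [← hu0, mul_add, mul_one] at this
      omega
    rw [div_le_iff₀ (by positivity), mul_comm]
    exact_mod_cast h1
  have hj'' : (η : ℝ) / (4 * k) ≤ (j' : ℝ) + 1 := by
    have h1 : η ≤ 4 * k * (j' + 1) := (Nat.lt_mul_div_succ η (show 0 < 4 * k by omega)).le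
    rw [div_le_iff₀ (by positivity), mul_comm]
    exact_mod_cast h1
  have hη4 : 0 ≤ (η : ℝ) / (4 * k) := by positivity
  have hrR : (6 : ℝ) ≤ r := by exact_mod_cast hr
  have hcη : c * η = (r : ℝ) / 4 * ((η : ℝ) / (4 * k)) := by rw [hc]; field_simp; ring
  have hsR : ∀ m : ℕ, (s : ℝ) ^ m = (2 : ℝ) ^ ((r : ℝ) * m) := by
    intro m
    rw [hs]
    push_cast
    rw [← pow_mul, ← Nat.cast_mul, Real.rpow_natCast]
  have e1 : (2 : ℝ) ^ U.card / (s : ℝ) ^ u0 ≤ (2 : ℝ) ^ (-(c * η)) := by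
    rw [hsR, ← Real.rpow_natCast 2 U.card, ← Real.rpow_sub two_pos]
    refine Real.rpow_le_rpow_of_exponent_le one_le_two ?_
    have h1 : (η : ℝ) / k = 4 * ((η : ℝ) / (4 * k)) := by field_simp
    rw [hcη]
    nlinarith
  have e2 : 1 / (s : ℝ) ^ j' ≤ (2 : ℝ) ^ r * (2 : ℝ) ^ (-(c * η)) := by
    rw [hsR, one_div, ← Real.rpow_neg two_pos.le, ← Real.rpow_natCast 2 r, ← Real.rpow_add two_pos]
    refine Real.rpow_le_rpow_of_exponent_le one_le_two ?_
    rw [hcη]
    nlinarith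
  have hgR : (0 : ℝ) < g := by exact_mod_cast hg
  have e3 : (2 : ℝ) ^ (-(c * η)) ≤ 2 * (g : ℝ) ^ (-c) := by
    have h1 : (g : ℝ) ≤ (2 : ℝ) ^ ((η : ℝ) + 1) := by
      rw [show ((η : ℝ) + 1) = ((η + 1 : ℕ) : ℝ) by push_cast; rfl, Real.rpow_natCast]
      exact_mod_cast hηlt.le
    have h2 : ((2 : ℝ) ^ ((η : ℝ) + 1)) ^ (-c) ≤ (g : ℝ) ^ (-c) :=
      Real.rpow_le_rpow_of_nonpos hgR h1 (neg_nonpos.2 (by rw [hc]; positivity))
    rw [← Real.rpow_mul two_pos.le] at h2
    have hc1 : c ≤ 1 := by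
      rw [hc, div_le_one (by positivity)]
      have : (r : ℝ) ≤ k := by exact_mod_cast hrk
      linarith
    calc (2 : ℝ) ^ (-(c * η)) = (2 : ℝ) ^ c * (2 : ℝ) ^ (((η : ℝ) + 1) * -c) := by
          rw [← Real.rpow_add two_pos]; ring_nf
      _ ≤ 2 * (g : ℝ) ^ (-c) := by
          gcongr
          calc (2 : ℝ) ^ c ≤ (2 : ℝ) ^ (1 : ℝ) := Real.rpow_le_rpow_of_exponent_le one_le_two hc1
            _ = 2 := Real.rpow_one 2
  have hg0 : 0 ≤ (g : ℝ) ^ (-c) := by positivity
  have h2r : (1 : ℝ) ≤ 2 ^ r := one_le_pow₀ one_le_two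
  calc (2 : ℝ) ^ U.card / (s : ℝ) ^ u0 + 1 / (s : ℝ) ^ j'
      ≤ (2 : ℝ) ^ (-(c * η)) + (2 : ℝ) ^ r * (2 : ℝ) ^ (-(c * η)) := add_le_add e1 e2
    _ = (1 + (2 : ℝ) ^ r) * (2 : ℝ) ^ (-(c * η)) := by ring
    _ ≤ (1 + (2 : ℝ) ^ r) * (2 * (g : ℝ) ^ (-c)) := by gcongr
    _ ≤ 2 ^ (r + 3) * (g : ℝ) ^ (-c) := by rw [pow_add]; nlinarith

/-- Distinct choices give distinct products. -/
lemma coll_dProd_le (k j r : ℕ) : coll (dProd k j (2 ^ r)) ≤ 1 / (2 : ℝ) ^ (r * j) := by
  classical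
  unfold coll
  rw [prb_eq]
  have hset : (univ.filter fun w : (Fin j → Fin (2 ^ r)) × (Fin j → Fin (2 ^ r)) =>
      dif (dProd k j (2 ^ r)) w = 0) = univ.image (fun f => (f, f)) := by
    ext ⟨a, b⟩
    simp only [mem_filter, mem_univ, true_and, mem_image, dif, sub_eq_zero, Nat.cast_inj,
      Prod.mk.injEq]
    constructor
    · intro h
      exact ⟨a, rfl, dProd_injective _ _ _ h⟩
    · rintro ⟨f, rfl, rfl⟩; rfl
  rw [hset, Finset.card_image_of_injective _ (fun a b h => by simpa using h)]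
  simp only [Finset.card_univ, Fintype.card_prod, Fintype.card_fun, Fintype.card_fin]
  push_cast
  rw [div_mul_cancel_left₀ (by positivity), ← pow_mul, one_div]

/-- The slot product moved into one binary window. -/
noncomputable def dWin (k j s : ℕ) (f : Fin j → Fin s) : ℕ :=
  dProd k j s f * 2 ^ (2 * k * j - Nat.log 2 (dProd k j s f))

lemma log_dProd_le {k j s : ℕ} (hk : 8 ≤ k) (hjs : j * s ≤ 2 ^ k) (f : Fin j → Fin s) :
    Nat.log 2 (dProd k j s f) ≤ 2 * k * j :=
  calc Nat.log 2 (dProd k j s f) ≤ Nat.log 2 (2 ^ (2 * k * j)) :=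
        Nat.log_mono_right (dProd_le hk hjs f)
    _ = 2 * k * j := Nat.log_pow (by norm_num) _

lemma dWin_bounds {k j s : ℕ} (hk : 8 ≤ k) (hjs : j * s ≤ 2 ^ k) (f : Fin j → Fin s) :
    2 ^ (2 * k * j) ≤ dWin k j s f ∧ dWin k j s f < 2 ^ (2 * k * j + 1) := by
  have hlog := log_dProd_le hk hjs f
  constructor
  · calc 2 ^ (2 * k * j)
        = 2 ^ Nat.log 2 (dProd k j s f) * 2 ^ (2 * k * j - Nat.log 2 (dProd k j s f)) := by
          rw [← pow_add, Nat.add_sub_cancel' hlog]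
      _ ≤ _ := Nat.mul_le_mul_right _ (Nat.pow_log_le_self 2 (dProd_pos _ _ _ _).ne')
  · calc dWin k j s f
        < 2 ^ (Nat.log 2 (dProd k j s f) + 1) * 2 ^ (2 * k * j - Nat.log 2 (dProd k j s f)) :=
          Nat.mul_lt_mul_of_lt_of_le (Nat.lt_pow_succ_log_self (by norm_num) _) le_rfl
            (by positivity)
      _ = 2 ^ (2 * k * j + 1) := by rw [← pow_add]; congr 1; omega

lemma dWin_dvd {k j s : ℕ} (hjs : j * s ≤ 2 ^ k) (f : Fin j → Fin s) :
    dWin k j s f ∣ poolProd k * 2 ^ (2 * k * j) :=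
  mul_dvd_mul (dProd_dvd_poolProd hjs f) (pow_dvd_pow 2 (Nat.sub_le _ _))

/-- Short distances between the windowed products are rare. -/
lemma near_dWin_le {k j r η : ℕ} (hk : 8 ≤ k) (hjs : j * 2 ^ r ≤ 2 ^ k)
    (hη : η ≤ 2 * k * j) :
    near (dWin k j (2 ^ r)) (2 ^ (2 * k * j - η)) ≤
      ((2 * k * j + 1 : ℕ) : ℝ) * 2 ^ (2 * r) * (2 : ℝ) ^ (-((r : ℝ) / (2 * k) * η)) := by
  classical
  set s := 2 ^ r with hs
  have hs0 : 0 < s := by positivity
  set Z := 2 * k * j with hZ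
  set W := 2 ^ (Z - η) with hW
  set j' := (η - 2) / (2 * k) with hj'
  have hj'j : j' ≤ j := Nat.div_le_of_le_mul (by omega)
  have hlab : ∀ f : Fin j → Fin s, Z - Nat.log 2 (dProd k j s f) < Z + 1 := fun f => by omega
  have key : near (dWin k j s) W ≤ ((Z + 1 : ℕ) : ℝ) / (s : ℝ) ^ j' := by
    unfold near
    rw [prb_prod_swap]
    refine prb_prod_le (fun f' => ?_) (by positivity)
    refine prb_le_of_agree hs0 j' hj'j _ (fun f => ⟨Z - Nat.log 2 (dProd k j s f), hlab f⟩) ?_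
    intro f hf f2 hf2 hag hl
    simp only [Fin.mk.injEq] at hl
    by_cases hj0 : j' = 0
    · funext t
      exact hag t (by omega)
    refine eq_of_lowProd_eq (k := k) hag ?_
    by_contra hne
    set e := Z - Nat.log 2 (dProd k j s f) with he
    set r0 := highProd k j s j' f with hr0
    have h1 : |((lowProd k j s j' f : ℤ) - lowProd k j s j' f2) * ((r0 * 2 ^ e : ℕ) : ℤ)| ≤
        2 * (W : ℤ) := by
      have hq : ((lowProd k j s j' f : ℤ) - lowProd k j s j' f2) * ((r0 * 2 ^ e : ℕ) : ℤ) =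
          dif (dWin k j s) (f, f') - dif (dWin k j s) (f2, f') := by
        unfold dif dWin
        simp only [← hZ, ← he, ← hl]
        rw [dProd_eq_low_mul_high k j s j' f, dProd_eq_low_mul_high k j s j' f2,
          ← highProd_congr hag, ← hr0]
        push_cast
        ring
      rw [hq]
      have := abs_sub (dif (dWin k j s) (f, f')) (dif (dWin k j s) (f2, f'))
      simp only at hf hf2
      linarith
    have h2 : (1 : ℤ) ≤ |(lowProd k j s j' f : ℤ) - lowProd k j s j' f2| :=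
      Int.one_le_abs (sub_ne_zero.2 (by exact_mod_cast hne))
    rw [abs_mul, Nat.abs_cast] at h1
    have h3 : ((r0 * 2 ^ e : ℕ) : ℤ) ≤ 2 * (W : ℤ) := by
      have h0 : (0 : ℤ) ≤ ((r0 * 2 ^ e : ℕ) : ℤ) := by positivity
      nlinarith
    have h4 : r0 * 2 ^ e ≤ 2 * W := by exact_mod_cast h3
    have h5 : 2 ^ Z ≤ 2 ^ (2 * k * j') * (r0 * 2 ^ e) := by
      calc 2 ^ Z ≤ dWin k j s f := (dWin_bounds hk hjs f).1
        _ = lowProd k j s j' f * (r0 * 2 ^ e) := by
            unfold dWin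
            rw [← hZ, ← he, dProd_eq_low_mul_high k j s j' f, ← hr0, mul_assoc]
        _ ≤ _ := Nat.mul_le_mul_right _ (lowProd_le hk hjs j' f)
    have h6 : 2 ^ Z ≤ 2 ^ (2 * k * j' + (Z - η + 1)) := by
      rw [pow_add, pow_succ]
      calc 2 ^ Z ≤ 2 ^ (2 * k * j') * (r0 * 2 ^ e) := h5
        _ ≤ _ := Nat.mul_le_mul_left _ (by rw [mul_comm _ 2]; exact h4)
    have h7 := (Nat.pow_le_pow_iff_right (by norm_num)).1 h6
    have h8 : 2 * k * j' ≤ η - 2 := Nat.mul_div_le _ _
    have h9 : 0 < 2 * k * j' := by positivity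
    omega
  refine key.trans ?_
  rw [mul_assoc, div_eq_mul_inv]
  refine mul_le_mul_of_nonneg_left ?_ (by positivity)
  have h1 : η ≤ 2 * k * (j' + 2) := by
    have := Nat.lt_mul_div_succ (η - 2) (show 0 < 2 * k by omega)
    rw [← hj', mul_add, mul_one] at this
    rw [mul_add]
    omega
  have h2 : (η : ℝ) ≤ 2 * k * ((j' : ℝ) + 2) := by exact_mod_cast h1
  rw [hs]
  push_cast
  rw [← pow_mul, ← Real.rpow_natCast, ← Real.rpow_neg two_pos.le, ← Real.rpow_natCast 2 (2 * r),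
    ← Real.rpow_add two_pos]
  refine Real.rpow_le_rpow_of_exponent_le one_le_two ?_
  push_cast
  have hk0 : (0 : ℝ) < k := by exact_mod_cast (show 0 < k by omega)
  have h3 : (r : ℝ) / (2 * k) * η ≤ r * ((j' : ℝ) + 2) := by
    rw [div_mul_eq_mul_div, div_le_iff₀ (by positivity)]
    have : (0 : ℝ) ≤ r := by positivity
    nlinarith
  linarith

end Vale.Agent.P012
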