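import Mathlib.NumberTheory.Chebyshev
import Mathlib.Data.Nat.Squarefree

/-!
The pool of primes in `(2^k, 4^k]` and the families of products with one prime per slot.
-/

namespace Vale.Agent.P012

open Finset

lemma two_pow_le_primeCounting {m : ℕ} (hm : 1 ≤ m) :
    2 ^ m ≤ m * Nat.primeCounting (2 ^ m) + m + 1 := by
  have h := Chebyshev.pi_ge (2 ^ m)
  have hl2 : 0 < Real.log 2 := Real.log_pos one_lt_two
  push_cast at h
  rw [Real.log_pow, div_le_iff₀ (by positivity)] at h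
  have h1 : Real.log ((2 : ℝ) ^ m + 1) ≤ ((m : ℝ) + 1) * Real.log 2 := by
    rw [show ((m : ℝ) + 1) = ((m + 1 : ℕ) : ℝ) by push_cast; rfl, ← Real.log_pow]
    apply Real.log_le_log (by positivity)
    rw [pow_succ]
    have : (1 : ℝ) ≤ 2 ^ m := one_le_pow₀ one_le_two
    linarith
  have h2 : (2 : ℝ) ^ m ≤ (m : ℝ) * (Nat.primeCounting (2 ^ m) : ℝ) + m + 1 := by
    refine le_of_mul_le_mul_right ?_ hl2
    nlinarith
  exact_mod_cast h2

lemma prime_set_infinite : (Set.ofPred Nat.Prime).Infinite := Nat.infinite_setOfPred_prime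

/-- The `t`-th prime above `2^k`. -/
noncomputable def pr (k t : ℕ) : ℕ := Nat.nth Nat.Prime (Nat.primeCounting (2 ^ k) + t)

lemma prime_pr (k t : ℕ) : (pr k t).Prime := Nat.prime_nth_prime _

lemma pr_inj {k t u : ℕ} (h : pr k t = pr k u) : t = u := by
  have := Nat.nth_injective prime_set_infinite h
  omega

lemma two_pow_lt_pr (k t : ℕ) : 2 ^ k < pr k t := by
  by_contra h
  push Not at h
  have h1 : Nat.primeCounting' (pr k t) = Nat.primeCounting (2 ^ k) + t :=
    Nat.primeCounting'_nth_eq _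
  have h2 : Nat.primeCounting' (pr k t + 1) = Nat.primeCounting' (pr k t) + 1 := by
    simp only [Nat.primeCounting', Nat.count_succ, prime_pr k t, if_true]
  have h3 : Nat.primeCounting' (pr k t + 1) ≤ Nat.primeCounting' (2 ^ k + 1) :=
    Nat.monotone_primeCounting' (by omega)
  have h4 : Nat.primeCounting (2 ^ k) = Nat.primeCounting' (2 ^ k + 1) := rfl
  omega

lemma primeCounting_le_self (n : ℕ) : Nat.primeCounting n ≤ n + 1 := by
  unfold Nat.primeCounting Nat.primeCounting'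
  exact Nat.count_le _

lemma pr_le {k t : ℕ} (hk : 8 ≤ k) (ht : t < 2 ^ k) : pr k t ≤ 4 ^ k := by
  have h := two_pow_le_primeCounting (m := 2 * k) (by omega)
  have h4 : (4 : ℕ) ^ k = 2 ^ (2 * k) := by rw [pow_mul]; norm_num
  have hb := primeCounting_le_self (2 ^ k)
  have hp : 6 * k * 2 ^ k ≤ 2 ^ (2 * k) := by
    have h6 : ∀ m : ℕ, 8 ≤ m → 6 * m ≤ 2 ^ m := by
      intro m hm
      induction m, hm using Nat.le_induction with
      | base => norm_num
      | succ m _ ih => rw [pow_succ]; omega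
    rw [two_mul, pow_add]
    exact Nat.mul_le_mul_right _ (h6 k hk)
  have hk2 : k < 2 ^ k := Nat.lt_two_pow_self
  have hlt : Nat.primeCounting (2 ^ k) + t < Nat.primeCounting (2 ^ (2 * k)) := by
    by_contra hc
    push Not at hc
    have h5 : 2 * k * Nat.primeCounting (2 ^ (2 * k)) ≤ 2 * k * (2 * 2 ^ k) :=
      Nat.mul_le_mul_left _ (by omega)
    nlinarith
  have h5 := Nat.nth_lt_of_lt_count (p := Nat.Prime) (n := 2 ^ (2 * k) + 1) hlt
  rw [h4]
  exact Nat.lt_succ_iff.1 h5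

/-- Index of the prime chosen in slot `t`. -/
def slotIdx (j s : ℕ) (f : Fin j → Fin s) (t : Fin j) : ℕ := (t : ℕ) * s + (f t : ℕ)

lemma slotIdx_lt {j s : ℕ} (f : Fin j → Fin s) (t : Fin j) : slotIdx j s f t < j * s := by
  have h1 := (f t).2
  have h2 : ((t : ℕ) + 1) * s ≤ j * s := Nat.mul_le_mul_right _ t.2
  unfold slotIdx
  rw [add_mul] at h2
  omega

lemma slotIdx_div {j s : ℕ} (f : Fin j → Fin s) (t : Fin j) : slotIdx j s f t / s = (t : ℕ) := by
  have hs : 0 < s := by have := (f t).2; omega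
  unfold slotIdx
  rw [mul_comm, Nat.mul_add_div hs, Nat.div_eq_of_lt (f t).2, add_zero]

lemma slotIdx_mod {j s : ℕ} (f : Fin j → Fin s) (t : Fin j) :
    slotIdx j s f t % s = (f t : ℕ) := by
  unfold slotIdx
  rw [mul_comm, Nat.mul_add_mod, Nat.mod_eq_of_lt (f t).2]

/-- The prime chosen in slot `t`. -/
noncomputable def slotPrime (k j s : ℕ) (f : Fin j → Fin s) (t : Fin j) : ℕ :=
  pr k (slotIdx j s f t)

lemma prime_slotPrime (k j s : ℕ) (f : Fin j → Fin s) (t : Fin j) :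
    (slotPrime k j s f t).Prime := prime_pr _ _

lemma slotPrime_eq_iff {k j s : ℕ} {f g : Fin j → Fin s} {t u : Fin j} :
    slotPrime k j s f t = slotPrime k j s g u ↔ t = u ∧ f t = g u := by
  constructor
  · intro h
    have h' := pr_inj h
    have h1 : (t : ℕ) = (u : ℕ) := by rw [← slotIdx_div f t, ← slotIdx_div g u, h']
    refine ⟨Fin.ext h1, Fin.ext ?_⟩
    rw [← slotIdx_mod f t, ← slotIdx_mod g u, h']
  · rintro ⟨rfl, h⟩
    simp [slotPrime, slotIdx, h]

/-- The product with one prime from each slot. -/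
noncomputable def dProd (k j s : ℕ) (f : Fin j → Fin s) : ℕ := ∏ t, slotPrime k j s f t

lemma dProd_pos (k j s : ℕ) (f : Fin j → Fin s) : 0 < dProd k j s f :=
  Finset.prod_pos fun t _ => (prime_slotPrime k j s f t).pos

lemma two_pow_le_dProd (k j s : ℕ) (f : Fin j → Fin s) : 2 ^ (k * j) ≤ dProd k j s f := by
  calc 2 ^ (k * j) = ∏ _t : Fin j, 2 ^ k := by simp [pow_mul]
    _ ≤ dProd k j s f := Finset.prod_le_prod' fun t _ => (two_pow_lt_pr _ _).le

lemma dProd_le {k j s : ℕ} (hk : 8 ≤ k) (hjs : j * s ≤ 2 ^ k) (f : Fin j → Fin s) :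
    dProd k j s f ≤ 2 ^ (2 * k * j) := by
  calc dProd k j s f ≤ ∏ _t : Fin j, 4 ^ k :=
        Finset.prod_le_prod' fun t _ => pr_le hk ((slotIdx_lt f t).trans_le hjs)
    _ = 2 ^ (2 * k * j) := by simp [pow_mul]

lemma slotPrime_dvd_dProd_iff {k j s : ℕ} {f : Fin j → Fin s} {q : ℕ} (hq : q.Prime) :
    q ∣ dProd k j s f ↔ ∃ t, q = slotPrime k j s f t := by
  constructor
  · intro h
    obtain ⟨t, -, ht⟩ := (hq.prime.dvd_finsetProd_iff _).1 h
    exact ⟨t, (Nat.prime_dvd_prime_iff_eq hq (prime_slotPrime _ _ _ _ _)).1 ht⟩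
  · rintro ⟨t, rfl⟩
    exact Finset.dvd_prod_of_mem _ (Finset.mem_univ t)

lemma dProd_injective (k j s : ℕ) : Function.Injective (dProd k j s) := by
  intro f g h
  funext t
  have h1 : slotPrime k j s f t ∣ dProd k j s g :=
    h ▸ Finset.dvd_prod_of_mem _ (Finset.mem_univ t)
  obtain ⟨u, hu⟩ := (slotPrime_dvd_dProd_iff (prime_slotPrime _ _ _ _ _)).1 h1
  obtain ⟨rfl, h2⟩ := slotPrime_eq_iff.1 hu
  exact h2

/-- The product of the pool. -/
noncomputable def poolProd (k : ℕ) : ℕ := ∏ t ∈ Finset.range (2 ^ k), pr k t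

lemma poolProd_pos (k : ℕ) : 0 < poolProd k := Finset.prod_pos fun t _ => (prime_pr k t).pos

lemma dProd_dvd_poolProd {k j s : ℕ} (hjs : j * s ≤ 2 ^ k) (f : Fin j → Fin s) :
    dProd k j s f ∣ poolProd k := by
  unfold dProd slotPrime
  rw [← Finset.prod_image (f := pr k) (g := slotIdx j s f)]
  · apply Finset.prod_dvd_prod_of_subset
    intro x hx
    obtain ⟨t, -, rfl⟩ := Finset.mem_image.1 hx
    exact Finset.mem_range.2 ((slotIdx_lt f t).trans_le hjs)
  · intro t _ u _ h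
    exact Fin.ext (by rw [← slotIdx_div f t, ← slotIdx_div f u, h])

lemma poolProd_le {k : ℕ} (hk : 8 ≤ k) : poolProd k ≤ 2 ^ (2 * k * 2 ^ k) := by
  calc poolProd k ≤ ∏ _t ∈ Finset.range (2 ^ k), 4 ^ k :=
        Finset.prod_le_prod' fun t ht => pr_le hk (Finset.mem_range.1 ht)
    _ = 2 ^ (2 * k * 2 ^ k) := by simp [pow_mul]

end Vale.Agent.P012
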