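import Vale.Agent.P012.Prob
import Vale.Agent.P012.Pool

/-!
Counting functions on slots, and the divisibility structure of slot products.
-/

namespace Vale.Agent.P012

open Finset

/-- A set of choice functions that is determined by the slots `≥ j'` and a label is small. -/
lemma card_le_of_agree {j s L : ℕ} (j' : ℕ) (hj : j' ≤ j) (S : Finset (Fin j → Fin s))
    (lab : (Fin j → Fin s) → Fin L)
    (h : ∀ f ∈ S, ∀ g ∈ S, (∀ t : Fin j, j' ≤ (t : ℕ) → f t = g t) → lab f = lab g → f = g) :
    S.card ≤ s ^ (j - j') * L := by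
  classical
  have hcard : ((univ : Finset ((Fin (j - j') → Fin s) × Fin L))).card = s ^ (j - j') * L := by
    simp
  rw [← hcard]
  refine Finset.card_le_card_of_injOn
    (fun f => (fun t => f ⟨j' + (t : ℕ), by omega⟩, lab f)) (fun f _ => by simp) ?_
  intro f hf g hg hfg
  simp only [Prod.mk.injEq] at hfg
  refine h f hf g hg (fun t ht => ?_) hfg.2
  have := congrFun hfg.1 ⟨(t : ℕ) - j', by omega⟩
  simp only at this
  have ht' : (⟨j' + ((t : ℕ) - j'), by omega⟩ : Fin j) = t := Fin.ext (by simp only; omega)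
  rwa [ht'] at this

/-- Probability form of `card_le_of_agree`. -/
lemma prb_le_of_agree {j s L : ℕ} (hs : 0 < s) (j' : ℕ) (hj : j' ≤ j)
    (P : (Fin j → Fin s) → Prop) (lab : (Fin j → Fin s) → Fin L)
    (h : ∀ f, P f → ∀ g, P g → (∀ t : Fin j, j' ≤ (t : ℕ) → f t = g t) → lab f = lab g → f = g) :
    prb P ≤ (L : ℝ) / (s : ℝ) ^ j' := by
  classical
  rw [prb_eq]
  have hc := card_le_of_agree j' hj (univ.filter P) lab (fun f hf g hg => by
    simp only [mem_filter, mem_univ, true_and] at hf hg
    exact h f hf g hg)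
  have hs' : (0 : ℝ) < s := by exact_mod_cast hs
  rw [Fintype.card_fun, Fintype.card_fin, Fintype.card_fin]
  push_cast
  rw [div_le_div_iff₀ (by positivity) (by positivity)]
  have hc' : ((univ.filter P).card : ℝ) ≤ (s : ℝ) ^ (j - j') * L := by exact_mod_cast hc
  calc ((univ.filter P).card : ℝ) * (s : ℝ) ^ j' ≤ (s : ℝ) ^ (j - j') * L * (s : ℝ) ^ j' := by
        gcongr
    _ = (L : ℝ) * (s : ℝ) ^ j := by
        rw [mul_right_comm, ← pow_add, Nat.sub_add_cancel hj, mul_comm]

/-- The low part of a slot product. -/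
noncomputable def lowProd (k j s j' : ℕ) (f : Fin j → Fin s) : ℕ :=
  ∏ t ∈ univ.filter (fun t : Fin j => (t : ℕ) < j'), slotPrime k j s f t

/-- The high part of a slot product. -/
noncomputable def highProd (k j s j' : ℕ) (f : Fin j → Fin s) : ℕ :=
  ∏ t ∈ univ.filter (fun t : Fin j => ¬ (t : ℕ) < j'), slotPrime k j s f t

lemma dProd_eq_low_mul_high (k j s j' : ℕ) (f : Fin j → Fin s) :
    dProd k j s f = lowProd k j s j' f * highProd k j s j' f :=
  (Finset.prod_filter_mul_prod_filter_not univ _ _).symm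

lemma highProd_congr {k j s j' : ℕ} {f g : Fin j → Fin s}
    (h : ∀ t : Fin j, j' ≤ (t : ℕ) → f t = g t) :
    highProd k j s j' f = highProd k j s j' g := by
  refine Finset.prod_congr rfl fun t ht => ?_
  simp only [Finset.mem_filter, not_lt] at ht
  exact slotPrime_eq_iff.2 ⟨rfl, h t ht.2⟩

lemma lowProd_le {k j s : ℕ} (hk : 8 ≤ k) (hjs : j * s ≤ 2 ^ k) (j' : ℕ) (f : Fin j → Fin s) :
    lowProd k j s j' f ≤ 2 ^ (2 * k * j') := by
  calc lowProd k j s j' f
      ≤ ∏ _t ∈ univ.filter (fun t : Fin j => (t : ℕ) < j'), 4 ^ k :=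
        Finset.prod_le_prod' fun t _ => pr_le hk ((slotIdx_lt f t).trans_le hjs)
    _ ≤ 2 ^ (2 * k * j') := by
        rw [Finset.prod_const, show (4 : ℕ) ^ k = 2 ^ (2 * k) by rw [pow_mul]; norm_num, ← pow_mul]
        refine Nat.pow_le_pow_right (by norm_num) (Nat.mul_le_mul_left _ ?_)
        calc (univ.filter (fun t : Fin j => (t : ℕ) < j')).card
            ≤ (Finset.range j').card :=
              Finset.card_le_card_of_injOn (fun t => (t : ℕ))
                (fun t ht => by simpa using ht) (fun a _ b _ h => Fin.ext h)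
          _ = j' := Finset.card_range _

lemma eq_of_lowProd_eq {k j s j' : ℕ} {f g : Fin j → Fin s}
    (h : ∀ t : Fin j, j' ≤ (t : ℕ) → f t = g t)
    (hl : lowProd k j s j' f = lowProd k j s j' g) : f = g := by
  apply dProd_injective k j s
  rw [dProd_eq_low_mul_high k j s j' f, dProd_eq_low_mul_high k j s j' g, hl, highProd_congr h]

/-- Probability that prescribed slot indices are all chosen. -/
lemma prb_contains_le {j s : ℕ} (hs : 0 < s) (W : Finset ℕ) :
    prb (fun f : Fin j → Fin s => ∀ x ∈ W, ∃ t, slotIdx j s f t = x) ≤ 1 / (s : ℝ) ^ W.card := by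
  classical
  set P := fun f : Fin j → Fin s => ∀ x ∈ W, ∃ t, slotIdx j s f t = x with hP
  by_cases hne : ∃ f, P f
  swap
  · push Not at hne
    rw [prb_eq, Finset.filter_false_of_mem fun f _ => hne f]
    simp
  obtain ⟨f0, hf0⟩ := hne
  set T := univ.filter (fun t : Fin j => slotIdx j s f0 t ∈ W) with hT
  have hTc : T.card = W.card := by
    apply Finset.card_bij (fun t _ => slotIdx j s f0 t)
    · intro t ht
      exact (Finset.mem_filter.1 ht).2
    · intro t _ u _ h
      exact Fin.ext (by rw [← slotIdx_div f0 t, ← slotIdx_div f0 u, h])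
    · intro x hx
      obtain ⟨t, ht⟩ := hf0 x hx
      exact ⟨t, Finset.mem_filter.2 ⟨mem_univ _, ht ▸ hx⟩, ht⟩
  have key : ∀ f, P f → ∀ t ∈ T, f t = f0 t := by
    intro f hf t ht
    obtain ⟨u, hu⟩ := hf _ (Finset.mem_filter.1 ht).2
    have h1 : u = t := Fin.ext (by rw [← slotIdx_div f u, ← slotIdx_div f0 t, hu])
    subst h1
    exact Fin.ext (by rw [← slotIdx_mod f u, ← slotIdx_mod f0 u, hu])
  have hcard : (univ.filter P).card ≤ s ^ (Tᶜ).card := by
    have : ((univ : Finset ({t // t ∈ Tᶜ} → Fin s))).card = s ^ (Tᶜ).card := by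
      simp [Finset.card_compl]
    rw [← this]
    refine Finset.card_le_card_of_injOn (fun f t => f t.1) (fun f _ => by simp) ?_
    intro f hf g hg hfg
    simp only [coe_filter, mem_univ, true_and, Set.mem_ofPred_eq] at hf hg
    funext t
    by_cases ht : t ∈ T
    · rw [key f hf t ht, key g hg t ht]
    · exact congrFun hfg ⟨t, Finset.mem_compl.2 ht⟩
  rw [prb_eq, Fintype.card_fun, Fintype.card_fin, Fintype.card_fin, ← hTc]
  have hs' : (0 : ℝ) < s := by exact_mod_cast hs
  push_cast
  rw [div_le_div_iff₀ (by positivity) (by positivity), one_mul]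
  have hj : (Tᶜ).card + T.card = j := by rw [Finset.card_compl_add_card, Fintype.card_fin]
  calc ((univ.filter P).card : ℝ) * (s : ℝ) ^ T.card ≤ (s : ℝ) ^ (Tᶜ).card * (s : ℝ) ^ T.card := by
        gcongr
        exact_mod_cast hcard
    _ = (s : ℝ) ^ j := by rw [← pow_add, hj]

end Vale.Agent.P012
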