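import Vale.Agent.P012.Prob
import Vale.Agent.P012.Pool

/-!
A prime modulo which a family has few coincidences.
-/

namespace Vale.Agent.P012

open Finset

lemma card_prime_divisors_le {m Z e : ℕ} (hm : 0 < m) (hmZ : m < 2 ^ Z) (S : Finset ℕ)
    (hS : ∀ p ∈ S, p.Prime ∧ 2 ^ e ≤ p) : e * (S.filter (· ∣ m)).card ≤ Z := by
  classical
  have h1 : (2 ^ e) ^ (S.filter (· ∣ m)).card ≤ ∏ p ∈ S.filter (· ∣ m), p := by
    rw [← Finset.prod_const]
    exact Finset.prod_le_prod' fun p hp => (hS p (Finset.mem_filter.1 hp).1).2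
  have h2 : ∏ p ∈ S.filter (· ∣ m), p ∣ m :=
    Finset.prod_primes_dvd m (fun p hp => (hS p (Finset.mem_filter.1 hp).1).1.prime)
      (fun p hp => (Finset.mem_filter.1 hp).2)
  have h3 := (h1.trans (Nat.le_of_dvd hm h2)).trans_lt hmZ
  rw [← pow_mul] at h3
  exact ((Nat.pow_lt_pow_iff_right (by norm_num)).1 h3).le

lemma two_pow_half_le {l : ℕ} (hl : 32 ≤ l) : 2 ^ (l / 2) * (8 * l) ≤ 2 ^ l := by
  have h : ∀ m : ℕ, 16 ≤ m → 8 * (2 * m + 1) ≤ 2 ^ m := by
    intro m hm
    induction m, hm using Nat.le_induction with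
    | base => norm_num
    | succ m _ ih => rw [pow_succ]; omega
  calc 2 ^ (l / 2) * (8 * l) ≤ 2 ^ (l / 2) * 2 ^ (l / 2) :=
        Nat.mul_le_mul_left _ ((Nat.mul_le_mul_left 8 (by omega)).trans (h (l / 2) (by omega)))
    _ ≤ 2 ^ l := by rw [← pow_add]; exact Nat.pow_le_pow_right (by norm_num) (by omega)

/-- A prime of size about `2^l` modulo which `A` has few coincidences. -/
lemma exists_prime_phi_le {Ω : Type*} [Fintype Ω] [Nonempty Ω] (A : Ω → ℕ) {Z l : ℕ}
    (hl : 32 ≤ l) (hA : ∀ w, A w < 2 ^ Z) :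
    ∃ p : ℕ, p.Prime ∧ p ≤ 2 ^ l ∧ 2 ^ l ≤ 8 * l * p ∧ 2 ^ (l / 2) ≤ p ∧
      phi A p ≤ coll A + 12 * (Z : ℝ) / 2 ^ l := by
  classical
  set L0 := 2 ^ l / (8 * l) with hL0
  set S := (Finset.Icc (L0 + 1) (2 ^ l)).filter Nat.Prime with hS
  have hL0half : 2 ^ (l / 2) ≤ L0 :=
    (Nat.le_div_iff_mul_le (by omega)).2 (two_pow_half_le hl)
  have hcount : 2 ^ l ≤ 4 * l * S.card := by
    have h1 := two_pow_le_primeCounting (m := l) (by omega)
    have h2 : Nat.primeCounting (2 ^ l) ≤ S.card + (L0 + 1) := by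
      rw [← Nat.primesLE_card_eq_primeCounting]
      calc (Nat.primesLE (2 ^ l)).card ≤ (S ∪ Finset.range (L0 + 1)).card := by
            apply Finset.card_le_card
            intro p hp
            rw [Nat.mem_primesLE] at hp
            simp only [hS, Finset.mem_union, Finset.mem_filter, Finset.mem_Icc, Finset.mem_range]
            rcases Nat.lt_or_ge p (L0 + 1) with h | h
            · exact Or.inr h
            · exact Or.inl ⟨⟨h, hp.1⟩, hp.2⟩
        _ ≤ S.card + (L0 + 1) := by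
            simpa using Finset.card_union_le S (Finset.range (L0 + 1))
    have h3 : 8 * l * L0 ≤ 2 ^ l := Nat.mul_div_le _ _
    have h4 : l * Nat.primeCounting (2 ^ l) ≤ l * (S.card + (L0 + 1)) := Nat.mul_le_mul_left _ h2
    have h5 : 8 * l + 4 ≤ 2 ^ l := by
      have h6 : ∀ m : ℕ, 32 ≤ m → 8 * m + 4 ≤ 2 ^ m := by
        intro m hm
        induction m, hm using Nat.le_induction with
        | base => norm_num
        | succ m _ ih => rw [pow_succ]; omega
      exact h6 l hl
    nlinarith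
  have hSpos : 0 < S.card := by
    by_contra h
    have : S.card = 0 := by omega
    rw [this] at hcount
    have := Nat.two_pow_pos l
    omega
  have hSp : ∀ p ∈ S, p.Prime ∧ 2 ^ (l / 2) ≤ p := by
    intro p hp
    simp only [hS, Finset.mem_filter, Finset.mem_Icc] at hp
    exact ⟨hp.2, hL0half.trans (by omega)⟩
  have hbound : ∀ w : Ω × Ω, (∑ p ∈ S, if (p : ℤ) ∣ dif A w then (1 : ℝ) else 0) ≤
      (S.card : ℝ) * (if dif A w = 0 then 1 else 0) + 3 * (Z : ℝ) / l := by
    intro w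
    by_cases h0 : dif A w = 0
    · simp only [h0, dvd_zero, if_true, Finset.sum_const, nsmul_eq_mul, mul_one]
      have : (0 : ℝ) ≤ 3 * (Z : ℝ) / l := by positivity
      linarith
    · rw [if_neg h0, mul_zero, zero_add, Finset.sum_boole]
      have hm : 0 < (dif A w).natAbs := Int.natAbs_pos.2 h0
      have hmZ : (dif A w).natAbs < 2 ^ Z := by
        have h1 := hA w.1
        have h2 := hA w.2
        unfold dif
        omega
      have hc := card_prime_divisors_le hm hmZ S hSp
      have heq : S.filter (fun p : ℕ => (p : ℤ) ∣ dif A w) =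
          S.filter (· ∣ (dif A w).natAbs) := by
        refine Finset.filter_congr fun p _ => ?_
        exact Int.natCast_dvd
      rw [heq, le_div_iff₀ (by positivity)]
      have h2 : (S.filter (· ∣ (dif A w).natAbs)).card * l ≤ 3 * Z := by
        calc (S.filter (· ∣ (dif A w).natAbs)).card * l
            ≤ (S.filter (· ∣ (dif A w).natAbs)).card * (3 * (l / 2)) :=
              Nat.mul_le_mul_left _ (by omega)
          _ = 3 * (l / 2 * (S.filter (· ∣ (dif A w).natAbs)).card) := by ring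
          _ ≤ 3 * Z := Nat.mul_le_mul_left _ hc
      exact_mod_cast h2
  have hsum : ∑ p ∈ S, phi A p ≤ (S.card : ℝ) * coll A + 3 * (Z : ℝ) / l := by
    have hN : (0 : ℝ) < (Fintype.card (Ω × Ω) : ℝ) := by exact_mod_cast Fintype.card_pos
    simp only [phi, coll, prb_eq_sum]
    rw [← Finset.sum_div, Finset.sum_comm, div_le_iff₀ hN]
    calc ∑ w : Ω × Ω, ∑ p ∈ S, (if (p : ℤ) ∣ dif A w then (1 : ℝ) else 0)
        ≤ ∑ w : Ω × Ω, ((S.card : ℝ) * (if dif A w = 0 then 1 else 0) + 3 * (Z : ℝ) / l) :=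
          Finset.sum_le_sum fun w _ => hbound w
      _ = _ := by
          rw [Finset.sum_add_distrib, ← Finset.mul_sum, Finset.sum_const, Finset.card_univ,
            nsmul_eq_mul]
          field_simp
  obtain ⟨p, hp, hmin⟩ := Finset.exists_min_image S (fun p => phi A p) (Finset.card_pos.1 hSpos)
  have hp' := hp
  simp only [hS, Finset.mem_filter, Finset.mem_Icc] at hp'
  refine ⟨p, hp'.2, hp'.1.2, ?_, (hSp p hp).2, ?_⟩
  · have := Nat.lt_mul_div_succ (2 ^ l) (show 0 < 8 * l by omega)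
    have h2 : 8 * l * (2 ^ l / (8 * l) + 1) ≤ 8 * l * p := Nat.mul_le_mul_left _ hp'.1.1
    omega
  · have h1 : (S.card : ℝ) * phi A p ≤ (S.card : ℝ) * coll A + 3 * (Z : ℝ) / l := by
      refine le_trans ?_ hsum
      rw [← nsmul_eq_mul]
      exact Finset.card_nsmul_le_sum S _ _ hmin
    have hSr : (0 : ℝ) < S.card := by exact_mod_cast hSpos
    have h2 : 3 * (Z : ℝ) / l ≤ (S.card : ℝ) * (12 * (Z : ℝ) / 2 ^ l) := by
      have hc : (2 : ℝ) ^ l ≤ 4 * l * S.card := by exact_mod_cast hcount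
      rw [mul_div, div_le_div_iff₀ (by positivity) (by positivity)]
      have hZ : (0 : ℝ) ≤ 3 * (Z : ℝ) := by positivity
      nlinarith
    refine le_of_mul_le_mul_left ?_ hSr
    linarith

end Vale.Agent.P012
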