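import Mathlib.Algebra.BigOperators.Fin
import Mathlib.Algebra.Order.BigOperators.Group.Finset
import Mathlib.Algebra.BigOperators.Group.Finset.Basic
import Mathlib.Algebra.BigOperators.Ring.Multiset

/-!
Sums of boundedly many divisors, repetitions allowed.
-/

namespace Vale.Agent.P012

/-- `x` is a sum of at most `T` divisors of `N`, repetitions allowed. -/
def Rep (N T x : ℕ) : Prop := ∃ s : Multiset ℕ, s.card ≤ T ∧ (∀ d ∈ s, d ∣ N) ∧ s.sum = x

lemma Rep.zero (N T : ℕ) : Rep N T 0 := ⟨0, by simp, by simp, by simp⟩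

lemma Rep.single {N d : ℕ} (h : d ∣ N) : Rep N 1 d := ⟨{d}, by simp, by simpa using h, by simp⟩

lemma Rep.mono {N N' T T' x : ℕ} (h : Rep N T x) (hN : N ∣ N') (hT : T ≤ T') : Rep N' T' x := by
  obtain ⟨s, h1, h2, h3⟩ := h
  exact ⟨s, h1.trans hT, fun d hd => (h2 d hd).trans hN, h3⟩

lemma Rep.add {N T U x y : ℕ} (hx : Rep N T x) (hy : Rep N U y) : Rep N (T + U) (x + y) := by
  obtain ⟨s, h1, h2, h3⟩ := hx
  obtain ⟨t, k1, k2, k3⟩ := hy
  refine ⟨s + t, by rw [Multiset.card_add]; omega, fun d hd => ?_, by rw [Multiset.sum_add, h3, k3]⟩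
  rcases Multiset.mem_add.1 hd with h | h
  · exact h2 d h
  · exact k2 d h

lemma Rep.mul {N M T c x : ℕ} (h : Rep N T x) (hc : c ∣ M) : Rep (M * N) T (c * x) := by
  obtain ⟨s, h1, h2, h3⟩ := h
  refine ⟨s.map (fun d => c * d), by simpa using h1, fun d hd => ?_, ?_⟩
  · obtain ⟨e, he, rfl⟩ := Multiset.mem_map.1 hd
    exact mul_dvd_mul hc (h2 e he)
  · rw [Multiset.sum_map_mul_left, Multiset.map_id', h3]

lemma Rep.sum {ι : Type*} (s : Finset ι) {N T : ℕ} {f : ι → ℕ} (h : ∀ i ∈ s, Rep N T (f i)) :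
    Rep N (s.card * T) (∑ i ∈ s, f i) := by
  classical
  induction s using Finset.induction with
  | empty => simpa using Rep.zero N 0
  | insert a s ha ih =>
    rw [Finset.sum_insert ha, Finset.card_insert_of_notMem ha, add_mul, one_mul, add_comm _ T]
    exact (h a (Finset.mem_insert_self a s)).add (ih fun i hi => h i (Finset.mem_insert_of_mem hi))

end Vale.Agent.P012
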