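import Vale.Agent.P012.Covering
import Vale.Agent.P012.Base
import Vale.Agent.P012.PrimeAvg
import Vale.Agent.P012.Rep

/-!
The moduli of the bottom scales, and the representation of all integers up to `2^(4k 2^iB)`.
-/

namespace Vale.Agent.P012

open Finset

lemma scale_lam_ge {k i : ℕ} (hi : i + 6 ≤ k) : k + 5 * i ≤ (k - i) * 2 ^ i := by
  have h2 : i + 1 ≤ 2 ^ i := Nat.lt_two_pow_self
  have h3 : 6 * i ≤ (k - i) * i := Nat.mul_le_mul_right i (by omega)
  have h4 : (k - i) * (i + 1) ≤ (k - i) * 2 ^ i := Nat.mul_le_mul_left _ h2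
  rw [mul_add, mul_one] at h4
  omega

lemma exists_log_bound : ∃ k0 : ℕ, 32 ≤ k0 ∧ ∀ k ≥ k0, (37 * k) ^ 4 ≤ 2 ^ (k / 2) := by
  have h := tendsto_pow_const_div_const_pow_of_one_lt 4 (show (1 : ℝ) < 2 by norm_num)
  obtain ⟨n0, hn0⟩ := Filter.eventually_atTop.1
    (h.eventually_le_const (show (0 : ℝ) < 1 / (37 ^ 4 * 3 ^ 4) by positivity))
  refine ⟨2 * n0 + 32, by omega, fun k hk => ?_⟩
  have h1 := hn0 (k / 2) (by omega)
  have hm : 1 ≤ k / 2 := by omega
  rw [div_le_div_iff₀ (by positivity) (by positivity)] at h1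
  have h2 : (37 : ℕ) ^ 4 * 3 ^ 4 * (k / 2) ^ 4 ≤ 2 ^ (k / 2) := by
    have h3 : ((37 ^ 4 * 3 ^ 4 * (k / 2) ^ 4 : ℕ) : ℝ) ≤ ((2 ^ (k / 2) : ℕ) : ℝ) := by
      simp only [Nat.cast_mul, Nat.cast_pow, Nat.cast_ofNat]
      linarith
    exact_mod_cast h3
  calc (37 * k) ^ 4 ≤ (37 * (3 * (k / 2))) ^ 4 :=
        Nat.pow_le_pow_left (Nat.mul_le_mul_left _ (by omega)) _
    _ = 37 ^ 4 * 3 ^ 4 * (k / 2) ^ 4 := by rw [mul_pow, mul_pow, mul_assoc]
    _ ≤ _ := h2

/-- At scale `i`, an integer can be reduced modulo a prime by five divisor products. -/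
theorem exists_step_modulus : ∃ k0 : ℕ, ∀ k ≥ k0, ∀ i, i + 6 ≤ k → ∃ p : ℕ, p.Prime ∧
    2 ^ ((k - i) * 2 ^ i) ≤ 8 * ((k - i) * 2 ^ i) * p ∧ 2 ^ (((k - i) * 2 ^ i) / 2) ≤ p ∧ p ≤ 2 ^ ((k - i) * 2 ^ i) ∧
    ∀ x, 5 * 2 ^ (4 * k * 2 ^ i) ≤ x → ∃ s y, x = s + p * y ∧ s ≤ 5 * 2 ^ (4 * k * 2 ^ i) ∧
      Rep (poolProd k * poolProd k) 5 s := by
  classical
  obtain ⟨k0, hk32, hk0⟩ := exists_log_bound
  refine ⟨k0, fun k hk i hi => ?_⟩
  set j := 2 ^ i with hj
  set r := k - i with hr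
  set lam := r * j with hlam
  have hlamk : k + 5 * i ≤ lam := scale_lam_ge hi
  have hjs : j * 2 ^ r ≤ 2 ^ k := by
    rw [hj, hr, ← pow_add, Nat.add_sub_cancel' (by omega)]
  have : Nonempty (Fin j → Fin (2 ^ r)) := ⟨fun _ => ⟨0, Nat.two_pow_pos r⟩⟩
  set A := dProd k j (2 ^ r) with hA
  set Z := 2 * k * j + 1 with hZ
  have hAle : ∀ w, A w ≤ 2 ^ (2 * k * j) := dProd_le (by omega) hjs
  have hAZ : ∀ w, A w < 2 ^ Z := fun w =>
    lt_of_le_of_lt (hAle w) (Nat.pow_lt_pow_right one_lt_two (by omega))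
  obtain ⟨p, hp, hple, hpl, hph, hphi⟩ := exists_prime_phi_le A (l := lam) (by omega) hAZ
  refine ⟨p, hp, hpl, hph, hple, fun x hx => ?_⟩
  have : Fact p.Prime := ⟨hp⟩
  -- the residues of the family fill much of `ZMod p`
  set I := (univ : Finset (Fin j → Fin (2 ^ r))).image (fun w => (A w : ZMod p)) with hI
  have hprb : prb (fun w : (Fin j → Fin (2 ^ r)) × (Fin j → Fin (2 ^ r)) =>
      (A w.1 : ZMod p) = (A w.2 : ZMod p)) = phi A p := by
    unfold phi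
    congr 1
    ext w
    rw [← sub_eq_zero, ← ZMod.intCast_zmod_eq_zero_iff_dvd]
    simp [dif]
  set c := 24 * k * j + 13 with hc
  have hcoll : coll A ≤ 1 / (2 : ℝ) ^ lam := coll_dProd_le k j r
  have hIc : (2 : ℝ) ^ lam ≤ (I.card : ℝ) * c := by
    have h1 := one_le_card_image_mul_prb (fun w => (A w : ZMod p))
    rw [hprb, ← hI] at h1
    have h2 : phi A p ≤ (c : ℝ) / 2 ^ lam := by
      have h3 : (1 : ℝ) / 2 ^ lam + 12 * (Z : ℝ) / 2 ^ lam = (c : ℝ) / 2 ^ lam := by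
        rw [← add_div, hZ, hc]
        push_cast
        ring
      linarith
    have h4 := h1.trans (mul_le_mul_of_nonneg_left h2 (Nat.cast_nonneg _))
    rwa [← mul_div_assoc, one_le_div (by positivity)] at h4
  have hc4 : (c : ℝ) ^ 4 ≤ 2 ^ lam := by
    have h1 : c ≤ 37 * k * j := by
      have : 1 ≤ k * j := Nat.one_le_iff_ne_zero.2 (Nat.mul_ne_zero (by omega) (by positivity))
      rw [hc, mul_assoc 24 k j, mul_assoc 37 k j]
      omega
    have h2 : c ^ 4 ≤ 2 ^ lam := by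
      calc c ^ 4 ≤ (37 * k * j) ^ 4 := Nat.pow_le_pow_left h1 _
        _ = (37 * k) ^ 4 * 2 ^ (i * 4) := by rw [mul_pow, hj, ← pow_mul]
        _ ≤ 2 ^ (k / 2) * 2 ^ (i * 4) := Nat.mul_le_mul_right _ (hk0 k hk)
        _ ≤ 2 ^ lam := by
            rw [← pow_add]
            exact Nat.pow_le_pow_right (by norm_num) (by omega)
    exact_mod_cast h2
  have hc0 : (0 : ℝ) < c := by rw [hc]; positivity
  have hIne : I.Nonempty := univ_nonempty.image _
  have hI0 : (0 : ℝ) < I.card := by exact_mod_cast hIne.card_pos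
  have hyp : (p : ℝ) ^ 2 * ((p : ℝ) / (I.card * I.card)) ^ 5 <
      ((({0} : Finset (ZMod p)).card : ℝ)) ^ 2 := by
    rw [card_singleton, Nat.cast_one, one_pow, div_pow, ← mul_div_assoc,
      div_lt_one (by positivity)]
    have hP : (p : ℝ) ≤ 2 ^ lam := by exact_mod_cast hple
    have hL : (1 : ℝ) < (2 : ℝ) ^ lam := one_lt_pow₀ one_lt_two (by omega)
    set L : ℝ := (2 : ℝ) ^ lam with hLdef
    have h1 : L ^ 7 * (c : ℝ) ^ 10 < L ^ 10 := by
      have h2 : ((c : ℝ) ^ 10) ^ 2 ≤ L ^ 5 := by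
        calc ((c : ℝ) ^ 10) ^ 2 = ((c : ℝ) ^ 4) ^ 5 := by ring
          _ ≤ L ^ 5 := pow_le_pow_left₀ (by positivity) hc4 _
      have h3 : (c : ℝ) ^ 10 < L ^ 3 := by
        have h6 : L ^ 5 < (L ^ 3) ^ 2 :=
          (pow_lt_pow_right₀ hL (show 5 < 3 * 2 by norm_num)).trans_le (le_of_eq (pow_mul L 3 2))
        exact lt_of_pow_lt_pow_left₀ 2 (by positivity) (h2.trans_lt h6)
      calc L ^ 7 * (c : ℝ) ^ 10 < L ^ 7 * L ^ 3 := mul_lt_mul_of_pos_left h3 (by positivity)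
        _ = L ^ 10 := by ring
    have h4 : (p : ℝ) ^ 2 * (p : ℝ) ^ 5 ≤ L ^ 7 := by
      rw [← pow_add]
      exact pow_le_pow_left₀ (Nat.cast_nonneg _) hP _
    have h5 : L ^ 10 ≤ ((I.card : ℝ) * I.card) ^ 5 * (c : ℝ) ^ 10 := by
      calc L ^ 10 ≤ ((I.card : ℝ) * c) ^ 10 := pow_le_pow_left₀ (by positivity) hIc _
        _ = _ := by ring
    refine lt_of_mul_lt_mul_right ?_ (le_of_lt (pow_pos hc0 10))
    calc (p : ℝ) ^ 2 * (p : ℝ) ^ 5 * (c : ℝ) ^ 10 ≤ L ^ 7 * (c : ℝ) ^ 10 := by gcongr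
      _ < L ^ 10 := h1
      _ ≤ _ := h5
  obtain ⟨a₁, ha₁, a₂, ha₂, f, hf, hxe⟩ := covering {0} I I hIne hIne 5 (x : ZMod p) hyp
  rw [mem_singleton] at ha₁ ha₂
  subst ha₁ ha₂
  rw [add_zero, zero_add] at hxe
  have hw1 : ∀ t, ∃ w, (A w : ZMod p) = (f t).1 := fun t => by
    obtain ⟨w, -, hw⟩ := mem_image.1 (hf t).1
    exact ⟨w, hw⟩
  have hw2 : ∀ t, ∃ w, (A w : ZMod p) = (f t).2 := fun t => by
    obtain ⟨w, -, hw⟩ := mem_image.1 (hf t).2
    exact ⟨w, hw⟩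
  choose u hu using hw1
  choose v hv using hw2
  set s := ∑ t : Fin 5, A (u t) * A (v t) with hs
  have hsle : s ≤ 5 * 2 ^ (4 * k * j) := by
    calc s ≤ ∑ _t : Fin 5, 2 ^ (4 * k * j) := by
          refine Finset.sum_le_sum fun t _ => ?_
          refine (Nat.mul_le_mul (hAle _) (hAle _)).trans_eq ?_
          rw [← pow_add]
          ring_nf
      _ = 5 * 2 ^ (4 * k * j) := by simp
  have hcast : (x : ZMod p) = (s : ZMod p) := by
    rw [hxe, hs]
    push_cast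
    simp only [hu, hv]
  have hmod : p ∣ x - s := by
    refine (ZMod.natCast_eq_zero_iff (x - s) p).1 ?_
    rw [Nat.cast_sub (hsle.trans hx), hcast, sub_self]
  obtain ⟨y, hy⟩ := hmod
  refine ⟨s, y, by omega, hsle, ?_⟩
  have hrep := Rep.sum (univ : Finset (Fin 5)) (N := poolProd k * poolProd k) (T := 1)
    (f := fun t => A (u t) * A (v t)) fun t _ =>
      Rep.single (mul_dvd_mul (dProd_dvd_poolProd hjs _) (dProd_dvd_poolProd hjs _))
  simpa using hrep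

/-- Binary expansion. -/
lemma rep_binary : ∀ L x : ℕ, x < 2 ^ L → Rep (2 ^ L) L x
  | 0, x, hx => by
      obtain rfl : x = 0 := by simpa using hx
      exact Rep.zero _ _
  | L + 1, x, hx => by
      have h := rep_binary L (x / 2) (by rw [pow_succ] at hx; omega)
      have h2 : Rep (2 ^ (L + 1)) L (2 * (x / 2)) := by
        have h3 := h.mul (M := 2) (c := 2) dvd_rfl
        rwa [← pow_succ'] at h3
      rcases Nat.mod_two_eq_zero_or_one x with h0 | h0
      · rw [show x = 2 * (x / 2) by omega]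
        exact h2.mono dvd_rfl (by omega)
      · rw [show x = 2 * (x / 2) + 1 by omega]
        exact h2.add (Rep.single (one_dvd _))

/-- Repeated reduction modulo a fixed `p`. -/
lemma rep_iterate {N M T C P p : ℕ} (hM : M ∣ N) (hp : 0 < p)
    (hbase : ∀ x, x < P → Rep N T x)
    (hstep : ∀ x, P ≤ x → ∃ s y, x = s + p * y ∧ Rep M C s) :
    ∀ n x, x < P * p ^ n → Rep (p ^ n * N) (n * C + T) x := by
  intro n
  induction n with
  | zero => intro x hx; simpa using hbase x (by simpa using hx)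
  | succ n ih =>
    intro x hx
    rcases Nat.lt_or_ge x P with h | h
    · exact (hbase x h).mono (dvd_mul_left _ _) (Nat.le_add_left _ _)
    obtain ⟨s, y, rfl, hs⟩ := hstep x h
    have hy : y < P * p ^ n := by
      refine Nat.lt_of_mul_lt_mul_left (a := p) ?_
      calc p * y ≤ s + p * y := Nat.le_add_left _ _
        _ < P * p ^ (n + 1) := hx
        _ = p * (P * p ^ n) := by ring
    have h2 : Rep (p ^ (n + 1) * N) (n * C + T) (p * y) := by
      have h3 := (ih y hy).mul (M := p) (c := p) dvd_rfl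
      rwa [← mul_assoc, ← pow_succ'] at h3
    have h4 : Rep (p ^ (n + 1) * N) C s := hs.mono (hM.trans (dvd_mul_left _ _)) le_rfl
    exact (h4.add h2).mono dvd_rfl (le_of_eq (by ring))

/-- All integers below `2^(4 k 2^iB)` at the bottom scales. -/
theorem exists_bottom : ∃ C k0 : ℕ, ∀ k ≥ k0, ∀ iB, iB + k / 2 ^ 20 ≤ k → iB + 6 ≤ k → ∃ N : ℕ, 1 ≤ N ∧
    N ≤ 2 ^ (C * k * 2 ^ k) ∧ poolProd k * poolProd k ∣ N ∧ ∀ x, x < 2 ^ (4 * k * 2 ^ iB) → Rep N (C * k) x := by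
  obtain ⟨k0, hstep⟩ := exists_step_modulus
  suffices key : ∀ n0 : ℕ, n0 = 12 * 2 ^ 20 → ∃ C k0 : ℕ, ∀ k ≥ k0, ∀ iB, iB + k / 2 ^ 20 ≤ k →
      iB + 6 ≤ k → ∃ N : ℕ, 1 ≤ N ∧ N ≤ 2 ^ (C * k * 2 ^ k) ∧ poolProd k * poolProd k ∣ N ∧
        ∀ x, x < 2 ^ (4 * k * 2 ^ iB) → Rep N (C * k) x from key _ rfl
  intro n0 hn0
  refine ⟨5 * n0 + 11, k0 + 8, fun k hk iB hiB hiB6 => ?_⟩
  have main : ∀ i, i ≤ iB → ∃ N : ℕ, 1 ≤ N ∧
      N ≤ 2 ^ (4 * k * 2 ^ k + 4 * k + 3 + n0 * k * 2 ^ i) ∧ poolProd k * poolProd k ∣ N ∧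
      ∀ x, x < 2 ^ (4 * k * 2 ^ i + 3) → Rep N (i * (n0 * 5) + (4 * k + 3)) x := by
    intro i
    induction i with
    | zero =>
      intro _
      refine ⟨poolProd k * poolProd k * 2 ^ (4 * k + 3), ?_, ?_, dvd_mul_right _ _, fun x hx => ?_⟩
      · have := poolProd_pos k
        have := Nat.mul_pos (Nat.mul_pos this this) (Nat.two_pow_pos (4 * k + 3))
        omega
      · have hP := poolProd_le (k := k) (by omega)
        calc poolProd k * poolProd k * 2 ^ (4 * k + 3)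
            ≤ 2 ^ (2 * k * 2 ^ k) * 2 ^ (2 * k * 2 ^ k) * 2 ^ (4 * k + 3) :=
              Nat.mul_le_mul_right _ (Nat.mul_le_mul hP hP)
          _ = 2 ^ (2 * k * 2 ^ k + 2 * k * 2 ^ k + (4 * k + 3)) := by rw [← pow_add, ← pow_add]
          _ ≤ _ := Nat.pow_le_pow_right (by norm_num) (by
              have : 2 * k * 2 ^ k + 2 * k * 2 ^ k = 4 * k * 2 ^ k := by ring
              omega)
      · simp only [pow_zero, mul_one] at hx
        exact (rep_binary _ x hx).mono (dvd_mul_left _ _) (by omega)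
    | succ i ih =>
      intro hi
      obtain ⟨N, hN1, hNle, hMN, hrep⟩ := ih (by omega)
      obtain ⟨p, hp, -, hph, hple, hred⟩ := hstep k (by omega) i (by omega)
      have hr : k ≤ 2 ^ 20 * (k - i) := by
        have h1 := Nat.lt_mul_div_succ k (show 0 < 2 ^ 20 by norm_num)
        have h2 : 2 ^ 20 * (k / 2 ^ 20 + 1) ≤ 2 ^ 20 * (k - i) :=
          Nat.mul_le_mul_left _ (by omega)
        omega
      refine ⟨p ^ n0 * N, Nat.one_le_iff_ne_zero.2 (Nat.mul_ne_zero (pow_ne_zero _ hp.ne_zero)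
        (by omega)), ?_, hMN.trans (dvd_mul_left _ _), fun x hx => ?_⟩
      · calc p ^ n0 * N
            ≤ (2 ^ ((k - i) * 2 ^ i)) ^ n0 * 2 ^ (4 * k * 2 ^ k + 4 * k + 3 + n0 * k * 2 ^ i) :=
              Nat.mul_le_mul (Nat.pow_le_pow_left hple _) hNle
          _ ≤ _ := by
              rw [← pow_mul, ← pow_add]
              refine Nat.pow_le_pow_right (by norm_num) ?_
              have h1 : (k - i) * 2 ^ i * n0 ≤ n0 * k * 2 ^ i := by
                calc (k - i) * 2 ^ i * n0 ≤ k * 2 ^ i * n0 :=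
                      Nat.mul_le_mul_right _ (Nat.mul_le_mul_right _ (Nat.sub_le _ _))
                  _ = n0 * k * 2 ^ i := by ring
              have h2 : n0 * k * 2 ^ (i + 1) = n0 * k * 2 ^ i + n0 * k * 2 ^ i := by ring
              omega
      have hpn : 2 ^ (4 * k * 2 ^ i) ≤ p ^ n0 := by
        refine le_trans ?_ (Nat.pow_le_pow_left hph _)
        rw [← pow_mul]
        refine Nat.pow_le_pow_right (by norm_num) ?_
        generalize hl : (k - i) * 2 ^ i = lam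
        have h6 : 2 ≤ lam := by
          rw [← hl]
          exact le_trans (show 2 ≤ k - i by omega) (Nat.le_mul_of_pos_right _ (Nat.two_pow_pos i))
        have h1 : 4 * k * 2 ^ i ≤ 4 * (2 ^ 20 * lam) := by
          rw [← hl, mul_assoc 4 k, ← mul_assoc (2 ^ 20)]
          exact Nat.mul_le_mul_left _ (Nat.mul_le_mul_right _ hr)
        subst hn0
        omega
      have h5 : ∀ z, 2 ^ (4 * k * 2 ^ i + 3) ≤ z → ∃ s y, z = s + p * y ∧
          Rep (poolProd k * poolProd k) 5 s := fun z hz => by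
        have hz' : 5 * 2 ^ (4 * k * 2 ^ i) ≤ z := by
          rw [pow_add] at hz
          omega
        obtain ⟨s, y, h1, -, h2⟩ := hred z hz'
        exact ⟨s, y, h1, h2⟩
      have hlt : x < 2 ^ (4 * k * 2 ^ i + 3) * p ^ n0 := by
        refine hx.trans_le ?_
        calc 2 ^ (4 * k * 2 ^ (i + 1) + 3) = 2 ^ (4 * k * 2 ^ i + 3) * 2 ^ (4 * k * 2 ^ i) := by
              rw [← pow_add]; ring_nf
          _ ≤ _ := Nat.mul_le_mul_left _ hpn
      exact (rep_iterate hMN hp.pos hrep h5 n0 x hlt).mono dvd_rfl (le_of_eq (by ring))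
  obtain ⟨N, hN1, hNle, hMN, hrep⟩ := main iB le_rfl
  refine ⟨N, hN1, hNle.trans (Nat.pow_le_pow_right (by norm_num) ?_), hMN, fun x hx => ?_⟩
  · have h1 : 2 ^ iB ≤ 2 ^ k := Nat.pow_le_pow_right (by norm_num) (by omega)
    have h2 : n0 * k * 2 ^ iB ≤ n0 * k * 2 ^ k := Nat.mul_le_mul_left _ h1
    have h3 : k ≤ k * 2 ^ k := Nat.le_mul_of_pos_right _ (Nat.two_pow_pos k)
    have h4 : (5 * n0 + 11) * k * 2 ^ k = 5 * (n0 * k * 2 ^ k) + 11 * (k * 2 ^ k) := by ring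
    have h5 : 4 * k * 2 ^ k = 4 * (k * 2 ^ k) := by ring
    omega
  · refine (hrep x (hx.trans_le (Nat.pow_le_pow_right (by norm_num) (by omega)))).mono dvd_rfl ?_
    have h1 : iB * (n0 * 5) ≤ k * (n0 * 5) := Nat.mul_le_mul_right _ (by omega)
    have h2 : (5 * n0 + 11) * k = k * (n0 * 5) + 11 * k := by ring
    omega

end Vale.Agent.P012
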