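import Vale.Agent.P012.Prob
import Mathlib.Data.ZMod.Basic
import Mathlib.NumberTheory.Divisors
import Mathlib.Data.Nat.GCD.BigOperators
import Mathlib.Algebra.GCDMonoid.Finset
import Mathlib.Algebra.GCDMonoid.Nat

/-!
One doubling of a family: `a + q b`.
-/

namespace Vale.Agent.P012

open Finset

variable {Ω : Type*} [Fintype Ω]

lemma prb_equiv {α β : Type*} [Fintype α] [Fintype β] (e : α ≃ β) (P : β → Prop) :
    prb (fun x => P (e x)) = prb P := by
  classical
  rw [prb_eq, prb_eq, Fintype.card_congr e]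
  congr 2
  exact Finset.card_equiv e (fun x => by simp)

/-- The doubled family. -/
def branch (A : Ω → ℕ) (u q : ℕ) : Ω × Ω → ℕ := fun w => u * A w.1 + q * A w.2

lemma prb_branch (A : Ω → ℕ) (u q : ℕ) (P : ℤ → Prop) :
    prb (fun w : (Ω × Ω) × (Ω × Ω) => P (dif (branch A u q) w)) =
      prb (fun w : (Ω × Ω) × (Ω × Ω) => P ((u : ℤ) * dif A w.1 + (q : ℤ) * dif A w.2)) := by
  rw [← prb_equiv (Equiv.prodProdProdComm Ω Ω Ω Ω) (fun w => P (dif (branch A u q) w))]
  congr 1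
  funext w
  congr 1
  simp only [dif, branch, Equiv.prodProdProdComm_apply]
  push_cast
  ring

/-- Doubling does not create coincidences modulo `g`. -/
lemma phi_branch_le (A : Ω → ℕ) (q g : ℕ) : phi (branch A 1 q) g ≤ phi A g := by
  unfold phi
  rw [prb_branch A 1 q (fun z => (g : ℤ) ∣ z), prb_prod_swap]
  refine prb_prod_le (fun wb => ?_) (prb_nonneg _)
  have hz : ∀ z : ℤ, (g : ℤ) ∣ z ↔ ((z : ℤ) : ZMod g) = 0 := fun z =>
    (ZMod.intCast_zmod_eq_zero_iff_dvd z g).symm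
  simp only [Nat.cast_one, one_mul]
  simp only [hz, dif, Int.cast_add, Int.cast_sub, Int.cast_natCast]
  refine le_trans (le_of_eq ?_) ((prb_shift_le (fun w => (A w : ZMod g))
    (-(((q : ℤ) * dif A wb : ℤ) : ZMod g))).trans (prb_mono fun w hw => sub_eq_zero.2 hw))
  congr 1
  funext w
  rw [dif]
  push_cast
  rw [eq_neg_iff_add_eq_zero]

lemma dvd_iff_of_gcd {g : ℕ} {R : ℕ} (b : Fin R → ℤ) (m : ℤ)
    (h : ∀ i, (g : ℤ) ∣ m * b i) :
    (g : ℤ) ∣ m * ((Nat.gcd g ((univ : Finset (Fin R)).gcd fun i => (b i).natAbs) : ℕ) : ℤ) := by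
  rw [Int.natCast_dvd, Int.natAbs_mul, Int.natAbs_natCast, ← Nat.gcd_mul_left]
  refine Nat.dvd_gcd (dvd_mul_left _ _) ?_
  have h1 : g ∣ (univ : Finset (Fin R)).gcd fun i => m.natAbs * (b i).natAbs :=
    Finset.dvd_gcd fun i _ => by
      rw [← Int.natAbs_mul]
      exact Int.natCast_dvd.1 (h i)
  rwa [Finset.gcd_mul_left, normalize_eq] at h1

lemma card_multiplier_le {g Q : ℕ} (hg : 1 ≤ g) {R : ℕ} (a b : Fin R → ℤ) :
    ((univ.filter fun q : Fin Q => ∀ i, (g : ℤ) ∣ a i + (((q : ℕ) : ℤ) + 1) * b i).card : ℝ) ≤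
      1 + (Q : ℝ) * ((∑ h ∈ g.divisors,
        if (∀ i, (h : ℤ) ∣ a i ∧ (h : ℤ) ∣ b i) then (h : ℝ) else 0) / g) := by
  classical
  set S := univ.filter fun q : Fin Q => ∀ i, (g : ℤ) ∣ a i + (((q : ℕ) : ℤ) + 1) * b i with hS
  rcases S.eq_empty_or_nonempty with hne | ⟨q0, hq0⟩
  · rw [hne]
    simp only [Finset.card_empty, Nat.cast_zero]
    have : (0 : ℝ) ≤ ∑ h ∈ g.divisors,
        if (∀ i, (h : ℤ) ∣ a i ∧ (h : ℤ) ∣ b i) then (h : ℝ) else 0 :=
      Finset.sum_nonneg fun h _ => by split_ifs <;> positivity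
    positivity
  set h := Nat.gcd g ((univ : Finset (Fin R)).gcd fun i => (b i).natAbs) with hh
  have hhg : h ∣ g := Nat.gcd_dvd_left _ _
  have hhpos : 0 < h := Nat.gcd_pos_of_pos_left _ hg
  have hb : ∀ i, (h : ℤ) ∣ b i := fun i =>
    Int.natCast_dvd.2 ((Nat.gcd_dvd_right _ _).trans (Finset.gcd_dvd (mem_univ i)))
  have ha : ∀ i, (h : ℤ) ∣ a i := fun i => by
    have h1 : (h : ℤ) ∣ a i + (((q0 : ℕ) : ℤ) + 1) * b i :=
      (Int.natCast_dvd_natCast.2 hhg).trans ((Finset.mem_filter.1 hq0).2 i)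
    exact (dvd_add_left ((hb i).mul_left _)).1 h1
  obtain ⟨m, hm⟩ := id hhg
  have hmpos : 0 < m := by
    rcases Nat.eq_zero_or_pos m with h0 | h0
    · subst h0; omega
    · exact h0
  -- all solutions agree modulo `m`
  have hmod : ∀ q ∈ S, (q : ℕ) % m = (q0 : ℕ) % m := by
    intro q hq
    have h1 : ∀ i, (g : ℤ) ∣ (((q : ℕ) : ℤ) - ((q0 : ℕ) : ℤ)) * b i := fun i => by
      have := dvd_sub ((Finset.mem_filter.1 hq).2 i) ((Finset.mem_filter.1 hq0).2 i)
      refine this.trans (dvd_of_eq ?_)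
      ring
    have h2 := dvd_iff_of_gcd b _ h1
    rw [← hh, hm] at h2
    push_cast at h2
    rw [mul_comm (h : ℤ) (m : ℤ)] at h2
    have h3 := (mul_dvd_mul_iff_right (by exact_mod_cast hhpos.ne')).1 h2
    exact ((Nat.modEq_iff_dvd).2 h3).symm
  have hcard : S.card ≤ Q / m + 1 := by
    calc S.card ≤ (Finset.range (Q / m + 1)).card := by
          refine Finset.card_le_card_of_injOn (fun q => (q : ℕ) / m) ?_ ?_
          · intro q _
            simp only [Finset.coe_range, Set.mem_Iio]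
            exact Nat.lt_succ_of_le (Nat.div_le_div_right q.2.le)
          · intro q hq q' hq' heq
            simp only at heq
            have e1 := hmod q hq
            have e2 := hmod q' hq'
            exact Fin.ext (by rw [← Nat.div_add_mod (q : ℕ) m, ← Nat.div_add_mod (q' : ℕ) m,
              heq, e1, e2])
      _ = _ := Finset.card_range _
  have h4 : (h : ℝ) ≤ ∑ d ∈ g.divisors,
      if (∀ i, (d : ℤ) ∣ a i ∧ (d : ℤ) ∣ b i) then (d : ℝ) else 0 := by
    refine le_trans (le_of_eq ?_) (Finset.single_le_sum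
      (fun d _ => by split_ifs <;> positivity)
      (Nat.mem_divisors.2 ⟨hhg, by omega⟩ : h ∈ g.divisors))
    rw [if_pos fun i => ⟨ha i, hb i⟩]
  have h5 : (S.card : ℝ) ≤ (Q : ℝ) / m + 1 := by
    calc (S.card : ℝ) ≤ ((Q / m + 1 : ℕ) : ℝ) := by exact_mod_cast hcard
      _ ≤ (Q : ℝ) / m + 1 := by
          push_cast
          exact add_le_add Nat.cast_div_le le_rfl
  have hgR : (g : ℝ) = h * m := by exact_mod_cast hm
  have h6 : (Q : ℝ) / m ≤ (Q : ℝ) * ((∑ d ∈ g.divisors,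
      if (∀ i, (d : ℤ) ∣ a i ∧ (d : ℤ) ∣ b i) then (d : ℝ) else 0) / g) := by
    calc (Q : ℝ) / m = (Q : ℝ) * ((h : ℝ) / g) := by
          rw [hgR]
          field_simp
      _ ≤ _ := by gcongr
  linarith

/-- The moments of `phi` after a random doubling. -/
lemma sum_phi_branch_pow_le [Nonempty Ω] (A : Ω → ℕ) {g Q : ℕ} (hg : 1 ≤ g) (hQ : 1 ≤ Q) (R : ℕ) :
    (∑ q : Fin Q, phi (branch A 1 ((q : ℕ) + 1)) g ^ R) / Q ≤
      1 / Q + (∑ h ∈ g.divisors, (h : ℝ) * phi A h ^ (2 * R)) / g := by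
  classical
  set W := Fin R → (Ω × Ω) × (Ω × Ω) with hW
  have hWpos : (0 : ℝ) < Fintype.card W := by exact_mod_cast Fintype.card_pos
  have e1 : ∀ q : Fin Q, phi (branch A 1 ((q : ℕ) + 1)) g ^ R =
      (∑ w : W, if (∀ i, (g : ℤ) ∣ dif A (w i).1 + (((q : ℕ) : ℤ) + 1) * dif A (w i).2)
        then (1 : ℝ) else 0) / Fintype.card W := by
    intro q
    unfold phi
    rw [prb_branch A 1 _ (fun z => (g : ℤ) ∣ z), ← prb_pi_forall, prb_eq_sum]
    push_cast
    simp only [one_mul]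
    rfl
  have e2 : ∀ h : ℕ, phi A h ^ (2 * R) =
      (∑ w : W, if (∀ i, (h : ℤ) ∣ dif A (w i).1 ∧ (h : ℤ) ∣ dif A (w i).2)
        then (1 : ℝ) else 0) / Fintype.card W := by
    intro h
    rw [pow_mul, sq]
    unfold phi
    rw [← prb_prod_and, ← prb_pi_forall, prb_eq_sum]
  simp only [e1, e2]
  rw [← Finset.sum_div, Finset.sum_comm]
  have hQR : (0 : ℝ) < Q := by exact_mod_cast hQ
  have hgR : (0 : ℝ) < g := by exact_mod_cast hg
  calc (∑ w : W, ∑ q : Fin Q,
        (if (∀ i, (g : ℤ) ∣ dif A (w i).1 + (((q : ℕ) : ℤ) + 1) * dif A (w i).2)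
          then (1 : ℝ) else 0)) / Fintype.card W / Q
      ≤ (∑ w : W, (1 + (Q : ℝ) * ((∑ h ∈ g.divisors,
          if (∀ i, (h : ℤ) ∣ dif A (w i).1 ∧ (h : ℤ) ∣ dif A (w i).2) then (h : ℝ) else 0) / g)))
          / Fintype.card W / Q := by
        gcongr with w
        rw [Finset.sum_boole]
        exact card_multiplier_le hg (fun i => dif A (w i).1) (fun i => dif A (w i).2)
    _ = 1 / (Q : ℝ) + (∑ h ∈ g.divisors, (h : ℝ) *
          ((∑ w : W, if (∀ i, (h : ℤ) ∣ dif A (w i).1 ∧ (h : ℤ) ∣ dif A (w i).2)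
            then (1 : ℝ) else 0) / Fintype.card W)) / g := by
        rw [Finset.sum_add_distrib, ← Finset.mul_sum, ← Finset.sum_div, Finset.sum_comm,
          Finset.sum_const, Finset.card_univ, nsmul_eq_mul, mul_one]
        have e3 : ∀ h : ℕ, (h : ℝ) * ((∑ w : W,
            if (∀ i, (h : ℤ) ∣ dif A (w i).1 ∧ (h : ℤ) ∣ dif A (w i).2) then (1 : ℝ) else 0) /
            Fintype.card W) = (∑ w : W,
            if (∀ i, (h : ℤ) ∣ dif A (w i).1 ∧ (h : ℤ) ∣ dif A (w i).2) then (h : ℝ) else 0) /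
            Fintype.card W := by
          intro h
          rw [← mul_div_assoc, Finset.mul_sum]
          simp only [mul_ite, mul_one, mul_zero]
        simp only [e3]
        rw [← Finset.sum_div]
        field_simp

end Vale.Agent.P012
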