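import Vale.Agent.P012.Prob
import Mathlib.Algebra.GCDMonoid.Finset
import Mathlib.Algebra.GCDMonoid.Nat
import Mathlib.Data.Fin.Tuple.Basic
import Mathlib.Data.Int.GCD
import Mathlib.Algebra.BigOperators.Fin
import Mathlib.Algebra.BigOperators.Ring.Finset

/-!
Random combinations do not concentrate in residue classes.
-/

namespace Vale.Agent.P012

open Finset

/-- Solutions of one linear congruence among `Q` consecutive multipliers. -/
lemma card_lin_le {h Q : ℕ} (hh : 1 ≤ h) (hQ : h ≤ Q) (a b : ℤ) :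
    (univ.filter fun q : Fin Q => (h : ℤ) ∣ a + (((q : ℕ) : ℤ) + 1) * b).card * h ≤
      2 * Q * Nat.gcd h b.natAbs := by
  classical
  set S := univ.filter fun q : Fin Q => (h : ℤ) ∣ a + (((q : ℕ) : ℤ) + 1) * b with hS
  rcases S.eq_empty_or_nonempty with he | ⟨q0, hq0⟩
  · simp [he]
  set d := Nat.gcd h b.natAbs with hd
  have hdpos : 0 < d := Nat.gcd_pos_of_pos_left _ hh
  obtain ⟨m, hm⟩ : d ∣ h := Nat.gcd_dvd_left _ _
  have hmpos : 0 < m := by
    rcases Nat.eq_zero_or_pos m with h0 | h0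
    · subst h0; omega
    · exact h0
  have hmod : ∀ q ∈ S, (q : ℕ) % m = (q0 : ℕ) % m := by
    intro q hq
    have h1 : (h : ℤ) ∣ (((q : ℕ) : ℤ) - ((q0 : ℕ) : ℤ)) * b := by
      have := dvd_sub (Finset.mem_filter.1 hq).2 (Finset.mem_filter.1 hq0).2
      refine this.trans (dvd_of_eq ?_)
      ring
    have h2 := Int.natCast_dvd.1 h1
    rw [Int.natAbs_mul] at h2
    have h3 := Nat.dvd_gcd (dvd_mul_left h ((((q : ℕ) : ℤ) - ((q0 : ℕ) : ℤ)).natAbs)) h2
    rw [Nat.gcd_mul_left, ← hd, hm, mul_comm d m] at h3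
    have h4 := Nat.dvd_of_mul_dvd_mul_right hdpos h3
    exact ((Nat.modEq_iff_dvd).2 (Int.natCast_dvd.2 h4)).symm
  have hcard : S.card ≤ Q / m + 1 := by
    calc S.card ≤ (Finset.range (Q / m + 1)).card := by
          refine Finset.card_le_card_of_injOn (fun q => (q : ℕ) / m) ?_ ?_
          · intro q _
            simp only [Finset.coe_range, Set.mem_Iio]
            exact Nat.lt_succ_of_le (Nat.div_le_div_right q.2.le)
          · intro q hq q' hq' heq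
            simp only at heq
            exact Fin.ext (by rw [← Nat.div_add_mod (q : ℕ) m, ← Nat.div_add_mod (q' : ℕ) m,
              heq, hmod q hq, hmod q' hq'])
      _ = _ := Finset.card_range _
  have hmQ : m ≤ Q := le_trans (Nat.le_of_dvd hh ⟨d, by rw [hm, mul_comm]⟩) hQ
  have h5 : (Q / m + 1) * m ≤ 2 * Q := by
    have := Nat.div_mul_le_self Q m
    rw [add_mul, one_mul]
    omega
  calc S.card * h = S.card * m * d := by rw [hm]; ring
    _ ≤ (Q / m + 1) * m * d := by gcongr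
    _ ≤ 2 * Q * d := Nat.mul_le_mul_right _ h5

/-- The common divisor of a modulus and some integers. -/
def gcdWith {T : ℕ} (g : ℕ) (Δ : Fin T → ℤ) : ℕ :=
  Nat.gcd g ((univ : Finset (Fin T)).gcd fun t => (Δ t).natAbs)

lemma gcdWith_dvd {T : ℕ} (g : ℕ) (Δ : Fin T → ℤ) : gcdWith g Δ ∣ g := Nat.gcd_dvd_left _ _

lemma gcdWith_dvd_apply {T : ℕ} (g : ℕ) (Δ : Fin T → ℤ) (t : Fin T) :
    (gcdWith g Δ : ℤ) ∣ Δ t :=
  Int.natCast_dvd.2 ((Nat.gcd_dvd_right _ _).trans (Finset.gcd_dvd (mem_univ t)))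

lemma gcdWith_pos {T g : ℕ} (hg : 1 ≤ g) (Δ : Fin T → ℤ) : 1 ≤ gcdWith g Δ :=
  Nat.gcd_pos_of_pos_left _ hg

lemma gcdWith_dvd_sum {T : ℕ} (g : ℕ) (Δ : Fin T → ℤ) (a : Fin T → ℤ) :
    (gcdWith g Δ : ℤ) ∣ ∑ t, a t * Δ t :=
  Finset.dvd_sum fun t _ => (gcdWith_dvd_apply g Δ t).mul_left _

/-- Solutions of a congruence in several multipliers. -/
lemma card_lincomb_le {g Q : ℕ} (hg : 1 ≤ g) (hQ : g ≤ Q) :
    ∀ {T : ℕ} (Δ : Fin T → ℤ) (c : ℤ),
      (univ.filter fun q : Fin T → Fin Q =>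
        (g : ℤ) ∣ c + ∑ t, (((q t : ℕ) : ℤ) + 1) * Δ t).card * g ≤ (2 * Q) ^ T * gcdWith g Δ := by
  intro T
  induction T with
  | zero =>
    intro Δ c
    have hgc : gcdWith g Δ = g := by simp [gcdWith]
    rw [pow_zero, one_mul, hgc]
    refine (Nat.mul_le_mul_right g ((Finset.card_le_univ _).trans ?_)).trans (le_of_eq (one_mul g))
    simp
  | succ T ih =>
    intro Δ c
    classical
    set h := gcdWith g (fun t => Δ t.succ) with hh
    have hhg : h ∣ g := gcdWith_dvd _ _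
    set P := fun q0 : Fin Q => (h : ℤ) ∣ c + (((q0 : ℕ) : ℤ) + 1) * Δ 0 with hP
    have hsplit : (univ.filter fun q : Fin (T + 1) → Fin Q =>
        (g : ℤ) ∣ c + ∑ t, (((q t : ℕ) : ℤ) + 1) * Δ t).card =
        ∑ q0 : Fin Q, (univ.filter fun q : Fin T → Fin Q => (g : ℤ) ∣
          (c + (((q0 : ℕ) : ℤ) + 1) * Δ 0) + ∑ t, (((q t : ℕ) : ℤ) + 1) * Δ t.succ).card := by
      simp only [Finset.card_filter]
      rw [← Equiv.sum_comp (Fin.consEquiv fun _ => Fin Q), Fintype.sum_prod_type]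
      refine Finset.sum_congr rfl fun q0 _ => Finset.sum_congr rfl fun q _ => ?_
      simp only [Fin.consEquiv_apply, Fin.sum_univ_succ, Fin.cons_zero, Fin.cons_succ, add_assoc]
    rw [hsplit, Finset.sum_mul]
    calc ∑ q0 : Fin Q, (univ.filter fun q : Fin T → Fin Q => (g : ℤ) ∣
          (c + (((q0 : ℕ) : ℤ) + 1) * Δ 0) + ∑ t, (((q t : ℕ) : ℤ) + 1) * Δ t.succ).card * g
        ≤ ∑ q0 : Fin Q, if P q0 then (2 * Q) ^ T * h else 0 := by
          refine Finset.sum_le_sum fun q0 _ => ?_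
          by_cases hq : P q0
          · rw [if_pos hq]
            exact ih (fun t => Δ t.succ) _
          · rw [if_neg hq, Finset.filter_false_of_mem]
            · simp
            · intro q _ hd
              exact hq ((dvd_add_left (gcdWith_dvd_sum g (fun t => Δ t.succ) _)).1
                ((Int.natCast_dvd_natCast.2 hhg).trans hd))
      _ = (univ.filter P).card * ((2 * Q) ^ T * h) := by
          rw [← Finset.sum_filter, Finset.sum_const, smul_eq_mul]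
      _ = (2 * Q) ^ T * ((univ.filter P).card * h) := by ring
      _ ≤ (2 * Q) ^ T * (2 * Q * Nat.gcd h (Δ 0).natAbs) := Nat.mul_le_mul_left _
          (card_lin_le (gcdWith_pos hg _) ((Nat.le_of_dvd hg hhg).trans hQ) _ _)
      _ ≤ (2 * Q) ^ (T + 1) * gcdWith g Δ := by
          rw [pow_succ, mul_assoc ((2 * Q) ^ T)]
          refine Nat.mul_le_mul_left _ (Nat.mul_le_mul_left _ ?_)
          refine Nat.le_of_dvd (gcdWith_pos hg _) (Nat.dvd_gcd ((Nat.gcd_dvd_left _ _).trans hhg) ?_)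
          refine Finset.dvd_gcd fun t _ => ?_
          refine Fin.cases ?_ (fun i => ?_) t
          · exact Nat.gcd_dvd_right _ _
          · exact (Nat.gcd_dvd_left _ _).trans
              (Int.natCast_dvd.1 (gcdWith_dvd_apply g (fun t => Δ t.succ) i))

variable {Φ Ψ Ω : Type*} [Fintype Φ] [Fintype Ψ] [Fintype Ω]

/-- A random family spreads evenly over residue classes of moduli up to `2^X`. -/
def Spread (Fam : Φ → Ψ → ℕ) (X : ℕ) (C : ℝ) : Prop :=
  ∀ g : ℕ, 1 ≤ g → g ≤ 2 ^ X → ∀ c : ℤ,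
    prb (fun z : Φ × (Ψ × Ψ) => (g : ℤ) ∣ c + dif (Fam z.1) z.2) ≤ C / g

/-- A random combination of independent copies added to a family. -/
def addCopies {T : ℕ} (G : Ω → ℕ) (Fam : Φ → Ψ → ℕ) (Q : ℕ) :
    ((Fin T → Fin Q) × Φ) → ((Fin T → Ω) × Ψ) → ℕ :=
  fun a b => ∑ t, ((a.1 t : ℕ) + 1) * G (b.1 t) + Fam a.2 b.2

omit [Fintype Φ] [Fintype Ψ] [Fintype Ω] in
lemma dif_addCopies {T : ℕ} (G : Ω → ℕ) (Fam : Φ → Ψ → ℕ) (Q : ℕ) (a : (Fin T → Fin Q) × Φ)
    (b : ((Fin T → Ω) × Ψ) × ((Fin T → Ω) × Ψ)) :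
    dif (addCopies G Fam Q a) b =
      ∑ t, (((a.1 t : ℕ) : ℤ) + 1) * dif G (b.1.1 t, b.2.1 t) +
        dif (Fam a.2) (b.1.2, b.2.2) := by
  unfold dif addCopies
  push_cast
  simp only [mul_sub, Finset.sum_sub_distrib]
  ring

/-- The rearrangement of the sample space used for one more group of copies. -/
def copiesEquiv (T Q : ℕ) (Φ Ψ Ω : Type*) :
    (Fin T → Ω × Ω) × ((Φ × (Ψ × Ψ)) × (Fin T → Fin Q)) ≃
      ((Fin T → Fin Q) × Φ) × (((Fin T → Ω) × Ψ) × ((Fin T → Ω) × Ψ)) where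
  toFun z := ((z.2.2, z.2.1.1), ((fun t => (z.1 t).1, z.2.1.2.1), (fun t => (z.1 t).2, z.2.1.2.2)))
  invFun z := (fun t => (z.2.1.1 t, z.2.2.1 t), ((z.1.2, (z.2.1.2, z.2.2.2)), z.1.1))
  left_inv _ := rfl
  right_inv _ := rfl

lemma prb_equiv_left {α β : Type*} [Fintype α] [Fintype β] (e : α ≃ β) (P : β → Prop) :
    prb (fun x => P (e x)) = prb P := by
  classical
  rw [prb_eq, prb_eq, Fintype.card_congr e]
  congr 2
  exact Finset.card_equiv e (fun x => by simp)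

/-- The count for fixed copies. -/
lemma prb_lincomb_le {T Q g : ℕ} (hg : 1 ≤ g) (hQ : g ≤ Q) (Δ : Fin T → ℤ)
    (R : Φ × (Ψ × Ψ) → ℤ) (c : ℤ) :
    prb (fun y : (Φ × (Ψ × Ψ)) × (Fin T → Fin Q) =>
        (g : ℤ) ∣ c + (∑ t, (((y.2 t : ℕ) : ℤ) + 1) * Δ t + R y.1)) ≤
      2 ^ T * (gcdWith g Δ : ℝ) / g *
        prb (fun z : Φ × (Ψ × Ψ) => (gcdWith g Δ : ℤ) ∣ c + R z) := by
  classical
  rw [prb_prod_eq, prb_eq_sum, ← mul_div_assoc, Finset.mul_sum]
  refine div_le_div_of_nonneg_right (Finset.sum_le_sum fun z _ => ?_) (Nat.cast_nonneg _)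
  have hgR : (0 : ℝ) < g := by exact_mod_cast hg
  by_cases hz : (gcdWith g Δ : ℤ) ∣ c + R z
  · rw [if_pos hz, mul_one, prb_eq, Fintype.card_pi_const, Fintype.card_fin]
    have hQ0 : (0 : ℝ) < Q := by exact_mod_cast (show 0 < Q by omega)
    have he : (univ.filter fun q : Fin T → Fin Q =>
        (g : ℤ) ∣ c + (∑ t, (((q t : ℕ) : ℤ) + 1) * Δ t + R z)) =
        univ.filter fun q : Fin T → Fin Q =>
        (g : ℤ) ∣ (c + R z) + ∑ t, (((q t : ℕ) : ℤ) + 1) * Δ t := by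
      refine Finset.filter_congr fun q _ => ?_
      rw [show c + (∑ t, (((q t : ℕ) : ℤ) + 1) * Δ t + R z) =
        (c + R z) + ∑ t, (((q t : ℕ) : ℤ) + 1) * Δ t by ring]
    rw [he]
    push_cast
    rw [div_le_div_iff₀ (pow_pos hQ0 T) hgR]
    have := card_lincomb_le hg hQ Δ (c + R z)
    have h' : ((univ.filter fun q : Fin T → Fin Q =>
        (g : ℤ) ∣ (c + R z) + ∑ t, (((q t : ℕ) : ℤ) + 1) * Δ t).card : ℝ) * g ≤
        (2 * (Q : ℝ)) ^ T * gcdWith g Δ := by exact_mod_cast this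
    rw [mul_pow] at h'
    linarith
  · rw [if_neg hz, mul_zero, prb_eq, Finset.filter_false_of_mem]
    · simp
    · intro q _ hd
      apply hz
      have h1 := (Int.natCast_dvd_natCast.2 (gcdWith_dvd g Δ)).trans hd
      rw [show c + (∑ t, (((q t : ℕ) : ℤ) + 1) * Δ t + R z) =
        (c + R z) + ∑ t, (((q t : ℕ) : ℤ) + 1) * Δ t by ring] at h1
      exact (dvd_add_left (gcdWith_dvd_sum g Δ _)).1 h1

/-- One more group. -/
lemma spread_addCopies [Nonempty Ω] (G : Ω → ℕ) (Fam : Φ → Ψ → ℕ) {X X' T : ℕ} {C E : ℝ}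
    (hF : Spread Fam X' C) (hC : 0 ≤ C)
    (hE : ∑ h ∈ Finset.Ioc (2 ^ X' : ℕ) (2 ^ X), (h : ℝ) * phi G h ^ T ≤ E) :
    Spread (addCopies (T := T) G Fam (2 ^ X)) X (2 ^ T * (C + E)) := by
  classical
  intro g hg hgX c
  rw [← prb_equiv_left (copiesEquiv T (2 ^ X) Φ Ψ Ω)]
  have hgR : (0 : ℝ) < g := by exact_mod_cast hg
  set W := Fin T → Ω × Ω with hW
  have hWpos : (0 : ℝ) < Fintype.card W := by exact_mod_cast Fintype.card_pos
  have key : ∀ w : W, prb (fun y : (Φ × (Ψ × Ψ)) × (Fin T → Fin (2 ^ X)) =>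
      (g : ℤ) ∣ c + dif (addCopies G Fam (2 ^ X) (copiesEquiv T (2 ^ X) Φ Ψ Ω (w, y)).1)
        (copiesEquiv T (2 ^ X) Φ Ψ Ω (w, y)).2) ≤
      2 ^ T / g * (C + ∑ h ∈ Finset.Ioc (2 ^ X' : ℕ) (2 ^ X),
        (h : ℝ) * (if ∀ t, (h : ℤ) ∣ dif G (w t) then 1 else 0)) := by
    intro w
    simp only [dif_addCopies]
    refine (prb_lincomb_le hg hgX (fun t => dif G (w t)) (fun z => dif (Fam z.1) z.2) c).trans ?_
    set h := gcdWith g (fun t => dif G (w t)) with hh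
    have hh1 : 1 ≤ h := gcdWith_pos hg _
    have hhR : (0 : ℝ) < h := by exact_mod_cast hh1
    have hsum0 : 0 ≤ ∑ h ∈ Finset.Ioc (2 ^ X' : ℕ) (2 ^ X),
        (h : ℝ) * (if ∀ t, (h : ℤ) ∣ dif G (w t) then (1 : ℝ) else 0) :=
      Finset.sum_nonneg fun h _ => by split_ifs <;> positivity
    have hmain : (h : ℝ) * prb (fun z : Φ × (Ψ × Ψ) => (h : ℤ) ∣ c + dif (Fam z.1) z.2) ≤
        C + ∑ h ∈ Finset.Ioc (2 ^ X' : ℕ) (2 ^ X),
          (h : ℝ) * (if ∀ t, (h : ℤ) ∣ dif G (w t) then (1 : ℝ) else 0) := by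
      rcases le_or_gt h (2 ^ X') with hle | hgt
      · have := hF h hh1 hle c
        rw [le_div_iff₀ hhR] at this
        linarith
      · have hmem : h ∈ Finset.Ioc (2 ^ X' : ℕ) (2 ^ X) :=
          Finset.mem_Ioc.2 ⟨hgt, (Nat.le_of_dvd hg (gcdWith_dvd _ _)).trans hgX⟩
        have h1 := Finset.single_le_sum (f := fun h : ℕ =>
          (h : ℝ) * (if ∀ t, (h : ℤ) ∣ dif G (w t) then (1 : ℝ) else 0))
          (fun h _ => by split_ifs <;> positivity) hmem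
        rw [if_pos fun t => gcdWith_dvd_apply g (fun t => dif G (w t)) t, mul_one] at h1
        have h2 := mul_le_of_le_one_right hhR.le
          (prb_le_one fun z : Φ × (Ψ × Ψ) => (h : ℤ) ∣ c + dif (Fam z.1) z.2)
        linarith
    calc 2 ^ T * (h : ℝ) / g * prb (fun z : Φ × (Ψ × Ψ) => (h : ℤ) ∣ c + dif (Fam z.1) z.2)
        = 2 ^ T / g * ((h : ℝ) * prb (fun z : Φ × (Ψ × Ψ) => (h : ℤ) ∣ c + dif (Fam z.1) z.2)) := by
          ring
      _ ≤ _ := mul_le_mul_of_nonneg_left hmain (by positivity)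
  rw [prb_prod_eq]
  refine (div_le_div_of_nonneg_right (Finset.sum_le_sum fun w _ => key w) hWpos.le).trans ?_
  rw [← Finset.mul_sum, Finset.sum_add_distrib, Finset.sum_comm, Finset.sum_const, Finset.card_univ,
    nsmul_eq_mul]
  simp only [← Finset.mul_sum]
  have hphi : ∀ h : ℕ, ∑ w : W, (if ∀ t, (h : ℤ) ∣ dif G (w t) then (1 : ℝ) else 0) =
      (Fintype.card W : ℝ) * phi G h ^ T := by
    intro h
    unfold phi
    rw [← prb_pi_forall, prb_eq_sum, mul_div_cancel₀ _ hWpos.ne']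
  simp only [hphi]
  simp only [mul_left_comm _ (Fintype.card W : ℝ)]
  rw [← Finset.mul_sum, ← mul_add]
  calc 2 ^ T / (g : ℝ) * ((Fintype.card W : ℝ) *
        (C + ∑ h ∈ Finset.Ioc (2 ^ X' : ℕ) (2 ^ X), (h : ℝ) * phi G h ^ T)) / Fintype.card W
      = 2 ^ T / (g : ℝ) * (C + ∑ h ∈ Finset.Ioc (2 ^ X' : ℕ) (2 ^ X), (h : ℝ) * phi G h ^ T) := by
        field_simp
    _ ≤ 2 ^ T / (g : ℝ) * (C + E) := by gcongr
    _ = 2 ^ T * (C + E) / g := by ring

end Vale.Agent.P012
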