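import Vale.Agent.P012.GcdTree
import Vale.Agent.P012.Spread
import Mathlib.Analysis.PSeries

/-!
All congruence scales together.
-/

namespace Vale.Agent.P012

open Finset

/-- Number of copies used at each scale. -/
def gCopies : ℕ := 3 * 2 ^ 20

/-- Number of scales. -/
def gCount (k : ℕ) : ℕ := Nat.log 2 (k / (2 ^ 16 * 6)) + 1

/-- The window of scale `m`. -/
def gTop (k m : ℕ) : ℕ := 4 * k * 2 ^ (k - 6 * 2 ^ m)

lemma gTop_eq (k m : ℕ) : gTop k m = gWin k (6 * 2 ^ m) := by simp [gTop, gWin]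

lemma gCount_spec {k : ℕ} (hk : 2 ^ 16 * 6 ≤ k) :
    (∀ m < gCount k, 2 ^ 16 * (6 * 2 ^ m) ≤ k) ∧
      k < 2 ^ 16 * (6 * 2 ^ gCount k) ∧ 2 ^ 15 * (6 * 2 ^ gCount k) ≤ k ∧ gCount k ≤ k := by
  set q := k / (2 ^ 16 * 6) with hq
  have hq0 : q ≠ 0 := by
    rw [hq]
    exact (Nat.div_pos hk (by norm_num)).ne'
  have h1 : 2 ^ Nat.log 2 q ≤ q := Nat.pow_log_le_self 2 hq0
  have h2 : q < 2 ^ (Nat.log 2 q + 1) := Nat.lt_pow_succ_log_self one_lt_two q
  have h3 : q * (2 ^ 16 * 6) ≤ k := Nat.div_mul_le_self _ _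
  have h4 : k < (q + 1) * (2 ^ 16 * 6) := by
    rw [mul_comm]; exact Nat.lt_mul_div_succ k (by norm_num)
  refine ⟨fun m hm => ?_, ?_, ?_, ?_⟩
  · have h5 : 2 ^ m ≤ 2 ^ Nat.log 2 q :=
      Nat.pow_le_pow_right two_pos (by unfold gCount at hm; rw [← hq] at hm; omega)
    omega
  · unfold gCount; rw [← hq]; omega
  · unfold gCount; rw [← hq, pow_succ 2 (Nat.log 2 q)]; omega
  · unfold gCount; rw [← hq]
    have : Nat.log 2 q < 2 ^ Nat.log 2 q := Nat.lt_two_pow_self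
    omega

lemma gTop_succ {k m : ℕ} (hm : 2 * (6 * 2 ^ m) ≤ k) :
    gTop k (m + 1) * 2 ^ (6 * 2 ^ m) = gTop k m ∧ 2 * gTop k (m + 1) ≤ gTop k m := by
  have h1 : gTop k (m + 1) * 2 ^ (6 * 2 ^ m) = gTop k m := by
    unfold gTop
    rw [mul_assoc, ← pow_add]
    congr 2
    rw [pow_succ]
    omega
  refine ⟨h1, ?_⟩
  rw [← h1, mul_comm 2]
  refine Nat.mul_le_mul_left _ ?_
  have h2 : 0 < 2 ^ m := Nat.two_pow_pos m
  exact le_trans (le_of_eq (pow_one 2).symm) (Nat.pow_le_pow_right two_pos (by omega))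

/-- The moment condition of one scale. -/
lemma sum_phi_le {Ω : Type} [Fintype Ω] (G : Ω → ℕ) {X' X : ℕ} {S : ℝ}
    (hX : X' ≤ X) (hphi : ∀ g : ℕ, 2 ^ X' < g → g ≤ 2 ^ X →
      phi G g ≤ (2 : ℝ) ^ S * (g : ℝ) ^ (-((1 / 2 : ℝ) ^ 20))) :
    ∑ h ∈ Finset.Ioc (2 ^ X' : ℕ) (2 ^ X), (h : ℝ) * phi G h ^ gCopies ≤
      (2 : ℝ) ^ (S * (gCopies : ℝ)) := by
  calc ∑ h ∈ Finset.Ioc (2 ^ X' : ℕ) (2 ^ X), (h : ℝ) * phi G h ^ gCopies
      ≤ ∑ h ∈ Finset.Ioc (2 ^ X' : ℕ) (2 ^ X), (2 : ℝ) ^ (S * (gCopies : ℝ)) * ((h : ℝ) ^ 2)⁻¹ := by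
        refine Finset.sum_le_sum fun h hh => ?_
        obtain ⟨h1, h2⟩ := Finset.mem_Ioc.1 hh
        have hpos : (0 : ℝ) < h := by exact_mod_cast ((Nat.zero_le _).trans_lt h1)
        refine (mul_le_mul_of_nonneg_left
          (pow_le_pow_left₀ (phi_nonneg _ _) (hphi h h1 h2) gCopies) hpos.le).trans (le_of_eq ?_)
        have he : ((h : ℝ) ^ (-((1 / 2 : ℝ) ^ 20))) ^ gCopies = ((h : ℝ) ^ 3)⁻¹ := by
          rw [← Real.rpow_mul_natCast hpos.le,
            show -((1 / 2 : ℝ) ^ 20) * (gCopies : ℝ) = -((3 : ℕ) : ℝ) by norm_num [gCopies],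
            Real.rpow_neg hpos.le, Real.rpow_natCast]
        rw [mul_pow, he, ← Real.rpow_mul_natCast two_pos.le]
        field_simp
    _ = (2 : ℝ) ^ (S * (gCopies : ℝ)) *
          ∑ h ∈ Finset.Ioc (2 ^ X' : ℕ) (2 ^ X), ((h : ℝ) ^ 2)⁻¹ := by rw [Finset.mul_sum]
    _ ≤ (2 : ℝ) ^ (S * (gCopies : ℝ)) * 1 := by
        refine mul_le_mul_of_nonneg_left ?_ (by positivity)
        refine (sum_Ioc_inv_sq_le_sub (by positivity) (Nat.pow_le_pow_right two_pos hX)).trans ?_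
        have h1 : ((2 ^ X' : ℕ) : ℝ)⁻¹ ≤ 1 :=
          inv_le_one_of_one_le₀ (by exact_mod_cast Nat.one_le_two_pow)
        have h2 : 0 ≤ ((2 ^ X : ℕ) : ℝ)⁻¹ := by positivity
        linarith
    _ = _ := mul_one _

attribute [local irreducible] gCopies

/-- The cost of one scale. -/
noncomputable def gLoss (k : ℕ) : ℝ := (gCopies : ℝ) * (gSlack k + 1) + 1

/-- All scales from `m` on. -/
lemma chain_levels {k : ℕ} (hk : 2 ^ 16 * 6 ≤ k)
    (hbig : ∀ r, 2 ^ 16 * r ≤ k →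
      16 * (k + 1) * (k * (2 ^ (k / 2) + 1) + 14) ≤ 2 * k * 2 ^ (k - r)) :
    ∀ n m : ℕ, m + n = gCount k →
      ∃ (Φ : Type) (_ : Fintype Φ) (_ : Nonempty Φ) (Ψ : Type) (_ : Fintype Ψ) (_ : Nonempty Ψ)
        (Fam : Φ → Ψ → ℕ) (T : ℕ),
        Spread Fam (gTop k m) ((2 : ℝ) ^ ((gTop k (gCount k) : ℝ) + n * gLoss k)) ∧
        (∀ a b, Fam a b ≤ n * gCopies * 2 ^ (2 * gTop k m)) ∧
        T * (2 ^ 14 * (6 * 2 ^ m)) ≤ 2 * gCopies * k ∧
        ∀ a, ∃ N, 1 ≤ N ∧ N ≤ 2 ^ (2 * (gCopies + 1) * gTop k m) ∧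
          ∀ b, Rep (N * poolProd k) T (Fam a b) := by
  intro n
  induction n with
  | zero =>
    intro m hm
    rw [add_zero] at hm
    subst hm
    refine ⟨Unit, inferInstance, inferInstance, Unit, inferInstance, inferInstance,
      fun _ _ => 0, 0, ?_, by simp, by simp,
      fun _ => ⟨1, le_rfl, Nat.one_le_two_pow, fun _ => Rep.zero _ _⟩⟩
    intro g hg hgX c
    refine (prb_le_one _).trans ?_
    rw [Nat.cast_zero, zero_mul, add_zero, Real.rpow_natCast,
      one_le_div (by exact_mod_cast hg)]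
    exact_mod_cast hgX
  | succ n ih =>
    intro m hm
    obtain ⟨Φ, fΦ, nΦ, Ψ, fΨ, nΨ, Fam, T, hF, hFle, hT, hRep⟩ := ih (m + 1) (by omega)
    set r := 6 * 2 ^ m with hr
    have h2m : 0 < 2 ^ m := Nat.two_pow_pos m
    have hrk : 2 ^ 16 * r ≤ k := (gCount_spec hk).1 m (by omega)
    obtain ⟨Ω, fΩ, nΩ, G, Ξ, hΞ1, hΞ2, hG, hphi⟩ :=
      exists_gcd_family (show 6 ≤ r by omega) hrk (hbig r hrk)
    set X := gTop k m with hX
    set X' := gTop k (m + 1) with hX'
    obtain ⟨hXX, hX2⟩ := gTop_succ (show 2 * (6 * 2 ^ m) ≤ k by omega)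
    have hXw : gWin k r = X := (gTop_eq k m).symm
    rw [hXw] at hΞ2 hG hphi
    have hE := sum_phi_le G (show X' ≤ X by omega) (S := gSlack k) fun g h1 h2 => by
      refine hphi g ?_ h2
      have h3 : (X : ℝ) / 2 ^ r = (X' : ℝ) := by
        rw [div_eq_iff (by positivity)]; exact_mod_cast hXX.symm
      rw [h3, Real.rpow_natCast]
      exact_mod_cast h1.le
    set L := gHeight k r with hL
    refine ⟨(Fin gCopies → Fin (2 ^ X)) × Φ, inferInstance,
      ⟨(fun _ => ⟨0, Nat.two_pow_pos X⟩, Classical.arbitrary Φ)⟩,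
      (Fin gCopies → Ω) × Ψ, inferInstance, inferInstance,
      addCopies G Fam (2 ^ X), gCopies * 2 ^ L + T, ?_, ?_, ?_, ?_⟩
    · intro g hg hgX c
      refine (spread_addCopies (T := gCopies) G Fam hF (by positivity) hE g hg hgX c).trans ?_
      refine div_le_div_of_nonneg_right ?_ (Nat.cast_nonneg g)
      set D : ℝ := (gTop k (gCount k) : ℝ) + n * gLoss k with hD
      have hS0 : 0 ≤ gSlack k := by unfold gSlack; positivity
      have hD0 : 0 ≤ D := by rw [hD]; unfold gLoss; positivity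
      set B : ℝ := gSlack k * (gCopies : ℝ) with hB
      have hB0 : 0 ≤ B := by rw [hB]; positivity
      have h4 : (2 : ℝ) ^ D + (2 : ℝ) ^ B ≤ (2 : ℝ) ^ (D + B + 1) := by
        rw [Real.rpow_add two_pos (D + B) 1, Real.rpow_one, mul_two]
        exact add_le_add (Real.rpow_le_rpow_of_exponent_le one_le_two (by linarith))
          (Real.rpow_le_rpow_of_exponent_le one_le_two (by linarith))
      refine (mul_le_mul_of_nonneg_left h4 (by positivity)).trans (le_of_eq ?_)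
      rw [← Real.rpow_natCast 2 gCopies, ← Real.rpow_add two_pos]
      congr 1
      rw [hD, hB]
      unfold gLoss
      push_cast
      ring
    · intro a b
      unfold addCopies
      calc ∑ t, ((a.1 t : ℕ) + 1) * G (b.1 t) + Fam a.2 b.2
          ≤ ∑ _t : Fin gCopies, 2 ^ X * 2 ^ X + n * gCopies * 2 ^ (2 * X') :=
            add_le_add (Finset.sum_le_sum fun t _ => Nat.mul_le_mul (a.1 t).2 (hG _).1.le)
              (hFle _ _)
        _ ≤ gCopies * 2 ^ (2 * X) + n * gCopies * 2 ^ (2 * X) := by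
            refine add_le_add (le_of_eq ?_)
              (Nat.mul_le_mul_left _ (Nat.pow_le_pow_right two_pos (by omega)))
            rw [Finset.sum_const, Finset.card_univ, Fintype.card_fin, smul_eq_mul, ← pow_add, two_mul]
        _ = (n + 1) * gCopies * 2 ^ (2 * X) := by ring
    · have h5 := (gHeight_bounds (show 1 ≤ r by omega) hrk).2
      rw [← hL] at h5
      have h6 : T * (2 ^ 14 * r) ≤ gCopies * k := by
        rw [pow_succ 2 m] at hT
        rw [hr]
        linarith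
      have h7 : gCopies * 2 ^ L * (2 ^ 14 * r) ≤ gCopies * k := by
        rw [mul_assoc]; exact Nat.mul_le_mul_left _ h5
      rw [add_mul]
      linarith
    · intro a
      obtain ⟨N, hN1, hN2, hN⟩ := hRep a.2
      set P := ∏ t, ((a.1 t : ℕ) + 1) with hP
      have hP0 : 0 < P := Finset.prod_pos fun t _ => Nat.succ_pos _
      refine ⟨P * Ξ * N, Nat.one_le_iff_ne_zero.2 (by positivity), ?_, fun b => ?_⟩
      · have hP2 : P ≤ 2 ^ (X * gCopies) := by
          calc P ≤ ∏ _t : Fin gCopies, 2 ^ X := Finset.prod_le_prod' fun t _ => (a.1 t).2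
            _ = _ := by rw [Finset.prod_const, Finset.card_univ, Fintype.card_fin, ← pow_mul]
        calc P * Ξ * N ≤ 2 ^ (X * gCopies) * 2 ^ X * 2 ^ (2 * (gCopies + 1) * X') :=
              Nat.mul_le_mul (Nat.mul_le_mul hP2 hΞ2) hN2
          _ ≤ _ := by
              rw [← pow_add, ← pow_add]
              refine Nat.pow_le_pow_right two_pos ?_
              have h8 : (gCopies + 1) * (2 * X') ≤ (gCopies + 1) * X := Nat.mul_le_mul_left _ hX2
              linarith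
      · unfold addCopies
        refine Rep.add ?_ ((hN b.2).mono (mul_dvd_mul_right (dvd_mul_left N _) _) le_rfl)
        have h9 := Rep.sum (Finset.univ : Finset (Fin gCopies))
          (N := P * Ξ * N * poolProd k) (T := 2 ^ L)
          (f := fun t => ((a.1 t : ℕ) + 1) * G (b.1 t)) fun t _ => by
            refine ((hG (b.1 t)).2.mul (Finset.dvd_prod_of_mem (fun t => (a.1 t : ℕ) + 1)
              (Finset.mem_univ t))).mono ?_ le_rfl
            rw [← hP, ← mul_assoc]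
            exact mul_dvd_mul_right (Dvd.intro N rfl) _
        rwa [Finset.card_univ, Fintype.card_fin] at h9

end Vale.Agent.P012
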