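import Mathlib.Analysis.SpecialFunctions.Complex.CircleAddChar
import Mathlib.NumberTheory.LegendreSymbol.AddCharacter
import Mathlib.Algebra.BigOperators.Ring.Finset
import Mathlib.Algebra.Order.Chebyshev

/-!
Covering of `ZMod p` by two summands from a set and products from two sets.
-/

namespace Vale.Agent.P012

open Finset

variable {p : ℕ} [Fact p.Prime]

/-- The standard additive character of `ZMod p`. -/
noncomputable def eChar (x : ZMod p) : ℂ := ZMod.stdAddChar x

lemma eChar_add (x y : ZMod p) : eChar (x + y) = eChar x * eChar y :=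
  AddChar.map_add_eq_mul _ x y

lemma eChar_zero : eChar (0 : ZMod p) = 1 := AddChar.map_zero_eq_one _

lemma norm_eChar (x : ZMod p) : ‖eChar x‖ = 1 := by
  unfold eChar
  rw [ZMod.stdAddChar_apply]
  exact Circle.norm_coe _

lemma conj_eChar (x : ZMod p) : (starRingEnd ℂ) (eChar x) = eChar (-x) := by
  rw [← Complex.inv_eq_conj (norm_eChar x)]
  exact inv_eq_of_mul_eq_one_right (by rw [← eChar_add, add_neg_cancel, eChar_zero])

lemma sum_eChar_mul (b : ZMod p) :
    ∑ h : ZMod p, eChar (h * b) = if b = 0 then (p : ℂ) else 0 := by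
  have := AddChar.sum_mulShift b (ZMod.isPrimitive_stdAddChar p)
  unfold eChar
  rw [this, ZMod.card]
  simp

lemma map_prod_eq {ι : Type*} (s : Finset ι) (f : ι → ZMod p) :
    eChar (∑ i ∈ s, f i) = ∏ i ∈ s, eChar (f i) := by
  classical
  induction s using Finset.induction with
  | empty => simp [eChar_zero]
  | insert a s ha ih => rw [Finset.sum_insert ha, Finset.prod_insert ha, eChar_add, ih]

/-- Fourier coefficient of a finite set. -/
noncomputable def four (A : Finset (ZMod p)) (h : ZMod p) : ℂ := ∑ a ∈ A, eChar (h * a)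

lemma sum_norm_four_sq (A : Finset (ZMod p)) :
    ∑ h : ZMod p, ‖four A h‖ ^ 2 = (p : ℝ) * A.card := by
  have hC : ∑ h : ZMod p, ((‖four A h‖ : ℂ)) ^ 2 = (p : ℂ) * A.card := by
    calc ∑ h : ZMod p, ((‖four A h‖ : ℂ)) ^ 2
        = ∑ h : ZMod p, (starRingEnd ℂ) (four A h) * four A h := by
          simp [Complex.conj_mul']
      _ = ∑ h : ZMod p, ∑ a ∈ A, ∑ b ∈ A, eChar (h * (b - a)) := by
          refine Finset.sum_congr rfl fun h _ => ?_
          simp only [four, map_sum, conj_eChar]
          rw [Finset.sum_mul_sum]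
          refine Finset.sum_congr rfl fun a _ => Finset.sum_congr rfl fun b _ => ?_
          rw [← eChar_add]
          congr 1
          ring
      _ = ∑ a ∈ A, ∑ b ∈ A, if b - a = 0 then (p : ℂ) else 0 := by
          rw [Finset.sum_comm]
          refine Finset.sum_congr rfl fun a _ => ?_
          rw [Finset.sum_comm]
          exact Finset.sum_congr rfl fun b _ => sum_eChar_mul _
      _ = (p : ℂ) * A.card := by
          simp [sub_eq_zero, mul_comm]
  exact_mod_cast hC

/-- Bilinear sum. -/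
noncomputable def bil (U V : Finset (ZMod p)) (h : ZMod p) : ℂ :=
  ∑ w ∈ U ×ˢ V, eChar (h * (w.1 * w.2))

lemma norm_bil_sq_le (U V : Finset (ZMod p)) {h : ZMod p} (hh : h ≠ 0) :
    ‖bil U V h‖ ^ 2 ≤ (p : ℝ) * U.card * V.card := by
  have h1 : bil U V h = ∑ u ∈ U, four V (h * u) := by
    simp only [bil, four, Finset.sum_product, mul_assoc]
  rw [h1]
  calc ‖∑ u ∈ U, four V (h * u)‖ ^ 2
      ≤ (∑ u ∈ U, ‖four V (h * u)‖) ^ 2 := by
        gcongr; exact norm_sum_le _ _
    _ ≤ (U.card : ℝ) * ∑ u ∈ U, ‖four V (h * u)‖ ^ 2 := sq_sum_le_card_mul_sum_sq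
    _ = (U.card : ℝ) * ∑ x ∈ U.image (fun u => h * u), ‖four V x‖ ^ 2 := by
        rw [Finset.sum_image fun u _ v _ huv => mul_left_cancel₀ hh huv]
    _ ≤ (U.card : ℝ) * ∑ x : ZMod p, ‖four V x‖ ^ 2 := by
        refine mul_le_mul_of_nonneg_left ?_ (by positivity)
        exact Finset.sum_le_sum_of_subset_of_nonneg (subset_univ _) fun x _ _ => by positivity
    _ = (p : ℝ) * U.card * V.card := by rw [sum_norm_four_sq]; ring

lemma covering (A U V : Finset (ZMod p)) (hU : U.Nonempty) (hV : V.Nonempty) (C : ℕ)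
    (x : ZMod p)
    (hyp : (p : ℝ) ^ 2 * ((p : ℝ) / (U.card * V.card)) ^ C < (A.card : ℝ) ^ 2) :
    ∃ a₁ ∈ A, ∃ a₂ ∈ A, ∃ f : Fin C → ZMod p × ZMod p,
      (∀ t, (f t).1 ∈ U ∧ (f t).2 ∈ V) ∧ x = a₁ + a₂ + ∑ t, (f t).1 * (f t).2 := by
  classical
  by_contra hno
  set P := Fintype.piFinset (fun _ : Fin C => U ×ˢ V) with hP
  have hz : ∑ h : ZMod p, eChar (-(h * x)) * four A h ^ 2 * bil U V h ^ C = 0 := by
    calc ∑ h : ZMod p, eChar (-(h * x)) * four A h ^ 2 * bil U V h ^ C
        = ∑ h : ZMod p, ∑ a ∈ A, ∑ b ∈ A, ∑ f ∈ P,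
            eChar (h * (a + b + (∑ t, (f t).1 * (f t).2) - x)) := by
          refine Finset.sum_congr rfl fun h _ => ?_
          rw [sq, bil, Finset.sum_pow', four, Finset.sum_mul_sum]
          rw [mul_assoc, Finset.sum_mul, Finset.mul_sum]
          refine Finset.sum_congr rfl fun a _ => ?_
          rw [Finset.sum_mul, Finset.mul_sum]
          refine Finset.sum_congr rfl fun b _ => ?_
          rw [Finset.mul_sum, Finset.mul_sum]
          refine
            Finset.sum_congr rfl fun f _ => ?_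
          have hpr : ∏ t : Fin C, eChar (h * ((f t).1 * (f t).2)) =
              eChar (h * ∑ t : Fin C, (f t).1 * (f t).2) := by
            rw [Finset.mul_sum]
            exact (map_prod_eq _ _).symm
          rw [hpr, ← eChar_add, ← eChar_add, ← eChar_add]
          congr 1
          ring
      _ = ∑ a ∈ A, ∑ b ∈ A, ∑ f ∈ P, ∑ h : ZMod p,
            eChar (h * (a + b + (∑ t, (f t).1 * (f t).2) - x)) := by
          rw [Finset.sum_comm]
          refine Finset.sum_congr rfl fun a _ => ?_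
          rw [Finset.sum_comm]
          refine Finset.sum_congr rfl fun b _ => ?_
          rw [Finset.sum_comm]
      _ = 0 := by
          refine Finset.sum_eq_zero fun a ha => Finset.sum_eq_zero fun b hb =>
            Finset.sum_eq_zero fun f hf => ?_
          rw [sum_eChar_mul, if_neg]
          intro h0
          apply hno
          refine ⟨a, ha, b, hb, f, fun t => ?_, (sub_eq_zero.1 h0).symm⟩
          exact Finset.mem_product.1 (Fintype.mem_piFinset.1 hf t)
  rw [← Finset.add_sum_erase _ _ (Finset.mem_univ (0 : ZMod p))] at hz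
  have h0 : eChar (-((0 : ZMod p) * x)) * four A 0 ^ 2 * bil U V 0 ^ C =
      (A.card : ℂ) ^ 2 * ((U.card : ℂ) * V.card) ^ C := by
    simp [four, bil, eChar_zero, Finset.card_product]
  rw [h0] at hz
  set N : ℝ := (U.card : ℝ) * V.card with hN
  set B : ℝ := Real.sqrt ((p : ℝ) * N) with hB
  have hmain : (A.card : ℝ) ^ 2 * N ^ C ≤ (p : ℝ) * A.card * B ^ C := by
    have h1 := eq_neg_of_add_eq_zero_left hz
    have h2 : ‖(A.card : ℂ) ^ 2 * ((U.card : ℂ) * V.card) ^ C‖ = (A.card : ℝ) ^ 2 * N ^ C := by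
      simp [hN]
    rw [← h2, h1, norm_neg]
    calc ‖∑ h ∈ (univ : Finset (ZMod p)).erase 0,
            eChar (-(h * x)) * four A h ^ 2 * bil U V h ^ C‖
        ≤ ∑ h ∈ (univ : Finset (ZMod p)).erase 0,
            ‖eChar (-(h * x)) * four A h ^ 2 * bil U V h ^ C‖ := norm_sum_le _ _
      _ ≤ ∑ h ∈ (univ : Finset (ZMod p)).erase 0, ‖four A h‖ ^ 2 * B ^ C := by
          refine Finset.sum_le_sum fun h hh => ?_
          rw [norm_mul, norm_mul, norm_eChar, one_mul, norm_pow, norm_pow]
          gcongr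
          apply Real.le_sqrt_of_sq_le
          have := norm_bil_sq_le U V (Finset.ne_of_mem_erase hh)
          rw [hN]; linarith
      _ ≤ ∑ h : ZMod p, ‖four A h‖ ^ 2 * B ^ C :=
          Finset.sum_le_sum_of_subset_of_nonneg (subset_univ _) fun h _ _ => by positivity
      _ = (p : ℝ) * A.card * B ^ C := by rw [← Finset.sum_mul, sum_norm_four_sq]
  have hp : (0 : ℝ) < p := by exact_mod_cast (Fact.out : p.Prime).pos
  have hN0 : (0 : ℝ) < N := by
    have h1 : (0 : ℝ) < U.card := by exact_mod_cast hU.card_pos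
    have h2 : (0 : ℝ) < V.card := by exact_mod_cast hV.card_pos
    positivity
  rw [div_pow, ← mul_div_assoc, div_lt_iff₀ (by positivity)] at hyp
  rcases Nat.eq_zero_or_pos A.card with hA | hA
  · rw [hA] at hyp
    have : (0 : ℝ) ≤ (p : ℝ) ^ 2 * (p : ℝ) ^ C := by positivity
    simp only [Nat.cast_zero, ne_eq, OfNat.ofNat_ne_zero, not_false_eq_true, zero_pow, zero_mul]
      at hyp
    linarith
  · have hA' : (0 : ℝ) < A.card := by exact_mod_cast hA
    have hmain' : (A.card : ℝ) * N ^ C ≤ (p : ℝ) * B ^ C := by nlinarith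
    have hsq := pow_le_pow_left₀ (by positivity) hmain' 2
    have hB2 : (B ^ C) ^ 2 = (p : ℝ) ^ C * N ^ C := by
      rw [← pow_mul, mul_comm C 2, pow_mul, hB, Real.sq_sqrt (by positivity), mul_pow]
    rw [mul_pow (A.card : ℝ), mul_pow (p : ℝ) (B ^ C), hB2, sq (N ^ C)] at hsq
    have hNC : (0 : ℝ) < N ^ C := by positivity
    nlinarith

end Vale.Agent.P012
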