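import Mathlib.Analysis.SpecialFunctions.Pow.Real
import Mathlib.Analysis.SpecialFunctions.Log.Basic
import Mathlib.Analysis.Complex.ExponentialBounds
import Mathlib.NumberTheory.Divisors
import Mathlib.Data.Nat.Factorization.Induction
import Mathlib.Data.Nat.Factorization.Basic
import Mathlib.Data.Finset.NatDivisors
import Mathlib.Algebra.Order.BigOperators.Group.Finset
import Mathlib.Algebra.Ring.GeomSum

/-!
Rankin's bound for the number of small divisors of an integer.
-/

namespace Vale.Agent.P012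

open Finset
open scoped Pointwise

/-- Euler factor. -/
noncomputable def eulerF (σ : ℝ) (p : ℕ) : ℝ := (1 - (p : ℝ) ^ (-σ))⁻¹

lemma rpow_neg_lt_one {σ : ℝ} (hσ : 0 < σ) {p : ℕ} (hp : 1 < p) : (p : ℝ) ^ (-σ) < 1 :=
  Real.rpow_lt_one_of_one_lt_of_neg (by exact_mod_cast hp) (by linarith)

lemma one_le_eulerF {σ : ℝ} (hσ : 0 < σ) {p : ℕ} (hp : 1 < p) : 1 ≤ eulerF σ p := by
  have h1 := rpow_neg_lt_one hσ hp
  have h2 : (0 : ℝ) ≤ (p : ℝ) ^ (-σ) := by positivity
  exact (one_le_inv₀ (by linarith)).2 (by linarith)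

lemma sum_divisors_rpow_le {σ : ℝ} (hσ : 0 < σ) (F : ℕ) (hF : 0 < F) :
    ∑ d ∈ F.divisors, (d : ℝ) ^ (-σ) ≤ ∏ p ∈ F.primeFactors, eulerF σ p := by
  induction F using Nat.recOnPrimeCoprime with
  | zero => omega
  | prime_pow p n hp =>
    rcases Nat.eq_zero_or_pos n with rfl | hn
    · simp
    rw [Nat.primeFactors_prime_pow hn.ne' hp, Finset.prod_singleton, Nat.divisors_prime_pow hp,
      Finset.sum_map]
    simp only [Function.Embedding.coeFn_mk, Nat.cast_pow]
    have hx0 : (0 : ℝ) ≤ (p : ℝ) ^ (-σ) := by positivity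
    have hx1 := rpow_neg_lt_one hσ hp.one_lt
    calc ∑ i ∈ Finset.range (n + 1), ((p : ℝ) ^ i) ^ (-σ)
        = ∑ i ∈ Finset.range (n + 1), ((p : ℝ) ^ (-σ)) ^ i :=
          Finset.sum_congr rfl fun i _ => by
            rw [← Real.rpow_natCast_mul (by positivity), ← Real.rpow_mul_natCast (by positivity),
              mul_comm]
      _ ≤ eulerF σ p := by
          unfold eulerF
          rw [← one_div, le_div_iff₀ (by linarith), geom_sum_mul_neg]
          have : (0 : ℝ) ≤ ((p : ℝ) ^ (-σ)) ^ (n + 1) := by positivity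
          linarith
  | coprime a b ha hb hab iha ihb =>
    rw [Nat.Coprime.primeFactors_mul hab,
      Finset.prod_union hab.disjoint_primeFactors, Nat.divisors_mul]
    refine le_trans ?_ (mul_le_mul (iha (by omega)) (ihb (by omega))
      (Finset.sum_nonneg fun d _ => by positivity)
      (Finset.prod_nonneg fun p hp => le_trans zero_le_one
        (one_le_eulerF hσ (Nat.prime_of_mem_primeFactors hp).one_lt)))
    rw [Finset.sum_mul_sum, ← Finset.sum_product']
    rw [Finset.mul_def]
    refine (Finset.sum_image_le_of_nonneg fun d _ => by positivity).trans (le_of_eq ?_)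
    refine Finset.sum_congr rfl fun x _ => ?_
    push_cast
    rw [Real.mul_rpow (by positivity) (by positivity)]

lemma card_divisors_le {σ : ℝ} (hσ : 0 < σ) {F : ℕ} (hF : 0 < F) (H : ℝ) (hH : 0 < H) :
    ((F.divisors.filter (fun d : ℕ => (d : ℝ) ≤ H)).card : ℝ) ≤
      H ^ σ * ∏ p ∈ F.primeFactors, eulerF σ p := by
  refine le_trans ?_ (mul_le_mul_of_nonneg_left (sum_divisors_rpow_le hσ F hF) (by positivity))
  rw [Finset.card_eq_sum_ones, Finset.mul_sum]
  push_cast
  refine (Finset.sum_le_sum fun d hd => ?_).trans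
    (Finset.sum_le_sum_of_subset_of_nonneg (Finset.filter_subset _ _) fun d _ _ => by positivity)
  obtain ⟨h1, h2⟩ := Finset.mem_filter.1 hd
  have hd0 : (0 : ℝ) < d := by exact_mod_cast Nat.pos_of_mem_divisors h1
  rw [Real.rpow_neg hd0.le, ← div_eq_mul_inv, one_le_div (by positivity)]
  exact Real.rpow_le_rpow hd0.le h2 hσ.le

/-- The product of the Euler factors, small primes and large primes counted apart. -/
lemma prod_eulerF_le {σ x : ℝ} (hσ : 0 < σ) {F X e K : ℕ} (hF : 0 < F)
    (hFX : F < 2 ^ (X + 1))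
    (hx : ∀ p : ℕ, 2 ^ e < p → (p : ℝ) ^ (-σ) ≤ x) (hx1 : x ≤ 1 / 2)
    (hK : eulerF σ 2 ≤ (2 : ℝ) ^ K) (he : 1 ≤ e) :
    ∏ p ∈ F.primeFactors, eulerF σ p ≤
      (2 : ℝ) ^ ((K : ℝ) * (2 ^ e + 1 : ℕ)) * Real.exp (2 * x * ((X : ℝ) / e)) := by
  classical
  set S := F.primeFactors with hS
  rw [← Finset.prod_filter_mul_prod_filter_not S (fun p => p ≤ 2 ^ e)]
  have hpS : ∀ p ∈ S, p.Prime := fun p hp => Nat.prime_of_mem_primeFactors hp
  refine mul_le_mul ?_ ?_ (Finset.prod_nonneg fun p hp => le_trans zero_le_one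
    (one_le_eulerF hσ (hpS p (Finset.mem_filter.1 hp).1).one_lt)) (by positivity)
  · calc ∏ p ∈ S.filter (fun p => p ≤ 2 ^ e), eulerF σ p
        ≤ ∏ _p ∈ S.filter (fun p => p ≤ 2 ^ e), (2 : ℝ) ^ K := by
          refine Finset.prod_le_prod (fun p hp => le_trans zero_le_one
            (one_le_eulerF hσ (hpS p (Finset.mem_filter.1 hp).1).one_lt)) fun p hp => ?_
          have hp2 := (hpS p (Finset.mem_filter.1 hp).1).two_le
          refine le_trans ?_ hK
          unfold eulerF
          have h2 := rpow_neg_lt_one hσ (p := 2) one_lt_two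
          push_cast at h2
          have h3 : (p : ℝ) ^ (-σ) ≤ (2 : ℝ) ^ (-σ) :=
            Real.rpow_le_rpow_of_nonpos two_pos (by exact_mod_cast hp2) (by linarith)
          push_cast
          gcongr
      _ ≤ (2 : ℝ) ^ ((K : ℝ) * (2 ^ e + 1 : ℕ)) := by
          rw [Finset.prod_const, ← pow_mul, ← Nat.cast_mul, Real.rpow_natCast]
          refine pow_le_pow_right₀ one_le_two (Nat.mul_le_mul_left _ ?_)
          calc (S.filter (fun p => p ≤ 2 ^ e)).card ≤ (Finset.range (2 ^ e + 1)).card :=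
                Finset.card_le_card fun p hp =>
                  Finset.mem_range.2 (by have := (Finset.mem_filter.1 hp).2; omega)
            _ = _ := Finset.card_range _
  · set B := S.filter (fun p => ¬ p ≤ 2 ^ e) with hB
    have hcard : B.card * e ≤ X := by
      have h1 : (2 ^ e) ^ B.card ≤ F := by
        calc (2 ^ e) ^ B.card = ∏ _p ∈ B, 2 ^ e := (Finset.prod_const _).symm
          _ ≤ ∏ p ∈ B, p := Finset.prod_le_prod' fun p hp => by
              have := (Finset.mem_filter.1 hp).2; omega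
          _ ≤ F := by
              refine Nat.le_of_dvd hF ((Finset.prod_dvd_prod_of_subset _ _ _
                (Finset.filter_subset _ _)).trans ?_)
              exact Nat.prod_primeFactors_dvd F
      rw [← pow_mul] at h1
      have := (Nat.pow_lt_pow_iff_right (by norm_num)).1 (h1.trans_lt hFX)
      rw [mul_comm] at this
      omega
    have hx0 : 0 ≤ x := le_trans (by positivity) (hx (2 ^ e + 1) (Nat.lt_succ_self _))
    calc ∏ p ∈ B, eulerF σ p ≤ ∏ _p ∈ B, Real.exp (2 * x) := by
          refine Finset.prod_le_prod (fun p hp => le_trans zero_le_one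
            (one_le_eulerF hσ (hpS p (Finset.mem_filter.1 hp).1).one_lt)) fun p hp => ?_
          have h1 := hx p (not_le.1 (Finset.mem_filter.1 hp).2)
          refine le_trans ?_ (Real.add_one_le_exp _)
          unfold eulerF
          rw [← one_div, div_le_iff₀ (by linarith)]
          have h0 : (0 : ℝ) ≤ (p : ℝ) ^ (-σ) := by positivity
          nlinarith
      _ ≤ Real.exp (2 * x * ((X : ℝ) / e)) := by
          rw [Finset.prod_const, ← Real.exp_nat_mul]
          refine Real.exp_le_exp.2 ?_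
          rw [mul_comm]
          refine mul_le_mul_of_nonneg_left ?_ (by linarith)
          rw [le_div_iff₀ (by exact_mod_cast he)]
          exact_mod_cast hcard

end Vale.Agent.P012

namespace Vale.Agent.P012

open Finset

lemma eulerF_two_le {σ : ℝ} {k : ℕ} (hk : 4 ≤ k) (hσ : 2 / (k : ℝ) ≤ σ) :
    eulerF σ 2 ≤ (2 : ℝ) ^ k := by
  have hk0 : (4 : ℝ) ≤ k := by exact_mod_cast hk
  have hl1 : (0.6931471803 : ℝ) < Real.log 2 := Real.log_two_gt_d9
  have hl2 : Real.log 2 < (0.6931471808 : ℝ) := Real.log_two_lt_d9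
  set y := 2 / (k : ℝ) * Real.log 2 with hy
  have hy0 : 0 < y := by positivity
  have hy1 : y ≤ 1 / 2 := by
    rw [hy, div_mul_eq_mul_div, div_le_iff₀ (by linarith)]
    nlinarith
  have h1 : (2 : ℝ) ^ (-σ) ≤ 1 / (1 + y) := by
    calc (2 : ℝ) ^ (-σ) ≤ (2 : ℝ) ^ (-(2 / (k : ℝ))) :=
          Real.rpow_le_rpow_of_exponent_le one_le_two (by linarith)
      _ = (Real.exp y)⁻¹ := by
          rw [Real.rpow_neg two_pos.le, Real.rpow_def_of_pos two_pos, hy, mul_comm]
      _ ≤ 1 / (1 + y) := by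
          rw [one_div]
          exact inv_anti₀ (by linarith) (by linarith [Real.add_one_le_exp y])
  have h2 : 2 * y / 3 ≤ 1 - (2 : ℝ) ^ (-σ) := by
    have : 1 - 1 / (1 + y) = y / (1 + y) := by field_simp; ring
    have h3 : 2 * y / 3 ≤ y / (1 + y) := by
      rw [div_le_div_iff₀ (by norm_num) (by linarith)]
      nlinarith
    linarith
  have h4 : 3 / (2 * y) ≤ 2 * (k : ℝ) := by
    have hky : (k : ℝ) * y = 2 * Real.log 2 := by rw [hy]; field_simp
    rw [div_le_iff₀ (by positivity)]
    nlinarith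
  have hk2 : 2 * (k : ℝ) ≤ (2 : ℝ) ^ k := by
    have h : ∀ m : ℕ, 1 ≤ m → 2 * m ≤ 2 ^ m := by
      intro m hm
      induction m, hm using Nat.le_induction with
      | base => norm_num
      | succ m hm ih => rw [pow_succ]; omega
    exact_mod_cast h k (by omega)
  unfold eulerF
  push_cast
  refine le_trans ?_ (h4.trans hk2)
  rw [show 3 / (2 * y) = (2 * y / 3)⁻¹ by rw [inv_div]]
  exact inv_anti₀ (by positivity) h2

/-- Few divisors of moderate size: linear exponent plus an absolute term. -/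
lemma card_divisors_moderate {k r X F : ℕ} (hk : 16 ≤ k) (hr : r + 10 ≤ k) (hF : 0 < F)
    (hFX : F < 2 ^ (X + 1)) {η : ℝ} (hη : (X : ℝ) ≤ 2 ^ (r + 1) * η) :
    ((F.divisors.filter (fun d : ℕ => (d : ℝ) ≤ (2 : ℝ) ^ η)).card : ℝ) ≤
      (2 : ℝ) ^ ((2 * (r : ℝ) + 21) / k * η + k * ((2 : ℝ) ^ (k / 2) + 1)) := by
  set σ : ℝ := 2 * ((r : ℝ) + 10) / k with hσ
  have hk0 : (0 : ℝ) < k := by exact_mod_cast (show 0 < k by omega)
  have hσ0 : 0 < σ := by positivity
  set e := k / 2 with he
  set x : ℝ := (2 : ℝ) ^ (-((r : ℝ) + 9)) with hx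
  have hx0 : 0 < x := by positivity
  have hxp : ∀ p : ℕ, 2 ^ e < p → (p : ℝ) ^ (-σ) ≤ x := by
    intro p hp
    calc (p : ℝ) ^ (-σ) ≤ ((2 : ℝ) ^ (e : ℝ)) ^ (-σ) := by
          refine Real.rpow_le_rpow_of_nonpos (by positivity) ?_ (by linarith)
          rw [Real.rpow_natCast]
          exact_mod_cast hp.le
      _ ≤ x := by
          rw [← Real.rpow_mul two_pos.le, hx]
          refine Real.rpow_le_rpow_of_exponent_le one_le_two ?_
          have he2 : (k : ℝ) ≤ 2 * (e : ℝ) + 1 := by
            exact_mod_cast (show k ≤ 2 * e + 1 by omega)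
          have hrk : (r : ℝ) + 10 ≤ k := by exact_mod_cast hr
          rw [hσ, mul_neg, neg_le_neg_iff, ← mul_div_assoc, le_div_iff₀ hk0]
          nlinarith
  have hx1 : x ≤ 1 / 2 := by
    calc x ≤ (2 : ℝ) ^ (-(1 : ℝ)) :=
          Real.rpow_le_rpow_of_exponent_le one_le_two
            (by have : (0 : ℝ) ≤ r := by positivity
                linarith)
      _ = 1 / 2 := by rw [Real.rpow_neg_one]; norm_num
  have hK : eulerF σ 2 ≤ (2 : ℝ) ^ k := by
    refine eulerF_two_le (by omega) ?_
    rw [hσ]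
    gcongr
    have : (0 : ℝ) ≤ r := by positivity
    linarith
  have hmain := card_divisors_le hσ0 hF ((2 : ℝ) ^ η) (by positivity)
  have hprod := prod_eulerF_le hσ0 hF hFX hxp hx1 hK (e := e) (by omega)
  refine hmain.trans ((mul_le_mul_of_nonneg_left hprod (by positivity)).trans ?_)
  rw [← Real.rpow_mul two_pos.le]
  have hexp : Real.exp (2 * x * ((X : ℝ) / e)) ≤ (2 : ℝ) ^ (η / k) := by
    rw [Real.rpow_def_of_pos two_pos]
    refine Real.exp_le_exp.2 ?_
    have hl1 : (0.6931471803 : ℝ) < Real.log 2 := Real.log_two_gt_d9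
    have hxX : x * X ≤ η / 256 := by
      have h1 : x * (2 : ℝ) ^ (r + 1) = 1 / 256 := by
        rw [hx, ← Real.rpow_natCast, ← Real.rpow_add two_pos]
        push_cast
        rw [show -((r : ℝ) + 9) + ((r : ℝ) + 1) = -(8 : ℕ) by push_cast; ring,
          Real.rpow_neg two_pos.le, Real.rpow_natCast]
        norm_num
      calc x * X ≤ x * ((2 : ℝ) ^ (r + 1) * η) := by gcongr
        _ = η / 256 := by rw [← mul_assoc, h1]; ring
    have he3 : (k : ℝ) ≤ 3 * (e : ℝ) := by exact_mod_cast (show k ≤ 3 * e by omega)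
    have he0 : (0 : ℝ) < e := by exact_mod_cast (show 0 < e by omega)
    have hη0 : 0 ≤ η := by
      have : (0 : ℝ) ≤ (2 : ℝ) ^ (r + 1) * η := le_trans (by positivity) hη
      exact nonneg_of_mul_nonneg_right this (by positivity)
    calc 2 * x * ((X : ℝ) / e) = 2 * (x * X) / e := by ring
      _ ≤ 2 * (η / 256) / e := by gcongr
      _ ≤ Real.log 2 * (η / k) := by
          rw [div_le_iff₀ he0, mul_comm (Real.log 2), div_mul_eq_mul_div, div_mul_eq_mul_div,
            le_div_iff₀ hk0]
          nlinarith [mul_le_mul_of_nonneg_left he3 hη0,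
            mul_le_mul_of_nonneg_left hl1.le (mul_nonneg hη0 he0.le)]
  refine (mul_le_mul_of_nonneg_left (mul_le_mul_of_nonneg_left hexp (by positivity))
    (by positivity)).trans (le_of_eq ?_)
  rw [← Real.rpow_add two_pos, ← Real.rpow_add two_pos]
  congr 1
  rw [hσ]
  push_cast
  field_simp
  ring

end Vale.Agent.P012
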