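import Mathlib
import Vale.Agent.P012.Rep

/-!
Egyptian fraction bookkeeping: making denominators distinct, short expansions from a window of
representable integers, and the classical lower bound for `(b-1)/b`.
-/

namespace Vale.Agent.P012

open Finset

/-- A multiset of positive denominators can be replaced by a set that is no larger. -/
theorem exists_distinct (s : Multiset ℕ) (h0 : ∀ n ∈ s, 0 < n)
    (h1 : (s.map fun n : ℕ => (1:ℚ)/n).sum < 1) :
    ∃ S : Finset ℕ, (∀ n ∈ S, 2 ≤ n) ∧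
      ∑ n ∈ S, (1:ℚ)/n = (s.map fun n : ℕ => (1:ℚ)/n).sum ∧ S.card ≤ s.card := by
  classical
  set f : ℕ → ℚ := fun n => (1:ℚ)/n with hf
  have hfn : ∀ n, 0 ≤ f n := fun n => by simp only [hf]; positivity
  suffices key : ∀ m : ℕ, ∀ t : Multiset ℕ, t.card ≤ m → (∀ n ∈ t, 0 < n) → (t.map f).sum < 1 →
      ∃ S : Finset ℕ, (∀ n ∈ S, 2 ≤ n) ∧ ∑ n ∈ S, f n = (t.map f).sum ∧ S.card ≤ m from
    key s.card s le_rfl h0 h1
  intro m
  induction m with
  | zero =>
    intro t ht _ _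
    obtain rfl : t = 0 := Multiset.card_eq_zero.1 (by omega)
    exact ⟨∅, by simp⟩
  | succ m ih =>
    intro t ht ht0 ht1
    rcases eq_or_ne t 0 with rfl | hne
    · exact ⟨∅, by simp⟩
    set q := (t.map f).sum with hq
    have hex : ∃ n, ∃ u : Multiset ℕ, u.card ≤ m + 1 ∧ (∀ x ∈ u, 0 < x) ∧ (u.map f).sum = q ∧
        n ∈ u := by
      obtain ⟨n, hn⟩ := Multiset.exists_mem_of_ne_zero hne
      exact ⟨n, t, ht, ht0, rfl, hn⟩
    obtain ⟨u, hu, hu0, huq, hnu⟩ := Nat.find_spec hex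
    set n := Nat.find hex with hn
    have hsplit : f n + ((u.erase n).map f).sum = q := by
      rw [← huq]
      conv_rhs => rw [← Multiset.cons_erase hnu]
      rw [Multiset.map_cons, Multiset.sum_cons]
    have hcard : (u.erase n).card ≤ m := by
      have := congrArg Multiset.card (Multiset.cons_erase hnu)
      rw [Multiset.card_cons] at this
      omega
    have hn0 : 0 < n := hu0 n hnu
    have hlt : ((u.erase n).map f).sum < 1 := by linarith [hfn n]
    obtain ⟨S, hS2, hSsum, hScard⟩ :=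
      ih (u.erase n) hcard (fun x hx => hu0 x (Multiset.mem_of_mem_erase hx)) hlt
    have hn2 : 2 ≤ n := by
      by_contra hcon
      have h1 : n = 1 := by omega
      have h2 : 0 ≤ ((u.erase n).map f).sum :=
        Multiset.sum_nonneg (fun x hx => by
          obtain ⟨y, -, rfl⟩ := Multiset.mem_map.1 hx
          exact hfn y)
      have h3 : f n = 1 := by rw [h1]; simp [hf]
      linarith
    have hnS : n ∉ S := by
      intro hmem
      have hrest : ∑ x ∈ S.erase n, f x = q - 2 * f n := by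
        have := Finset.add_sum_erase S f hmem
        linarith
      have hrc : (S.erase n).card + 1 ≤ m := by
        rw [Finset.card_erase_add_one hmem]; exact hScard
      have hpos : ∀ x ∈ (S.erase n).val, 0 < x := fun x hx => by
        have := hS2 x (Finset.mem_of_mem_erase hx)
        omega
      rcases Nat.even_or_odd' n with ⟨j, hj | hj⟩
      · refine Nat.find_min hex (m := j) (by omega) ⟨j ::ₘ (S.erase n).val, ?_, ?_, ?_, by simp⟩
        · rw [Multiset.card_cons, ← Finset.card_def]; omega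
        · simp only [Multiset.mem_cons]
          rintro x (rfl | hx)
          · omega
          · exact hpos x hx
        · rw [Multiset.map_cons, Multiset.sum_cons]
          change f j + ∑ x ∈ S.erase n, f x = q
          rw [hrest, hj]
          have hj0 : (j:ℚ) ≠ 0 := by
            have : 0 < j := by omega
            positivity
          simp only [hf, Nat.cast_mul, Nat.cast_ofNat]
          field_simp
          ring
      · refine Nat.find_min hex (m := j + 1) (by omega)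
          ⟨(j + 1) ::ₘ ((2 * j + 1) * (j + 1)) ::ₘ (S.erase n).val, ?_, ?_, ?_, by simp⟩
        · rw [Multiset.card_cons, Multiset.card_cons, ← Finset.card_def]; omega
        · simp only [Multiset.mem_cons]
          rintro x (rfl | rfl | hx)
          · omega
          · positivity
          · exact hpos x hx
        · rw [Multiset.map_cons, Multiset.sum_cons, Multiset.map_cons, Multiset.sum_cons]
          change f (j + 1) + (f ((2 * j + 1) * (j + 1)) + ∑ x ∈ S.erase n, f x) = q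
          rw [hrest, hj]
          simp only [hf, Nat.cast_mul, Nat.cast_add, Nat.cast_ofNat, Nat.cast_one]
          field_simp
          ring
    refine ⟨insert n S, ?_, ?_, ?_⟩
    · intro x hx
      rcases Finset.mem_insert.1 hx with rfl | hx
      · exact hn2
      · exact hS2 x hx
    · rw [Finset.sum_insert hnS, hSsum, hsplit]
    · rw [Finset.card_insert_of_notMem hnS]
      omega

/-- Greedy steps square the remainder. -/
lemma egyptian_greedy {E : ℕ} :
    ∀ J e a B : ℕ, E ≤ e * 2 ^ J → a * 2 ^ e ≤ B → 0 < B → B ≤ 2 ^ (4 * E) → a ≤ 2 ^ E →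
      ∃ (s : Multiset ℕ) (a' B' : ℕ), s.card ≤ J ∧ (∀ n ∈ s, 0 < n) ∧ 0 < B' ∧
        B' ≤ 2 ^ (4 * E) ∧ a' * 2 ^ E ≤ B' ∧
        (a:ℚ)/B = (s.map fun n : ℕ => (1:ℚ)/n).sum + (a':ℚ)/B' := by
  intro J
  induction J with
  | zero =>
    intro e a B hE ha hB0 hB _
    refine ⟨0, a, B, by simp, by simp, hB0, hB, ?_, by simp⟩
    exact le_trans (Nat.mul_le_mul_left a (Nat.pow_le_pow_right (by norm_num) (by omega))) ha
  | succ J ih =>
    intro e a B hE ha hB0 hB haE
    by_cases hdone : a * 2 ^ E ≤ B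
    · exact ⟨0, a, B, by simp, by simp, hB0, hB, hdone, by simp⟩
    push Not at hdone
    have ha0 : 0 < a := by
      rcases Nat.eq_zero_or_pos a with rfl | h
      · simp at hdone
      · exact h
    set t := (B + a - 1) / a with ht
    have h1 := Nat.div_add_mod (B + a - 1) a
    have h2 := Nat.mod_lt (B + a - 1) ha0
    rw [← ht] at h1
    have hBt : B ≤ a * t := by omega
    have htB : a * t < B + a := by omega
    have hte : 2 ^ e ≤ t := Nat.le_of_mul_le_mul_left (ha.trans hBt) ha0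
    have ht0 : 0 < t := lt_of_lt_of_le (Nat.two_pow_pos e) hte
    have htle : t ≤ B := by
      by_contra hcon
      push Not at hcon
      have h3 : a * (B + 1) ≤ a * t := Nat.mul_le_mul_left a hcon
      rw [mul_add, mul_one] at h3
      have h4 : B ≤ a * B := Nat.le_mul_of_pos_left B ha0
      omega
    have hB2 : B ≤ 2 ^ (2 * E) := by
      refine le_of_lt (lt_of_lt_of_le hdone ?_)
      rw [two_mul, pow_add]
      exact Nat.mul_le_mul_right _ haE
    obtain ⟨s, a', B', hs, hs0, hB'0, hB', ha', hsum⟩ := ih (2 * e) (a * t - B) (B * t)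
      (hE.trans (le_of_eq (by rw [pow_succ]; ring))) (by
        calc (a * t - B) * 2 ^ (2 * e) ≤ a * 2 ^ (2 * e) := Nat.mul_le_mul_right _ (by omega)
          _ = (a * 2 ^ e) * 2 ^ e := by rw [two_mul, pow_add, mul_assoc]
          _ ≤ B * t := Nat.mul_le_mul ha hte)
      (Nat.mul_pos hB0 ht0) (by
        calc B * t ≤ 2 ^ (2 * E) * 2 ^ (2 * E) := Nat.mul_le_mul hB2 (htle.trans hB2)
          _ = 2 ^ (4 * E) := by rw [← pow_add]; ring_nf)
      (by omega)
    refine ⟨t ::ₘ s, a', B', by rw [Multiset.card_cons]; omega, ?_, hB'0, hB', ha', ?_⟩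
    · intro n hn
      rcases Multiset.mem_cons.1 hn with rfl | hn
      · exact ht0
      · exact hs0 n hn
    · rw [Multiset.map_cons, Multiset.sum_cons, add_assoc, ← hsum, Nat.cast_sub hBt]
      have : (B:ℚ) ≠ 0 := by positivity
      have : (t:ℚ) ≠ 0 := by positivity
      push_cast
      field_simp
      ring

/-- A sum of divisors of `N`, divided by `N * M`, is a sum of unit fractions. -/
lemma egyptian_of_rep {N T x M : ℕ} (h : Rep N T x) (hN : 0 < N) (hM : 0 < M) :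
    ∃ u : Multiset ℕ, u.card ≤ T ∧ (∀ n ∈ u, 0 < n) ∧
      (u.map fun n : ℕ => (1:ℚ)/n).sum = (x:ℚ)/((N:ℚ) * M) := by
  obtain ⟨s, hcard, hdvd, rfl⟩ := h
  refine ⟨s.map fun d => N / d * M, by simpa using hcard, ?_, ?_⟩
  · intro n hn
    obtain ⟨d, hd, rfl⟩ := Multiset.mem_map.1 hn
    exact Nat.mul_pos (Nat.div_pos (Nat.le_of_dvd hN (hdvd d hd))
      (Nat.pos_of_dvd_of_pos (hdvd d hd) hN)) hM
  · clear hcard
    induction s using Multiset.induction with
    | empty => simp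
    | cons d s ih =>
      have hd : d ∣ N := hdvd d (Multiset.mem_cons_self d s)
      obtain ⟨e, he⟩ := hd
      have hd0 : 0 < d := Nat.pos_of_ne_zero (by rintro rfl; simp at he; omega)
      rw [Multiset.map_cons, Multiset.map_cons, Multiset.sum_cons, Multiset.sum_cons,
        ih (fun x hx => hdvd x (Multiset.mem_cons_of_mem hx)), Nat.cast_add, add_div]
      congr 1
      have he0 : 0 < e := Nat.pos_of_ne_zero (by rintro rfl; simp at he; omega)
      rw [he, Nat.mul_div_cancel_left e hd0]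
      have : (d:ℚ) ≠ 0 := by positivity
      push_cast
      field_simp

/-- A small fraction over a small denominator is a short sum of unit fractions. -/
lemma egyptian_window {N V T a B E : ℕ} (hN : 1 ≤ N) (hNV : N ≤ V * 2 ^ E)
    (hrep : ∀ x, V ≤ x → x ≤ 4 * V → Rep N T x) (ha : 0 < a) (hB : 0 < B) (h4 : 4 * B ≤ V)
    (haB : a * 2 ^ E ≤ B) :
    ∃ u : Multiset ℕ, u.card ≤ 2 * T ∧ (∀ n ∈ u, 0 < n) ∧
      (u.map fun n : ℕ => (1:ℚ)/n).sum = (a:ℚ)/B := by
  have hex : ∃ s, 2 * V * B ≤ a * N * 2 ^ s :=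
    ⟨2 * V * B, le_trans (Nat.lt_two_pow_self).le
      (Nat.le_mul_of_pos_left _ (Nat.mul_pos ha hN))⟩
  have haN : a * N ≤ V * B :=
    calc a * N ≤ a * (V * 2 ^ E) := Nat.mul_le_mul_left a hNV
      _ = V * (a * 2 ^ E) := by ring
      _ ≤ V * B := Nat.mul_le_mul_left V haB
  have hVB : 0 < V * B := Nat.mul_pos (by omega) hB
  obtain ⟨σ, hlo, hhi⟩ : ∃ σ, 2 * V * B ≤ a * N * 2 ^ σ ∧ a * N * 2 ^ σ < 4 * V * B := by
    refine ⟨Nat.find hex, Nat.find_spec hex, ?_⟩
    rcases Nat.eq_zero_or_pos (Nat.find hex) with h | h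
    · rw [h, pow_zero, mul_one, mul_assoc]
      omega
    · obtain ⟨σ, hσ⟩ := Nat.exists_eq_add_of_le' h
      have h1 := Nat.find_min hex (m := σ) (by omega)
      push Not at h1
      rw [hσ, pow_succ]
      calc a * N * (2 ^ σ * 2) = 2 * (a * N * 2 ^ σ) := by ring
        _ < 2 * (2 * V * B) := Nat.mul_lt_mul_of_pos_left h1 (by norm_num)
        _ = 4 * V * B := by ring
  set X := a * N * 2 ^ σ with hX
  have hq1 : 2 * V ≤ X / B := (Nat.le_div_iff_mul_le hB).2 hlo
  have hq2 : X / B < 4 * V := (Nat.div_lt_iff_lt_mul hB).2 hhi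
  have hr := Nat.mod_lt X hB
  set c := (V + B - 1) / B with hc
  have hc1 := Nat.div_add_mod (V + B - 1) B
  have hc2 := Nat.mod_lt (V + B - 1) hB
  rw [← hc] at hc1
  have hcV : c ≤ V := by
    refine Nat.le_of_lt_succ ((Nat.div_lt_iff_lt_mul hB).2 ?_)
    have h1 : V ≤ V * B := Nat.le_mul_of_pos_right V hB
    rw [Nat.succ_mul]
    omega
  clear_value c
  obtain ⟨u, hu, hu0, husum⟩ := egyptian_of_rep (M := 2 ^ σ)
    (hrep (X / B - c) (by omega) (by omega)) hN (Nat.two_pow_pos σ)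
  obtain ⟨v, hv, hv0, hvsum⟩ := egyptian_of_rep (M := B * 2 ^ σ)
    (hrep (X % B + B * c) (by omega) (by omega)) hN (Nat.mul_pos hB (Nat.two_pow_pos σ))
  refine ⟨u + v, by rw [Multiset.card_add]; omega, fun n hn => ?_, ?_⟩
  · rcases Multiset.mem_add.1 hn with h | h
    · exact hu0 n h
    · exact hv0 n h
  rw [Multiset.map_add, Multiset.sum_add, husum, hvsum]
  have hXq : ((X / B - c : ℕ) : ℚ) * B + ((X % B + B * c : ℕ) : ℚ) = (a:ℚ) * N * 2 ^ σ := by
    have h1 : ((X:ℕ):ℚ) = (a:ℚ) * N * 2 ^ σ := by rw [hX]; push_cast; ring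
    have h2 : ((B * (X / B) + X % B : ℕ) : ℚ) = X := by rw [Nat.div_add_mod]
    rw [Nat.cast_sub (by omega : c ≤ X / B)]
    push_cast at h2 ⊢
    linarith
  have hB' : (B:ℚ) ≠ 0 := by positivity
  have hN' : (N:ℚ) ≠ 0 := by positivity
  push_cast
  push_cast at hXq
  field_simp
  linear_combination hXq

/-- A representable window gives expansions of length `O(log log b)`. -/
theorem short_of_window
    (hW : ∃ C D k0 : ℕ, 1 ≤ C ∧ ∀ k ≥ k0, ∃ N V : ℕ, 1 ≤ N ∧ N ≤ V * 2 ^ (C * k * 2 ^ k) ∧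
      2 ^ (9 * C * k * 2 ^ k) ≤ V ∧ ∀ x, V ≤ x → x ≤ 4 * V → Rep N (D * k) x) :
    ∃ C : ℝ, ∃ b0 : ℕ, ∀ b ≥ b0, ∀ a : ℕ, 1 ≤ a → a < b → ∃ S : Finset ℕ,
      (∀ n ∈ S, 2 ≤ n) ∧ ∑ n ∈ S, (1:ℚ)/n = (a:ℚ)/b ∧
      (S.card : ℝ) ≤ C * Real.log (Real.log b) := by
  obtain ⟨C, D, k0, hC, hW⟩ := hW
  refine ⟨((C + 2 * D + 3 : ℕ) : ℝ) * ((k0 + 5 : ℕ) : ℝ), 27, fun b hb a ha hab => ?_⟩
  set k := max k0 (Nat.log 2 (Nat.log 2 b) + 1) with hk
  have hk1 : 1 ≤ k := le_trans (Nat.le_add_left 1 _) (le_max_right _ _)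
  obtain ⟨N, V, hN, hNV, hV, hrep⟩ := hW k (le_max_left _ _)
  set E := C * k * 2 ^ k with hE
  have hkE : 2 ^ k ≤ E := Nat.le_mul_of_pos_left _ (Nat.mul_pos hC hk1)
  have hE1 : 1 ≤ E := le_trans Nat.one_le_two_pow hkE
  have hbE : b < 2 ^ E := by
    refine lt_of_lt_of_le (Nat.lt_pow_succ_log_self one_lt_two b)
      (Nat.pow_le_pow_right (by norm_num) (le_trans (Nat.succ_le_of_lt ?_) hkE))
    exact lt_of_lt_of_le (Nat.lt_pow_succ_log_self one_lt_two _)
      (Nat.pow_le_pow_right (by norm_num) (le_max_right _ _))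
  have hEJ : E ≤ 1 * 2 ^ (C + 2 * k) := by
    rw [one_mul, hE, pow_add, two_mul k, pow_add, ← mul_assoc]
    exact Nat.mul_le_mul_right _ (Nat.mul_le_mul Nat.lt_two_pow_self.le Nat.lt_two_pow_self.le)
  have hb4 : 2 * b ≤ 2 ^ (4 * E) := by
    calc 2 * b ≤ 2 ^ 1 * 2 ^ E := by rw [pow_one]; omega
      _ = 2 ^ (1 + E) := (pow_add 2 1 E).symm
      _ ≤ _ := Nat.pow_le_pow_right (by norm_num) (by omega)
  -- first step
  obtain ⟨s₀, a₀, B₀, hs₀, hs₀0, hB₀0, hB₀, ha₀, ha₀E, hsum₀⟩ :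
      ∃ (s₀ : Multiset ℕ) (a₀ B₀ : ℕ), s₀.card ≤ 1 ∧ (∀ n ∈ s₀, 0 < n) ∧ 0 < B₀ ∧
        B₀ ≤ 2 ^ (4 * E) ∧ a₀ * 2 ^ 1 ≤ B₀ ∧ a₀ ≤ 2 ^ E ∧
        (a:ℚ)/b = (s₀.map fun n : ℕ => (1:ℚ)/n).sum + (a₀:ℚ)/B₀ := by
    rcases Nat.lt_or_ge b (2 * a) with h | h
    · refine ⟨{2}, 2 * a - b, 2 * b, by simp, by simp, by omega, hb4, by omega, by omega, ?_⟩
      rw [Multiset.map_singleton, Multiset.sum_singleton, Nat.cast_sub h.le]
      have : (b:ℚ) ≠ 0 := by
        have : 0 < b := by omega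
        positivity
      push_cast
      field_simp
      ring
    · exact ⟨0, a, b, by simp, by simp, by omega, by omega, by omega, by omega, by simp⟩
  obtain ⟨s₁, a₁, B₁, hs₁, hs₁0, hB₁0, hB₁, ha₁, hsum₁⟩ :=
    egyptian_greedy (C + 2 * k) 1 a₀ B₀ hEJ ha₀ hB₀0 hB₀ ha₀E
  obtain ⟨u, hu, hu0, husum⟩ : ∃ u : Multiset ℕ, u.card ≤ 2 * (D * k) ∧ (∀ n ∈ u, 0 < n) ∧
      (u.map fun n : ℕ => (1:ℚ)/n).sum = (a₁:ℚ)/B₁ := by
    rcases Nat.eq_zero_or_pos a₁ with rfl | h
    · exact ⟨0, by simp, by simp, by simp⟩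
    refine egyptian_window hN hNV hrep h hB₁0 ?_ ha₁
    calc 4 * B₁ ≤ 2 ^ 2 * 2 ^ (4 * E) := Nat.mul_le_mul (by norm_num) hB₁
      _ = 2 ^ (2 + 4 * E) := (pow_add _ _ _).symm
      _ ≤ 2 ^ (9 * C * k * 2 ^ k) := Nat.pow_le_pow_right (by norm_num) (by
          have : 9 * C * k * 2 ^ k = 9 * E := by rw [hE]; ring
          omega)
      _ ≤ V := hV
  have hsum : ((s₀ + s₁ + u).map fun n : ℕ => (1:ℚ)/n).sum = (a:ℚ)/b := by
    rw [Multiset.map_add, Multiset.map_add, Multiset.sum_add, Multiset.sum_add, hsum₀, hsum₁,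
      husum, add_assoc]
  have hpos : ∀ n ∈ s₀ + s₁ + u, 0 < n := by
    intro n hn
    rcases Multiset.mem_add.1 hn with h | h
    · rcases Multiset.mem_add.1 h with h | h
      · exact hs₀0 n h
      · exact hs₁0 n h
    · exact hu0 n h
  have hlt : ((s₀ + s₁ + u).map fun n : ℕ => (1:ℚ)/n).sum < 1 := by
    rw [hsum, div_lt_one (by exact_mod_cast (by omega : 0 < b))]
    exact_mod_cast hab
  obtain ⟨S, hS2, hSsum, hScard⟩ := exists_distinct _ hpos hlt
  refine ⟨S, hS2, hSsum.trans hsum, ?_⟩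
  rw [Multiset.card_add, Multiset.card_add] at hScard
  have hcard : S.card ≤ (C + 2 * D + 3) * k := by
    have h1 : C ≤ C * k := Nat.le_mul_of_pos_right C hk1
    have h2 : (C + 2 * D + 3) * k = C * k + 2 * (D * k) + 3 * k := by ring
    omega
  -- size of `k`
  have hb' : (27:ℝ) ≤ b := by exact_mod_cast hb
  have hlog3 : (3:ℝ) ≤ Real.log b := by
    rw [Real.le_log_iff_exp_le (by linarith)]
    refine le_trans ?_ hb'
    have h1 : Real.exp 3 = Real.exp 1 ^ 3 := by rw [← Real.exp_nat_mul]; norm_num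
    rw [h1]
    calc Real.exp 1 ^ 3 ≤ 3 ^ 3 := pow_le_pow_left₀ (Real.exp_pos 1).le Real.exp_one_lt_three.le 3
      _ = 27 := by norm_num
  have hLL : (1:ℝ) ≤ Real.log (Real.log b) := by
    rw [Real.le_log_iff_exp_le (by linarith)]
    exact le_trans Real.exp_one_lt_three.le hlog3
  have hl2 : (1:ℝ)/2 ≤ Real.log 2 := by linarith [Real.log_two_gt_d9]
  have hlog : ∀ n : ℕ, (Nat.log 2 n : ℝ) * Real.log 2 ≤ Real.log n := fun n => by
    rcases Nat.eq_zero_or_pos n with rfl | hn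
    · simp
    rw [← Real.log_pow]
    exact Real.log_le_log (by positivity) (by exact_mod_cast Nat.pow_log_le_self 2 hn.ne')
  have hkb : (k:ℝ) ≤ ((k0 + 5 : ℕ) : ℝ) * Real.log (Real.log b) := by
    set n := Nat.log 2 b with hn
    have hn1 : 1 ≤ n := Nat.log_pos one_lt_two (by omega)
    have h1 : (n:ℝ) ≤ 2 * Real.log b := by
      have := hlog b
      rw [← hn] at this
      nlinarith [mul_le_mul_of_nonneg_left hl2 (Nat.cast_nonneg n : (0:ℝ) ≤ n)]
    have h2 : Real.log n ≤ 1 + Real.log (Real.log b) := by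
      refine le_trans (Real.log_le_log (by exact_mod_cast hn1) h1) ?_
      rw [Real.log_mul (by norm_num) (by linarith)]
      linarith [Real.log_two_lt_d9]
    have h3 : (Nat.log 2 n : ℝ) ≤ 2 * (1 + Real.log (Real.log b)) := by
      have := hlog n
      nlinarith [mul_le_mul_of_nonneg_left hl2 (Nat.cast_nonneg _ : (0:ℝ) ≤ (Nat.log 2 n : ℝ))]
    have h4 : (k:ℝ) ≤ k0 + (Nat.log 2 n + 1) := by
      have : k ≤ k0 + (Nat.log 2 n + 1) :=
        max_le (Nat.le_add_right _ _) (Nat.le_add_left _ _)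
      exact_mod_cast this
    have h5 : (0:ℝ) ≤ k0 := Nat.cast_nonneg _
    have h6 : (k0:ℝ) ≤ k0 * Real.log (Real.log b) := le_mul_of_one_le_right h5 hLL
    push_cast
    linarith
  calc (S.card : ℝ) ≤ ((C + 2 * D + 3 : ℕ) : ℝ) * k := by exact_mod_cast hcard
    _ ≤ ((C + 2 * D + 3 : ℕ) : ℝ) * (((k0 + 5 : ℕ) : ℝ) * Real.log (Real.log b)) :=
        mul_le_mul_of_nonneg_left hkb (Nat.cast_nonneg _)
    _ = _ := by ring

/-- Sums of `k` unit fractions below `a / D` stay a definite distance away from it. -/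
lemma egyptian_gap {K : ℕ} (hK : 1 ≤ K) :
    ∀ k ≤ K, ∀ (s : Finset ℕ) (a D : ℕ), s.card ≤ k → (∀ n ∈ s, 0 < n) → 0 < D →
      ∑ n ∈ s, (1:ℚ)/n < (a:ℚ)/D →
      1 / (((2 * K * D) ^ 2 ^ k : ℕ) : ℚ) ≤ (a:ℚ)/D - ∑ n ∈ s, (1:ℚ)/n := by
  classical
  intro k
  have small : ∀ k' (a D : ℕ) (x : ℚ), 0 < D → 1 / (2 * (D:ℚ)) ≤ (a:ℚ)/D - x →
      1 / (((2 * K * D) ^ 2 ^ k' : ℕ) : ℚ) ≤ (a:ℚ)/D - x := by
    intro k' a D x hD h
    refine le_trans (one_div_le_one_div_of_le (by positivity) ?_) h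
    have h1 : 2 * D ≤ (2 * K * D) ^ 2 ^ k' :=
      le_trans (Nat.mul_le_mul_right D (Nat.le_mul_of_pos_right 2 hK))
        (Nat.le_self_pow (by positivity) _)
    exact_mod_cast h1
  induction k with
  | zero =>
    intro _ s a D hs _ hD hlt
    obtain rfl : s = ∅ := Finset.card_eq_zero.1 (by omega)
    rw [Finset.sum_empty] at hlt ⊢
    refine small 0 a D 0 hD ?_
    have hD' : (0:ℚ) < D := by exact_mod_cast hD
    have ha : (1:ℚ) ≤ a := by
      rcases Nat.eq_zero_or_pos a with rfl | h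
      · simp at hlt
      · exact_mod_cast h
    rw [sub_zero, div_le_div_iff₀ (by positivity) hD']
    nlinarith
  | succ k ih =>
    intro hk s a D hs hs0 hD hlt
    by_cases hsm : 1 / (2 * (D:ℚ)) ≤ (a:ℚ)/D - ∑ n ∈ s, (1:ℚ)/n
    · exact small (k + 1) a D _ hD hsm
    push Not at hsm
    have hD' : (0:ℚ) < D := by exact_mod_cast hD
    have hnn : 0 ≤ ∑ n ∈ s, (1:ℚ)/n := Finset.sum_nonneg fun n _ => by positivity
    have ha : (1:ℚ) ≤ a := by
      rcases Nat.eq_zero_or_pos a with rfl | h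
      · rw [Nat.cast_zero, zero_div] at hlt; linarith
      · exact_mod_cast h
    have hxlo : 1 / (2 * (D:ℚ)) < ∑ n ∈ s, (1:ℚ)/n := by
      have h1 : 1 / (D:ℚ) ≤ (a:ℚ)/D := div_le_div_of_nonneg_right ha hD'.le
      have h2 : 1 / (D:ℚ) = 1 / (2 * (D:ℚ)) + 1 / (2 * (D:ℚ)) := by field_simp; ring
      linarith
    have hne : s.Nonempty := by
      rw [Finset.nonempty_iff_ne_empty]
      rintro rfl
      rw [Finset.sum_empty] at hxlo
      have : (0:ℚ) < 1 / (2 * (D:ℚ)) := by positivity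
      linarith
    set n := s.min' hne with hn
    have hmem : n ∈ s := s.min'_mem hne
    have hn0 : 0 < n := hs0 n hmem
    have hn' : (0:ℚ) < n := by exact_mod_cast hn0
    have hnle : n ≤ 2 * K * D := by
      have h1 : ∑ m ∈ s, (1:ℚ)/m ≤ s.card • ((1:ℚ)/n) :=
        Finset.sum_le_card_nsmul _ _ _ fun m hm =>
          one_div_le_one_div_of_le hn' (by exact_mod_cast s.min'_le m hm)
      rw [nsmul_eq_mul] at h1
      have h2 : (s.card : ℚ) * ((1:ℚ)/n) ≤ (K:ℚ) * ((1:ℚ)/n) :=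
        mul_le_mul_of_nonneg_right (by exact_mod_cast hs.trans hk) (by positivity)
      have h3 : 1 / (2 * (D:ℚ)) < (K:ℚ)/n := by
        rw [← mul_one_div (K:ℚ) (n:ℚ)]
        linarith
      rw [div_lt_div_iff₀ (by positivity) hn'] at h3
      have h4 : n < K * (2 * D) := by
        rw [one_mul] at h3
        exact_mod_cast h3
      linarith
    have hsum := Finset.add_sum_erase s (fun m : ℕ => (1:ℚ)/m) hmem
    have hrest : 0 ≤ ∑ m ∈ s.erase n, (1:ℚ)/m := Finset.sum_nonneg fun m _ => by positivity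
    have hgt : D < a * n := by
      have h1 : (1:ℚ)/n < (a:ℚ)/D := by linarith
      rw [div_lt_div_iff₀ hn' hD', one_mul] at h1
      exact_mod_cast h1
    have heq : ((a * n - D : ℕ) : ℚ) / ((D * n : ℕ) : ℚ) = (a:ℚ)/D - (1:ℚ)/n := by
      rw [Nat.cast_sub hgt.le]
      push_cast
      field_simp
    have hgap := ih (by omega) (s.erase n) (a * n - D) (D * n)
      (by rw [Finset.card_erase_of_mem hmem]; omega) (fun m hm => hs0 m (Finset.mem_of_mem_erase hm))
      (Nat.mul_pos hD hn0) (by rw [heq]; linarith)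
    rw [heq] at hgap
    have hle : 1 / (((2 * K * D) ^ 2 ^ (k + 1) : ℕ) : ℚ) ≤
        1 / (((2 * K * (D * n)) ^ 2 ^ k : ℕ) : ℚ) := by
      refine one_div_le_one_div_of_le (by positivity) ?_
      have h1 : (2 * K * (D * n)) ^ 2 ^ k ≤ (2 * K * D) ^ 2 ^ (k + 1) := by
        rw [pow_succ', pow_mul]
        refine Nat.pow_le_pow_left ?_ _
        calc 2 * K * (D * n) = 2 * K * D * n := by ring
          _ ≤ 2 * K * D * (2 * K * D) := Nat.mul_le_mul_left _ hnle
          _ = (2 * K * D) ^ 2 := (sq _).symm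
      exact_mod_cast h1
    linarith

/-- Erdős's lower bound: `(b-1)/b` needs `≫ log log b` unit fractions. -/
theorem lower_bound : ∃ c : ℝ, 0 < c ∧ ∃ b0 : ℕ, ∀ b ≥ b0, ∀ S : Finset ℕ, (∀ n ∈ S, 2 ≤ n) →
    ∑ n ∈ S, (1:ℚ)/n = ((b:ℚ) - 1)/b → c * Real.log (Real.log b) ≤ (S.card : ℝ) := by
  refine ⟨1/2, by norm_num, 3, fun b hb S hS hsum => ?_⟩
  have hb' : (3:ℚ) ≤ b := by exact_mod_cast hb
  have hx : ((b:ℚ) - 1)/b = 1 - 1/b := by field_simp
  rw [hx] at hsum
  have hne : S.Nonempty := by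
    rw [Finset.nonempty_iff_ne_empty]
    rintro rfl
    rw [Finset.sum_empty] at hsum
    have : (1:ℚ)/b ≤ 1/3 := one_div_le_one_div_of_le (by norm_num) hb'
    linarith
  set m := S.card with hm
  have hm1 : 1 ≤ m := hne.card_pos
  have hgap := egyptian_gap hm1 m le_rfl S 1 1 le_rfl (fun n hn => by have := hS n hn; omega)
    one_pos (by
      have : (0:ℚ) < 1/b := by positivity
      rw [hsum]; push_cast; linarith)
  rw [hsum, mul_one] at hgap
  have hbm : b ≤ (2 * m) ^ 2 ^ m := by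
    have h1 : 1 / (((2 * m) ^ 2 ^ m : ℕ) : ℚ) ≤ 1 / (b:ℚ) := by
      have : (((1:ℕ):ℚ))/((1:ℕ):ℚ) - (1 - 1/(b:ℚ)) = 1/(b:ℚ) := by push_cast; ring
      linarith
    have h2 := le_of_one_div_le_one_div (by positivity) h1
    exact_mod_cast h2
  have h2m : 2 * m ≤ 2 ^ m := by
    rcases m with _ | j
    · omega
    · rw [pow_succ']
      exact Nat.mul_le_mul_left 2 Nat.lt_two_pow_self
  have hlogb : Real.log b ≤ (4:ℝ) ^ m := by
    have h1 : (b:ℝ) ≤ ((2 * m : ℕ) : ℝ) ^ 2 ^ m := by exact_mod_cast hbm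
    refine le_trans (Real.log_le_log (by exact_mod_cast (by omega : 0 < b)) h1) ?_
    rw [Real.log_pow, show (4:ℝ) = 2 * 2 by norm_num, mul_pow, Nat.cast_pow, Nat.cast_ofNat]
    refine mul_le_mul_of_nonneg_left ?_ (by positivity)
    calc Real.log ((2 * m : ℕ) : ℝ) ≤ ((2 * m : ℕ) : ℝ) := Real.log_le_self (Nat.cast_nonneg _)
      _ ≤ 2 ^ m := by exact_mod_cast h2m
  have hlogpos : 0 < Real.log (b:ℝ) := Real.log_pos (by exact_mod_cast (by omega : 1 < b))
  have hfin := Real.log_le_log hlogpos hlogb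
  rw [Real.log_pow] at hfin
  have h4 : Real.log 4 ≤ 2 := by
    rw [show (4:ℝ) = 2 * 2 by norm_num, Real.log_mul (by norm_num) (by norm_num)]
    linarith [Real.log_two_lt_d9]
  nlinarith [mul_le_mul_of_nonneg_left h4 (Nat.cast_nonneg m : (0:ℝ) ≤ m)]

end Vale.Agent.P012
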