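import Vale.Agent.P012.Branch

/-!
A good multiplier exists for one doubling step.
-/

namespace Vale.Agent.P012

open Finset

variable {Ω : Type*} [Fintype Ω]

lemma card_not_one_solution {Q : ℕ} (a b : ℤ) :
    ((univ.filter fun q : Fin Q => a + (((q : ℕ) : ℤ) + 1) * b = 0).card : ℝ) ≤
      (Q : ℝ) * (if a = 0 ∧ b = 0 then 1 else 0) + 1 := by
  classical
  by_cases h : a = 0 ∧ b = 0
  · rw [if_pos h, mul_one]
    have : (univ.filter fun q : Fin Q => a + (((q : ℕ) : ℤ) + 1) * b = 0).card ≤ Q :=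
      (Finset.card_le_univ _).trans (le_of_eq (Fintype.card_fin Q))
    have h' : ((univ.filter fun q : Fin Q => a + (((q : ℕ) : ℤ) + 1) * b = 0).card : ℝ) ≤ Q := by
      exact_mod_cast this
    linarith
  · rw [if_neg h, mul_zero, zero_add]
    have : (univ.filter fun q : Fin Q => a + (((q : ℕ) : ℤ) + 1) * b = 0).card ≤ 1 := by
      rw [Finset.card_le_one]
      intro q hq q' hq'
      simp only [Finset.mem_filter, mem_univ, true_and] at hq hq'
      have hb : b ≠ 0 := by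
        intro hb
        subst hb
        simp only [mul_zero, add_zero] at hq
        exact h ⟨hq, rfl⟩
      have h2 : (((q : ℕ) : ℤ) + 1) * b = (((q' : ℕ) : ℤ) + 1) * b := by linarith
      have := mul_right_cancel₀ hb h2
      exact Fin.ext (by omega)
    exact_mod_cast this

lemma sum_coll_branch_le [Nonempty Ω] (A : Ω → ℕ) {Q : ℕ} (hQ : 1 ≤ Q) :
    (∑ q : Fin Q, coll (branch A 1 ((q : ℕ) + 1))) / Q ≤ coll A ^ 2 + 1 / Q := by
  classical
  have e1 : ∀ q : Fin Q, coll (branch A 1 ((q : ℕ) + 1)) =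
      (∑ w : (Ω × Ω) × (Ω × Ω),
        if dif A w.1 + (((q : ℕ) : ℤ) + 1) * dif A w.2 = 0 then (1 : ℝ) else 0) /
        Fintype.card ((Ω × Ω) × (Ω × Ω)) := by
    intro q
    unfold coll
    rw [prb_branch A 1 _ (fun z => z = 0), prb_eq_sum]
    push_cast
    simp only [one_mul]
  have e2 : coll A ^ 2 = (∑ w : (Ω × Ω) × (Ω × Ω),
      if dif A w.1 = 0 ∧ dif A w.2 = 0 then (1 : ℝ) else 0) /
        Fintype.card ((Ω × Ω) × (Ω × Ω)) := by
    rw [sq]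
    unfold coll
    rw [← prb_prod_and, prb_eq_sum]
  simp only [e1, e2]
  rw [← Finset.sum_div, Finset.sum_comm]
  have hW : (0 : ℝ) < Fintype.card ((Ω × Ω) × (Ω × Ω)) := by exact_mod_cast Fintype.card_pos
  have hQR : (0 : ℝ) < Q := by exact_mod_cast hQ
  calc (∑ w : (Ω × Ω) × (Ω × Ω), ∑ q : Fin Q,
        (if dif A w.1 + (((q : ℕ) : ℤ) + 1) * dif A w.2 = 0 then (1 : ℝ) else 0)) /
          Fintype.card ((Ω × Ω) × (Ω × Ω)) / Q
      ≤ (∑ w : (Ω × Ω) × (Ω × Ω),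
          ((Q : ℝ) * (if dif A w.1 = 0 ∧ dif A w.2 = 0 then (1 : ℝ) else 0) + 1)) /
          Fintype.card ((Ω × Ω) × (Ω × Ω)) / Q := by
        gcongr with w
        rw [Finset.sum_boole]
        exact card_not_one_solution _ _
    _ = _ := by
        rw [Finset.sum_add_distrib, ← Finset.mul_sum, Finset.sum_const, Finset.card_univ,
          nsmul_eq_mul, mul_one]
        field_simp

/-- The moduli in one dyadic band with large coincidence probability are few. -/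
lemma candidates_mul_le [Nonempty Ω] (A : Ω → ℕ) {X : ℕ} (hA : ∀ w, A w < 2 ^ X)
    (G : Finset ℕ) {H B t : ℝ} (hG : ∀ g ∈ G, (g : ℝ) ≤ H) (ht : ∀ g ∈ G, t ≤ phi A g)
    (hB0 : 0 ≤ B)
    (hdiv : ∀ F : ℕ, 0 < F → F < 2 ^ X →
      ((F.divisors.filter (fun d : ℕ => (d : ℝ) ≤ H)).card : ℝ) ≤ B) :
    (G.card : ℝ) * (t - coll A) ≤ B := by
  classical
  have e1 : ∀ g : ℕ, phi A g - coll A =
      (∑ w : Ω × Ω, if (g : ℤ) ∣ dif A w ∧ dif A w ≠ 0 then (1 : ℝ) else 0) /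
        Fintype.card (Ω × Ω) := by
    intro g
    unfold phi coll
    rw [prb_eq_sum, prb_eq_sum, ← sub_div, ← Finset.sum_sub_distrib]
    congr 1
    refine Finset.sum_congr rfl fun w _ => ?_
    by_cases h : dif A w = 0 <;> simp [h]
  have h1 : (G.card : ℝ) * (t - coll A) ≤ ∑ g ∈ G, (phi A g - coll A) := by
    rw [← nsmul_eq_mul]
    exact Finset.card_nsmul_le_sum _ _ _ fun g hg => by linarith [ht g hg]
  refine h1.trans ?_
  simp only [e1]
  rw [← Finset.sum_div, Finset.sum_comm, div_le_iff₀ (by exact_mod_cast Fintype.card_pos)]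
  calc (∑ w : Ω × Ω, ∑ g ∈ G, if (g : ℤ) ∣ dif A w ∧ dif A w ≠ 0 then (1 : ℝ) else 0)
      ≤ ∑ _w : Ω × Ω, B := by
        refine Finset.sum_le_sum fun w _ => ?_
        rw [Finset.sum_boole]
        by_cases h : dif A w = 0
        · simp [h, hB0]
        · have hpos : 0 < (dif A w).natAbs := Int.natAbs_pos.2 h
          have hlt : (dif A w).natAbs < 2 ^ X := by
            have := hA w.1
            have := hA w.2
            unfold dif
            omega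
          refine le_trans ?_ (hdiv _ hpos hlt)
          refine Nat.cast_le.2 (Finset.card_le_card fun g hg => ?_)
          obtain ⟨hgG, hgd, -⟩ := Finset.mem_filter.1 hg
          exact Finset.mem_filter.2
            ⟨Nat.mem_divisors.2 ⟨Int.natCast_dvd.1 hgd, hpos.ne'⟩, hG g hgG⟩
    _ = B * (Fintype.card (Ω × Ω) : ℝ) := by
        rw [Finset.sum_const, Finset.card_univ, nsmul_eq_mul, mul_comm]

/-- The divisor sum in the moment bound. -/
lemma divisor_sum_le {η₁ η₂ c S θ T0 : ℝ} {R η X g : ℕ} (A : Ω → ℕ)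
    (hS : 0 ≤ S) (hRc : 2 * (R : ℝ) * c ≤ 1) (hη₁₂ : η₁ ≤ (1 - 2 * R * c) * η₂)
    (hphi : ∀ h : ℕ, (2 : ℝ) ^ η₁ ≤ h → h ≤ 2 ^ X → phi A h ≤ 2 ^ S * (h : ℝ) ^ (-c))
    (hg : (2 : ℝ) ^ η₂ ≤ g) (hgX : g ≤ 2 ^ X) (_hgη : g < 2 ^ (η + 1))
    (hcount : (g.divisors.card : ℝ) ≤ (2 : ℝ) ^ (θ * (η + 1) + T0)) :
    (∑ h ∈ g.divisors, (h : ℝ) * phi A h ^ (2 * R)) / g ≤
      (2 : ℝ) ^ (θ * (η + 1) + T0 + 2 * R * S) * (g : ℝ) ^ (-(2 * R * c)) := by
  have hgpos : (0 : ℝ) < g := lt_of_lt_of_le (by positivity) hg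
  have hterm : ∀ h ∈ g.divisors, (h : ℝ) * phi A h ^ (2 * R) ≤
      (2 : ℝ) ^ (2 * R * S) * (g : ℝ) ^ (1 - 2 * R * c) := by
    intro h hh
    have hhg : h ∣ g := (Nat.mem_divisors.1 hh).1
    have hgN : 0 < g := by exact_mod_cast hgpos
    have hhpos : 0 < h := Nat.pos_of_mem_divisors hh
    have hhle : h ≤ g := Nat.le_of_dvd hgN hhg
    have h2 : (1 : ℝ) ≤ (2 : ℝ) ^ (2 * (R : ℝ) * S) :=
      Real.one_le_rpow one_le_two (by positivity)
    rcases lt_or_ge (h : ℝ) ((2 : ℝ) ^ η₁) with hlt | hge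
    · have h1 : phi A h ^ (2 * R) ≤ 1 := pow_le_one₀ (phi_nonneg _ _) (phi_le_one _ _)
      calc (h : ℝ) * phi A h ^ (2 * R) ≤ (h : ℝ) * 1 := by gcongr
        _ ≤ (2 : ℝ) ^ η₁ := by linarith
        _ ≤ ((2 : ℝ) ^ η₂) ^ (1 - 2 * (R : ℝ) * c) := by
            rw [← Real.rpow_mul two_pos.le]
            exact Real.rpow_le_rpow_of_exponent_le one_le_two (by linarith)
        _ ≤ (g : ℝ) ^ (1 - 2 * (R : ℝ) * c) :=
            Real.rpow_le_rpow (by positivity) hg (by linarith)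
        _ ≤ _ := le_mul_of_one_le_left (by positivity) h2
    · have h1 := hphi h hge (hhle.trans hgX)
      have h0 : (0 : ℝ) < h := by exact_mod_cast hhpos
      calc (h : ℝ) * phi A h ^ (2 * R)
          ≤ (h : ℝ) * ((2 : ℝ) ^ S * (h : ℝ) ^ (-c)) ^ (2 * R) := by
            gcongr
            exact phi_nonneg _ _
        _ = (2 : ℝ) ^ (2 * (R : ℝ) * S) * (h : ℝ) ^ (1 - 2 * (R : ℝ) * c) := by
            rw [mul_pow, ← Real.rpow_mul_natCast two_pos.le, ← Real.rpow_mul_natCast h0.le,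
              show (1 - 2 * (R : ℝ) * c) = 1 + -c * ((2 * R : ℕ) : ℝ) by push_cast; ring,
              Real.rpow_add h0, Real.rpow_one,
              show (2 * (R : ℝ) * S) = S * ((2 * R : ℕ) : ℝ) by push_cast; ring]
            ring
        _ ≤ _ := by gcongr
  rw [div_le_iff₀ hgpos]
  calc ∑ h ∈ g.divisors, (h : ℝ) * phi A h ^ (2 * R)
      ≤ ∑ _h ∈ g.divisors, (2 : ℝ) ^ (2 * R * S) * (g : ℝ) ^ (1 - 2 * R * c) :=
        Finset.sum_le_sum hterm
    _ ≤ (2 : ℝ) ^ (θ * (η + 1) + T0) * ((2 : ℝ) ^ (2 * R * S) * (g : ℝ) ^ (1 - 2 * R * c)) := by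
        rw [Finset.sum_const, nsmul_eq_mul]
        gcongr
    _ = _ := by
        rw [Real.rpow_add two_pos (θ * (η + 1) + T0), sub_eq_add_neg, Real.rpow_add hgpos,
          Real.rpow_one]
        ring

/-- The candidates of one dyadic band fail with small probability. -/
lemma band_failure_le [Nonempty Ω] (A : Ω → ℕ) {X R l lb : ℕ}
    {η₁ η₂ c c' S S' θ T0 : ℝ}
    (hA : ∀ w, A w < 2 ^ X)
    (hphi : ∀ g : ℕ, (2 : ℝ) ^ η₁ ≤ g → g ≤ 2 ^ X → phi A g ≤ 2 ^ S * (g : ℝ) ^ (-c))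
    (hcoll : coll A ≤ (2 : ℝ) ^ (-(2 * c * X + 5)))
    (hdiv : ∀ F : ℕ, 0 < F → F < 2 ^ (X + 1) → ∀ η : ℝ, η₂ ≤ η →
      ((F.divisors.filter (fun d : ℕ => (d : ℝ) ≤ (2 : ℝ) ^ η)).card : ℝ) ≤
        (2 : ℝ) ^ (θ * η + T0))
    (hR : 1 ≤ R) (hc' : 0 ≤ c') (hc'c : c' ≤ 2 * c) (hc'1 : c' ≤ 1)
    (hθ : 0 ≤ θ) (hθ1 : θ ≤ 1) (hT0 : 0 ≤ T0)
    (hS : 0 ≤ S) (hRc : 2 * (R : ℝ) * c ≤ 1) (hη₁₂ : η₁ ≤ (1 - 2 * R * c) * η₂)
    (hgain : c' + 2 * θ ≤ R * (2 * c - c'))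
    (hl1 : (R + 1 : ℝ) * c' * X + θ * X + T0 ≤ l)
    (hS' : 2 * S + 2 * T0 + lb + 8 ≤ S') {η : ℕ} (hη : η ≤ X) :
    prb (fun q : Fin (2 ^ l) => ∃ g ∈ (Finset.Ico (2 ^ η) (2 ^ (η + 1))).filter
        (fun g : ℕ => (2 : ℝ) ^ η₂ ≤ g ∧ g ≤ 2 ^ X ∧ 2 ^ S' * (g : ℝ) ^ (-c') < phi A g),
      2 ^ S' * (g : ℝ) ^ (-c') < phi (branch A 1 ((q : ℕ) + 1)) g) ≤
      2 * (2 : ℝ) ^ (-((lb : ℝ) + 4)) := by
  classical
  set Q := 2 ^ l with hQ
  have hQpos : 1 ≤ Q := Nat.one_le_two_pow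
  have hQR : (Q : ℝ) = (2 : ℝ) ^ (l : ℝ) := by rw [hQ, Real.rpow_natCast]; push_cast; rfl
  set thr : ℕ → ℝ := fun g => 2 ^ S' * (g : ℝ) ^ (-c') with hthr
  set G : ℕ → Finset ℕ := fun η => (Finset.Ico (2 ^ η) (2 ^ (η + 1))).filter
    (fun g : ℕ => (2 : ℝ) ^ η₂ ≤ g ∧ g ≤ 2 ^ X ∧ thr g < phi A g) with hG
  change prb (fun q : Fin Q => ∃ g ∈ G η, thr g < phi (branch A 1 ((q : ℕ) + 1)) g) ≤ _
  have hmem : ∀ g ∈ G η, (2 : ℝ) ^ (η : ℝ) ≤ g ∧ (g : ℝ) ≤ (2 : ℝ) ^ ((η : ℝ) + 1) ∧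
      (2 : ℝ) ^ η₂ ≤ g ∧ g ≤ 2 ^ X ∧ thr g < phi A g ∧ g < 2 ^ (η + 1) := by
    intro g hg
    simp only [hG, Finset.mem_filter, Finset.mem_Ico] at hg
    refine ⟨?_, ?_, hg.2.1, hg.2.2.1, hg.2.2.2, hg.1.2⟩
    · rw [Real.rpow_natCast]; exact_mod_cast hg.1.1
    · rw [show ((η : ℝ) + 1) = ((η + 1 : ℕ) : ℝ) by push_cast; rfl, Real.rpow_natCast]
      exact_mod_cast hg.1.2.le
  rcases (G η).eq_empty_or_nonempty with he | ⟨g₁, hg₁⟩
  · rw [he, prb_eq, Finset.filter_false_of_mem (by simp)]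
    simp only [Finset.card_empty, Nat.cast_zero, zero_div]
    positivity
  have hη2 : η₂ ≤ (η : ℝ) + 1 :=
    (Real.rpow_le_rpow_left_iff one_lt_two).1 ((hmem g₁ hg₁).2.2.1.trans (hmem g₁ hg₁).2.1)
  set B : ℝ := (2 : ℝ) ^ (θ * ((η : ℝ) + 1) + T0) with hB
  set t : ℝ := (2 : ℝ) ^ (S' - c' * ((η : ℝ) + 1)) with ht
  have htg : ∀ g ∈ G η, t ≤ thr g := by
    intro g hg
    obtain ⟨h1, h2, -⟩ := hmem g hg
    have hgpos : (0 : ℝ) < g := lt_of_lt_of_le (by positivity) h1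
    rw [ht, sub_eq_add_neg, Real.rpow_add two_pos,
      show -(c' * ((η : ℝ) + 1)) = ((η : ℝ) + 1) * -c' by ring, Real.rpow_mul two_pos.le]
    exact mul_le_mul_of_nonneg_left
      (Real.rpow_le_rpow_of_nonpos hgpos h2 (neg_nonpos.2 hc')) (by positivity)
  have hcollt : coll A ≤ t / 2 := by
    refine hcoll.trans ?_
    rw [ht, le_div_iff₀ two_pos]
    calc (2 : ℝ) ^ (-(2 * c * X + 5)) * 2
        = (2 : ℝ) ^ (-(2 * c * X + 5) + 1) := by
          rw [Real.rpow_add two_pos, Real.rpow_one]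
      _ ≤ _ := by
          refine Real.rpow_le_rpow_of_exponent_le one_le_two ?_
          have h1 : c' * η ≤ c' * X := mul_le_mul_of_nonneg_left (by exact_mod_cast hη) hc'
          have h2 : c' * X ≤ 2 * c * X := mul_le_mul_of_nonneg_right hc'c (by positivity)
          have h3 : (0 : ℝ) ≤ lb := by positivity
          nlinarith
  have hcard : ((G η).card : ℝ) ≤ 2 * B / t := by
    have h := candidates_mul_le A hA (G η) (H := (2 : ℝ) ^ ((η : ℝ) + 1)) (B := B)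
      (t := t) (fun g hg => (hmem g hg).2.1)
      (fun g hg => (htg g hg).trans (hmem g hg).2.2.2.2.1.le) (by positivity)
      (fun F hF hFX => hdiv F hF (hFX.trans_le (Nat.pow_le_pow_right two_pos (by omega))) _ hη2)
    rw [le_div_iff₀ (by positivity)]
    have h0 : (0 : ℝ) ≤ (G η).card := by positivity
    nlinarith
  have hfail : ∀ g ∈ G η, prb (fun q : Fin Q => thr g < phi (branch A 1 ((q : ℕ) + 1)) g) ≤
      (2 : ℝ) ^ (-(l : ℝ) + R * c' * X - R * S') +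
        (2 : ℝ) ^ (θ * ((η : ℝ) + 1) + T0 + R * (2 * S - S') - R * (2 * c - c') * η) := by
    intro g hg
    obtain ⟨h1, h2, h3, h4, -, h6⟩ := hmem g hg
    have hgpos : (0 : ℝ) < g := lt_of_lt_of_le (by positivity) h1
    have hgN : 1 ≤ g := by exact_mod_cast hgpos
    have hthrpos : 0 < thr g := by rw [hthr]; positivity
    have hm := prb_markov (f := fun q : Fin Q => phi (branch A 1 ((q : ℕ) + 1)) g ^ R)
      (fun q => pow_nonneg (phi_nonneg _ _) _) (pow_pos hthrpos R)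
    refine le_trans (prb_mono fun q hq => pow_lt_pow_left₀ hq hthrpos.le (show R ≠ 0 by omega)) ?_
    refine hm.trans ?_
    rw [Fintype.card_fin]
    have hsum := sum_phi_branch_pow_le A hgN hQpos R
    have hcnt : (g.divisors.card : ℝ) ≤ (2 : ℝ) ^ (θ * ((η : ℝ) + 1) + T0) := by
      have h := hdiv g hgN (h4.trans_lt (Nat.pow_lt_pow_right one_lt_two (by omega))) _ hη2
      rwa [Finset.filter_true_of_mem fun d hd =>
        le_trans (Nat.cast_le.2 (Nat.le_of_dvd hgN (Nat.mem_divisors.1 hd).1)) h2] at h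
    have hds := divisor_sum_le (η := η) A hS hRc hη₁₂ hphi h3 h4 h6 hcnt
    calc (∑ q : Fin Q, phi (branch A 1 ((q : ℕ) + 1)) g ^ R) / (Q : ℝ) / thr g ^ R
        ≤ (1 / (Q : ℝ) + (2 : ℝ) ^ (θ * ((η : ℝ) + 1) + T0 + 2 * R * S) *
            (g : ℝ) ^ (-(2 * R * c))) / thr g ^ R := by
          gcongr
          linarith
      _ = 1 / (Q : ℝ) / thr g ^ R + (2 : ℝ) ^ (θ * ((η : ℝ) + 1) + T0 + 2 * R * S) *
            (g : ℝ) ^ (-(2 * R * c)) / thr g ^ R := add_div _ _ _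
      _ ≤ _ := by
          have hR' : thr g ^ R = (2 : ℝ) ^ (S' * R) * (g : ℝ) ^ (-c' * R) := by
            simp only [hthr]
            rw [mul_pow, Real.rpow_mul_natCast two_pos.le, Real.rpow_mul_natCast hgpos.le]
          refine add_le_add ?_ ?_
          · rw [hR', hQR, div_div, one_div, mul_inv, mul_inv, ← Real.rpow_neg two_pos.le,
              ← Real.rpow_neg two_pos.le, ← Real.rpow_neg hgpos.le]
            calc (2 : ℝ) ^ (-(l : ℝ)) * ((2 : ℝ) ^ (-(S' * R)) * (g : ℝ) ^ (-(-c' * R)))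
                ≤ (2 : ℝ) ^ (-(l : ℝ)) *
                    ((2 : ℝ) ^ (-(S' * R)) * ((2 : ℝ) ^ (X : ℝ)) ^ (-(-c' * R))) := by
                  gcongr
                  · have : 0 ≤ c' * R := by positivity
                    linarith
                  · rw [Real.rpow_natCast]; exact_mod_cast h4
              _ = _ := by
                  rw [← Real.rpow_mul two_pos.le, ← Real.rpow_add two_pos,
                    ← Real.rpow_add two_pos]
                  ring_nf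
          · rw [hR', ← div_div, mul_div_right_comm, ← Real.rpow_sub two_pos, mul_div_assoc,
              ← Real.rpow_sub hgpos]
            have h7 : 0 ≤ R * (2 * c - c') :=
              mul_nonneg (Nat.cast_nonneg R) (by linarith)
            calc (2 : ℝ) ^ (θ * ((η : ℝ) + 1) + T0 + 2 * R * S - S' * R) *
                  (g : ℝ) ^ (-(2 * R * c) - -c' * R)
                ≤ (2 : ℝ) ^ (θ * ((η : ℝ) + 1) + T0 + 2 * R * S - S' * R) *
                  ((2 : ℝ) ^ (η : ℝ)) ^ (-(2 * R * c) - -c' * R) := by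
                  refine mul_le_mul_of_nonneg_left ?_ (Real.rpow_nonneg two_pos.le _)
                  exact Real.rpow_le_rpow_of_nonpos (Real.rpow_pos_of_pos two_pos _) h1 (by linarith)
              _ = _ := by
                  rw [← Real.rpow_mul two_pos.le, ← Real.rpow_add two_pos]
                  ring_nf
  refine (prb_exists_le _ _).trans ((Finset.sum_le_card_nsmul _ _ _ hfail).trans ?_)
  rw [nsmul_eq_mul]
  refine (mul_le_mul_of_nonneg_right hcard (by positivity)).trans ?_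
  rw [hB, ht, mul_div_assoc, ← Real.rpow_sub two_pos, mul_assoc, mul_add,
    ← Real.rpow_add two_pos, ← Real.rpow_add two_pos]
  set E := (2 : ℝ) ^ (-((lb : ℝ) + 5))
  have hE : (2 : ℝ) ^ (-((lb : ℝ) + 4)) = E + E := by
    rw [show (-((lb : ℝ) + 4)) = -((lb : ℝ) + 5) + 1 by ring, Real.rpow_add two_pos,
      Real.rpow_one]
    ring
  rw [hE]
  have hRR : (1 : ℝ) ≤ R := by exact_mod_cast hR
  have hηX : (η : ℝ) ≤ X := by exact_mod_cast hη
  have hη0 : (0 : ℝ) ≤ η := by positivity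
  have hlb0 : (0 : ℝ) ≤ lb := by positivity
  have hc'η : c' * η ≤ c' * X := mul_le_mul_of_nonneg_left hηX hc'
  have hθη : θ * η ≤ θ * X := mul_le_mul_of_nonneg_left hηX hθ
  have hRS : 0 ≤ R * S' := mul_nonneg (by positivity) (by linarith)
  have hRS2 : R * (2 * S - S') ≤ 2 * S - S' :=
    le_trans (mul_le_mul_of_nonpos_right hRR (by linarith)) (by rw [one_mul])
  have hg2 : (c' + 2 * θ) * η ≤ R * (2 * c - c') * η := mul_le_mul_of_nonneg_right hgain hη0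
  refine mul_le_mul_of_nonneg_left (add_le_add ?_ ?_) two_pos.le
  · exact Real.rpow_le_rpow_of_exponent_le one_le_two (by linarith)
  · exact Real.rpow_le_rpow_of_exponent_le one_le_two (by linarith)

/-- The coincidence probability stays small for most multipliers. -/
lemma coll_failure_le [Nonempty Ω] (A : Ω → ℕ) {X l : ℕ} {c c' : ℝ}
    (hcoll : coll A ≤ (2 : ℝ) ^ (-(2 * c * X + 5))) (hc'c : c' ≤ 2 * c)
    (hl2 : 4 * c * X + 10 ≤ l) :
    prb (fun q : Fin (2 ^ l) => (2 : ℝ) ^ (-(2 * c' * X + 5)) <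
      coll (branch A 1 ((q : ℕ) + 1))) ≤ 1 / 8 := by
  set Q := 2 ^ l with hQ
  have hQpos : 1 ≤ Q := Nat.one_le_two_pow
  have hQR : (Q : ℝ) = (2 : ℝ) ^ (l : ℝ) := by rw [hQ, Real.rpow_natCast]; push_cast; rfl
  refine (prb_markov (f := fun q : Fin Q => coll (branch A 1 ((q : ℕ) + 1)))
    (fun q => coll_nonneg _) (by positivity)).trans ?_
  rw [Fintype.card_fin, div_le_iff₀ (by positivity)]
  refine (sum_coll_branch_le A hQpos).trans ?_
  have h1 : coll A ^ 2 ≤ (2 : ℝ) ^ (-(4 * c * X + 10)) := by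
    refine (pow_le_pow_left₀ (coll_nonneg A) hcoll 2).trans (le_of_eq ?_)
    rw [← Real.rpow_mul_natCast two_pos.le]
    congr 1
    push_cast
    ring
  have h2 : 1 / (Q : ℝ) ≤ (2 : ℝ) ^ (-(4 * c * X + 10)) := by
    rw [hQR, one_div, ← Real.rpow_neg two_pos.le]
    exact Real.rpow_le_rpow_of_exponent_le one_le_two (by linarith)
  calc coll A ^ 2 + 1 / (Q : ℝ) ≤ (2 : ℝ) ^ (-(4 * c * X + 10) + 1) := by
        rw [Real.rpow_add two_pos, Real.rpow_one]; linarith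
    _ ≤ (2 : ℝ) ^ (-(2 * c' * X + 5) + -(3 : ℕ)) := by
        refine Real.rpow_le_rpow_of_exponent_le one_le_two ?_
        have : 2 * c' * X ≤ 4 * c * X := mul_le_mul_of_nonneg_right (by linarith) (by positivity)
        push_cast
        linarith
    _ = 1 / 8 * (2 : ℝ) ^ (-(2 * c' * X + 5)) := by
        rw [Real.rpow_add two_pos, Real.rpow_neg two_pos.le ((3 : ℕ) : ℝ), Real.rpow_natCast]
        norm_num
        ring

/-- One doubling step. -/
lemma exists_good_multiplier [Nonempty Ω] (A : Ω → ℕ) {X R l lb : ℕ}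
    {η₁ η₂ c c' S S' θ T0 : ℝ}
    (hA : ∀ w, A w < 2 ^ X) (hlb : X + 1 ≤ 2 ^ lb)
    (hphi : ∀ g : ℕ, (2 : ℝ) ^ η₁ ≤ g → g ≤ 2 ^ X → phi A g ≤ 2 ^ S * (g : ℝ) ^ (-c))
    (hcoll : coll A ≤ (2 : ℝ) ^ (-(2 * c * X + 5)))
    (hdiv : ∀ F : ℕ, 0 < F → F < 2 ^ (X + 1) → ∀ η : ℝ, η₂ ≤ η →
      ((F.divisors.filter (fun d : ℕ => (d : ℝ) ≤ (2 : ℝ) ^ η)).card : ℝ) ≤
        (2 : ℝ) ^ (θ * η + T0))
    (hR : 1 ≤ R) (hc' : 0 ≤ c') (hc'c : c' ≤ 2 * c) (hc'1 : c' ≤ 1)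
    (hθ : 0 ≤ θ) (hθ1 : θ ≤ 1) (hT0 : 0 ≤ T0)
    (hS : 0 ≤ S) (hRc : 2 * (R : ℝ) * c ≤ 1) (hη₁₂ : η₁ ≤ (1 - 2 * R * c) * η₂)
    (hgain : c' + 2 * θ ≤ R * (2 * c - c'))
    (hl1 : (R + 1 : ℝ) * c' * X + θ * X + T0 ≤ l) (hl2 : 4 * c * X + 10 ≤ l)
    (hS' : 2 * S + 2 * T0 + lb + 8 ≤ S') :
    ∃ q : ℕ, 1 ≤ q ∧ q ≤ 2 ^ l ∧
      (∀ g : ℕ, (2 : ℝ) ^ η₂ ≤ g → g ≤ 2 ^ X →
        phi (branch A 1 q) g ≤ 2 ^ S' * (g : ℝ) ^ (-c')) ∧
      coll (branch A 1 q) ≤ (2 : ℝ) ^ (-(2 * c' * X + 5)) := by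
  classical
  set Q := 2 ^ l with hQ
  have hQpos : 1 ≤ Q := Nat.one_le_two_pow
  have hQR : (Q : ℝ) = (2 : ℝ) ^ (l : ℝ) := by rw [hQ, Real.rpow_natCast]; push_cast; rfl
  have : Nonempty (Fin Q) := ⟨⟨0, hQpos⟩⟩
  set thr : ℕ → ℝ := fun g => 2 ^ S' * (g : ℝ) ^ (-c') with hthr
  set G : ℕ → Finset ℕ := fun η => (Finset.Ico (2 ^ η) (2 ^ (η + 1))).filter
    (fun g => (2 : ℝ) ^ η₂ ≤ g ∧ g ≤ 2 ^ X ∧ thr g < phi A g) with hG
  have hone : ∀ η ≤ X, prb (fun q : Fin Q => ∃ g ∈ G η,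
      thr g < phi (branch A 1 ((q : ℕ) + 1)) g) ≤ 2 * (2 : ℝ) ^ (-((lb : ℝ) + 4)) := fun η hη =>
    band_failure_le A hA hphi hcoll hdiv hR hc' hc'c hc'1 hθ hθ1 hT0 hS hRc hη₁₂ hgain hl1 hS' hη
  have hcollP : prb (fun q : Fin Q => (2 : ℝ) ^ (-(2 * c' * X + 5)) <
      coll (branch A 1 ((q : ℕ) + 1))) ≤ 1 / 8 := coll_failure_le A hcoll hc'c hl2
  -- choose
  have hbad : prb (fun q : Fin Q => (∃ η ∈ Finset.range (X + 1), ∃ g ∈ G η,
      thr g < phi (branch A 1 ((q : ℕ) + 1)) g) ∨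
      (2 : ℝ) ^ (-(2 * c' * X + 5)) < coll (branch A 1 ((q : ℕ) + 1))) < 1 := by
    refine lt_of_le_of_lt (prb_or_le _ _) ?_
    have h1 := (prb_exists_le (Finset.range (X + 1)) _).trans (Finset.sum_le_card_nsmul _ _ _
      (fun η hη => hone η (Nat.lt_succ_iff.1 (Finset.mem_range.1 hη))))
    rw [Finset.card_range, nsmul_eq_mul] at h1
    have h2 : ((X + 1 : ℕ) : ℝ) * (2 * (2 : ℝ) ^ (-((lb : ℝ) + 4))) ≤ 1 / 8 := by
      have h3 : ((X + 1 : ℕ) : ℝ) ≤ (2 : ℝ) ^ lb := by exact_mod_cast hlb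
      calc ((X + 1 : ℕ) : ℝ) * (2 * (2 : ℝ) ^ (-((lb : ℝ) + 4)))
          ≤ (2 : ℝ) ^ lb * (2 * (2 : ℝ) ^ (-((lb : ℝ) + 4))) := by gcongr
        _ = 1 / 8 := by
            rw [Real.rpow_neg two_pos.le, show ((lb : ℝ) + 4) = ((lb + 4 : ℕ) : ℝ) by push_cast; rfl,
              Real.rpow_natCast, pow_add]
            field_simp
            norm_num
    linarith
  obtain ⟨q, hq⟩ := exists_not_of_prb_lt_one hbad
  push Not at hq
  refine ⟨(q : ℕ) + 1, by omega, q.2, ?_, hq.2⟩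
  intro g hg hgX
  by_contra hc
  push Not at hc
  have hgN : 1 ≤ g := by
    have : (0 : ℝ) < g := lt_of_lt_of_le (by positivity) hg
    exact_mod_cast this
  have hlog : Nat.log 2 g ∈ Finset.range (X + 1) := by
    rw [Finset.mem_range, Nat.lt_succ_iff]
    exact (Nat.log_mono_right hgX).trans (le_of_eq (Nat.log_pow one_lt_two X))
  have hgmem : g ∈ G (Nat.log 2 g) := by
    simp only [hG, Finset.mem_filter, Finset.mem_Ico]
    exact ⟨⟨Nat.pow_log_le_self 2 (by omega), Nat.lt_pow_succ_log_self one_lt_two g⟩, hg, hgX,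
      lt_of_lt_of_le hc (phi_branch_le A _ g)⟩
  exact absurd hc (not_lt.2 (hq.1 _ hlog g hgmem))

end Vale.Agent.P012
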