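import Vale.Agent.P012.GcdStep
import Vale.Agent.P012.Base
import Vale.Agent.P012.DivisorCount
import Vale.Agent.P012.Rep

/-!
Iterated doubling: a family of short sums with few coincidences modulo every integer in a range.
-/

namespace Vale.Agent.P012

open Finset

/-- The height of the tree at relative scale `r`. -/
def gHeight (k r : ℕ) : ℕ := Nat.log 2 (k / (2 ^ 15 * r)) + 1

/-- The exponent at distance `i` from the top of the tree. -/
noncomputable def cExp (i : ℕ) : ℝ := (1 / 2 : ℝ) ^ 20 * (1 / 2) ^ i * (2 - (3 / 4) ^ i)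

/-- The moment used at distance `i` from the top of the tree. -/
noncomputable def mExp (i : ℕ) : ℕ := 4096 * ⌈((3 : ℝ) / 2) ^ i⌉₊

/-- Absolute slack of the trees. -/
noncomputable def gSlack (k : ℕ) : ℝ := 8 * (k : ℝ) ^ 2 * (2 : ℝ) ^ (k / 2)

/-- The window `X` at relative scale `r`. -/
def gWin (k r : ℕ) : ℕ := 4 * k * 2 ^ (k - r)

lemma gHeight_bounds {k r : ℕ} (hr : 1 ≤ r) (hrk : 2 ^ 16 * r ≤ k) :
    k < 2 ^ 15 * r * 2 ^ gHeight k r ∧ 2 ^ gHeight k r * (2 ^ 14 * r) ≤ k := by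
  set m := k / (2 ^ 15 * r) with hm
  have hpos : 0 < 2 ^ 15 * r := by positivity
  have hm0 : 0 < m := by
    rw [hm]; apply Nat.div_pos _ hpos; omega
  have h1 : m < 2 ^ gHeight k r := Nat.lt_pow_succ_log_self one_lt_two m
  have h2 : 2 ^ Nat.log 2 m ≤ m := Nat.pow_log_le_self 2 hm0.ne'
  constructor
  · calc k < 2 ^ 15 * r * (m + 1) := Nat.lt_mul_div_succ k hpos
      _ ≤ _ := Nat.mul_le_mul_left _ h1
  · calc 2 ^ gHeight k r * (2 ^ 14 * r) = 2 ^ Nat.log 2 m * (2 ^ 15 * r) := by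
          rw [gHeight, ← hm, pow_succ]; ring
      _ ≤ m * (2 ^ 15 * r) := Nat.mul_le_mul_right _ h2
      _ ≤ k := Nat.div_mul_le_self k _

lemma gHeight_le {k r : ℕ} : gHeight k r ≤ k + 1 := by
  unfold gHeight
  have := Nat.log_le_self 2 (k / (2 ^ 15 * r))
  have := Nat.div_le_self k (2 ^ 15 * r)
  omega

lemma threeQuarter_mem (i : ℕ) : (0 : ℝ) < (3 / 4 : ℝ) ^ i ∧ (3 / 4 : ℝ) ^ i ≤ 1 :=
  ⟨by positivity, pow_le_one₀ (by norm_num) (by norm_num)⟩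

lemma cExp_pos (i : ℕ) : 0 < cExp i := by
  obtain ⟨h1, h2⟩ := threeQuarter_mem i
  have : (0 : ℝ) < 2 - (3 / 4) ^ i := by linarith
  unfold cExp
  positivity

lemma cExp_le (i : ℕ) : cExp i ≤ 2 * (1 / 2 : ℝ) ^ 20 * (1 / 2) ^ i := by
  obtain ⟨h1, h2⟩ := threeQuarter_mem i
  have : (0 : ℝ) ≤ (1 / 2 : ℝ) ^ 20 * (1 / 2) ^ i := by positivity
  unfold cExp
  nlinarith

lemma cExp_zero : cExp 0 = (1 / 2 : ℝ) ^ 20 := by norm_num [cExp]

lemma mExp_bounds (i : ℕ) :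
    4096 * ((3 : ℝ) / 2) ^ i ≤ (mExp i : ℝ) ∧ (mExp i : ℝ) ≤ 8192 * ((3 : ℝ) / 2) ^ i ∧
      1 ≤ mExp i := by
  have h0 : (1 : ℝ) ≤ ((3 : ℝ) / 2) ^ i := one_le_pow₀ (by norm_num)
  have h1 := Nat.le_ceil (((3 : ℝ) / 2) ^ i)
  have h2 := Nat.ceil_lt_add_one (show (0 : ℝ) ≤ ((3 : ℝ) / 2) ^ i by positivity)
  have h3 : 0 < ⌈((3 : ℝ) / 2) ^ i⌉₊ := Nat.ceil_pos.2 (by positivity)
  refine ⟨?_, ?_, ?_⟩
  · unfold mExp; push_cast; linarith
  · unfold mExp; push_cast; linarith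
  · unfold mExp; omega

/-- The numerical conditions of one step at distance `i + 1` from the top. -/
lemma step_numerics {k r i : ℕ} (hr : 6 ≤ r) (hrk : 2 ^ 16 * r ≤ k) (hi : i + 1 ≤ gHeight k r) :
    cExp i ≤ 2 * cExp (i + 1) ∧ cExp i ≤ 1 ∧
    2 * (mExp (i + 1) : ℝ) * cExp (i + 1) ≤ (3 / 4 : ℝ) ^ (i + 1) / 7 ∧
    cExp i + 2 * ((2 * (r : ℝ) + 21) / k) ≤
      (mExp (i + 1) : ℝ) * (2 * cExp (i + 1) - cExp i) ∧
    ((mExp (i + 1) : ℝ) + 1) * cExp i ≤ (3 / 64) * (3 / 4 : ℝ) ^ (i + 1) := by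
  obtain ⟨hR1, hR2, -⟩ := mExp_bounds (i + 1)
  obtain ⟨ha0, ha1⟩ := threeQuarter_mem (i + 1)
  have hce : 2 * cExp (i + 1) - cExp i =
      (1 / 2 : ℝ) ^ 20 * (1 / 2) ^ i * ((3 / 4 : ℝ) ^ (i + 1) / 3) := by
    unfold cExp; rw [pow_succ, pow_succ]; ring
  have hci := cExp_le i
  have hci1 := cExp_le (i + 1)
  have hcp := cExp_pos i
  have hcp1 := cExp_pos (i + 1)
  have h32 : (1 : ℝ) ≤ ((3 : ℝ) / 2) ^ (i + 1) := one_le_pow₀ (by norm_num)
  have hb : ((3 : ℝ) / 2) ^ (i + 1) * (1 / 2) ^ (i + 1) = (3 / 4 : ℝ) ^ (i + 1) := by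
    rw [← mul_pow]; norm_num
  have hhalf : (1 / 2 : ℝ) ^ i = 2 * (1 / 2) ^ (i + 1) := by rw [pow_succ]; ring
  refine ⟨?_, ?_, ?_, ?_, ?_⟩
  · have : 0 ≤ (1 / 2 : ℝ) ^ 20 * (1 / 2) ^ i * ((3 / 4 : ℝ) ^ (i + 1) / 3) := by positivity
    linarith
  · refine hci.trans ?_
    have : (1 / 2 : ℝ) ^ i ≤ 1 := pow_le_one₀ (by norm_num) (by norm_num)
    nlinarith
  · calc 2 * (mExp (i + 1) : ℝ) * cExp (i + 1)
        ≤ 2 * (8192 * ((3 : ℝ) / 2) ^ (i + 1)) * (2 * (1 / 2 : ℝ) ^ 20 * (1 / 2) ^ (i + 1)) := by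
          gcongr
      _ = 1 / 32 * (3 / 4 : ℝ) ^ (i + 1) := by rw [← hb]; ring
      _ ≤ _ := by linarith
  · set b := (9 / 16 : ℝ) ^ (i + 1) with hb9
    have hbhalf : (1 / 2 : ℝ) ^ (i + 1) ≤ b := by
      rw [hb9]; exact pow_le_pow_left₀ (by norm_num) (by norm_num) _
    have hbb : ((3 : ℝ) / 2) ^ (i + 1) * (1 / 2) ^ (i + 1) * (3 / 4 : ℝ) ^ (i + 1) = b := by
      rw [← mul_pow, ← mul_pow]; norm_num [hb9]
    have hlow : 2 / 3 * 4096 * (1 / 2 : ℝ) ^ 20 * b ≤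
        (mExp (i + 1) : ℝ) * (2 * cExp (i + 1) - cExp i) := by
      rw [hce, hhalf]
      calc 2 / 3 * 4096 * (1 / 2 : ℝ) ^ 20 * b
          = 4096 * ((3 : ℝ) / 2) ^ (i + 1) *
            ((1 / 2 : ℝ) ^ 20 * (2 * (1 / 2) ^ (i + 1)) * ((3 / 4 : ℝ) ^ (i + 1) / 3)) := by
            rw [← hbb]; ring
        _ ≤ _ := by gcongr
    have hL := (gHeight_bounds (by omega) hrk).2
    have hkr : (2 : ℝ) ^ 14 * r / k ≤ b := by
      have h1 : ((2 ^ (i + 1) * (2 ^ 14 * r) : ℕ) : ℝ) ≤ k := by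
        exact_mod_cast (Nat.mul_le_mul_right _ (Nat.pow_le_pow_right two_pos hi)).trans hL
      push_cast at h1
      refine le_trans ?_ hbhalf
      rw [div_le_iff₀ (by exact_mod_cast (show 0 < k by omega)), one_div_pow,
        div_mul_eq_mul_div, le_div_iff₀ (by positivity), one_mul]
      linarith
    have hθ : (2 * (r : ℝ) + 21) / k ≤ 6 * r / k := by
      gcongr
      have : (6 : ℝ) ≤ r := by exact_mod_cast hr
      linarith
    have hθ2 : 6 * (r : ℝ) / k ≤ 6 / 2 ^ 14 * b := by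
      calc 6 * (r : ℝ) / k = 6 / 2 ^ 14 * (2 ^ 14 * r / k) := by ring
        _ ≤ _ := by gcongr
    have hc4 : cExp i ≤ 4 * (1 / 2 : ℝ) ^ 20 * b := by
      refine hci.trans ?_
      rw [hhalf]
      nlinarith [show (0 : ℝ) < (1 / 2 : ℝ) ^ 20 by positivity]
    have hb0 : 0 < b := by positivity
    nlinarith
  · calc ((mExp (i + 1) : ℝ) + 1) * cExp i
        ≤ (12288 * ((3 : ℝ) / 2) ^ (i + 1)) * (2 * (1 / 2 : ℝ) ^ 20 * (2 * (1 / 2) ^ (i + 1))) := by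
          rw [← hhalf]
          refine mul_le_mul ?_ hci hcp.le (by positivity)
          linarith
      _ = (3 / 64) * (3 / 4 : ℝ) ^ (i + 1) := by rw [← hb]; ring

/-- The absolute term in the divisor bound. -/
noncomputable def tAbs (k : ℕ) : ℝ := (k : ℝ) * ((2 : ℝ) ^ (k / 2) + 1)

/-- The doubling constant of the slack. -/
noncomputable def uAbs (k : ℕ) : ℝ := 2 * tAbs k + 2 * k + 8

/-- The slope in the divisor bound. -/
noncomputable def tSlope (k r : ℕ) : ℝ := (2 * (r : ℝ) + 21) / k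

/-- The height added by one level beyond the geometric part. -/
noncomputable def dAbs (k r : ℕ) : ℕ := ⌈tSlope k r * (gWin k r : ℝ) + tAbs k + 11⌉₊ + 1

lemma tAbs_nonneg (k : ℕ) : 0 ≤ tAbs k := by unfold tAbs; positivity

lemma tSlope_nonneg (k r : ℕ) : 0 ≤ tSlope k r := by unfold tSlope; positivity

lemma gWin_succ_le {k r : ℕ} (hr : 6 ≤ r) (hrk : 2 ^ 16 * r ≤ k) :
    gWin k r + 1 ≤ 2 ^ (2 * k) := by
  have h : ∀ m : ℕ, 6 ≤ m → 4 * m < 2 ^ m := by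
    intro m hm
    induction m, hm using Nat.le_induction with
    | base => norm_num
    | succ m hm ih => rw [pow_succ]; omega
  have h1 := h k (by omega)
  have h2 : 2 ^ (k - r) ≤ 2 ^ k := Nat.pow_le_pow_right two_pos (by omega)
  have h3 : 4 * k * 2 ^ (k - r) < 2 ^ k * 2 ^ k :=
    Nat.mul_lt_mul_of_lt_of_le h1 h2 (by positivity)
  rw [gWin, two_mul k, pow_add]
  omega

lemma two_pow_height_le {k r : ℕ} (hr : 6 ≤ r) (hrk : 2 ^ 16 * r ≤ k) :
    (2 : ℝ) ^ gHeight k r * ((2 : ℝ) ^ 14 * r) ≤ k := by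
  exact_mod_cast (gHeight_bounds (by omega) hrk).2

/-- The total height stays inside the window. -/
lemma height_budget {k r l Z : ℕ} (hr : 6 ≤ r) (hrk : 2 ^ 16 * r ≤ k)
    (hbig : 16 * (k + 1) * (k * (2 ^ (k / 2) + 1) + 14) ≤ 2 * k * 2 ^ (k - r))
    (hl : l ≤ gHeight k r) {t : ℝ} (ht : t ≤ 3)
    (hZ : (Z : ℝ) ≤ (3 / 64 * (gWin k r : ℝ) + (1 / 2) ^ 14 * (gWin k r : ℝ)) * t +
      l * dAbs k r) :
    2 * k * 2 ^ (k - r) + 1 + Z ≤ gWin k r := by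
  set X : ℝ := (gWin k r : ℝ) with hX
  have hX0 : 0 ≤ X := by positivity
  have hk0 : (0 : ℝ) < k := by exact_mod_cast (show 0 < k by omega)
  have hl' : (l : ℝ) ≤ k + 1 := by exact_mod_cast (le_trans hl gHeight_le)
  have hT := tAbs_nonneg k
  have hθ := tSlope_nonneg k r
  have hd : (dAbs k r : ℝ) ≤ tSlope k r * X + tAbs k + 13 := by
    unfold dAbs
    push_cast
    linarith [Nat.ceil_lt_add_one
      (show (0 : ℝ) ≤ tSlope k r * X + tAbs k + 11 by positivity)]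
  have hl0 : (l : ℝ) * tSlope k r ≤ 1 / 2 ^ 11 := by
    have h1 := two_pow_height_le hr hrk
    have h2 : (l : ℝ) ≤ (2 : ℝ) ^ gHeight k r := by
      exact_mod_cast le_trans (Nat.lt_two_pow_self).le (Nat.pow_le_pow_right two_pos hl)
    have hrR : (6 : ℝ) ≤ r := by exact_mod_cast hr
    have h3 : (l : ℝ) * ((2 : ℝ) ^ 14 * r) ≤ k :=
      le_trans (mul_le_mul_of_nonneg_right h2 (by positivity)) h1
    have h4 : (l : ℝ) * (2 * r + 21) ≤ (l : ℝ) * (6 * r) :=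
      mul_le_mul_of_nonneg_left (by linarith) (by positivity)
    rw [tSlope, ← mul_div_assoc, div_le_iff₀ hk0]
    linarith
  have hlD : (l : ℝ) * dAbs k r ≤ 1 / 2 ^ 11 * X + (k + 1) * (tAbs k + 13) := by
    calc (l : ℝ) * dAbs k r ≤ (l : ℝ) * (tSlope k r * X + tAbs k + 13) :=
          mul_le_mul_of_nonneg_left hd (by positivity)
      _ = (l : ℝ) * tSlope k r * X + (l : ℝ) * (tAbs k + 13) := by ring
      _ ≤ _ := add_le_add (mul_le_mul_of_nonneg_right hl0 hX0)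
          (mul_le_mul_of_nonneg_right hl' (by linarith))
  have hjbig : (16 : ℝ) * (k + 1) * (tAbs k + 14) ≤ 2 * k * (2 : ℝ) ^ (k - r) := by
    unfold tAbs
    exact_mod_cast hbig
  have hXR : X = 4 * k * (2 : ℝ) ^ (k - r) := by rw [hX, gWin]; push_cast; ring
  have ht' : (3 / 64 * X + (1 / 2) ^ 14 * X) * t ≤ (3 / 64 * X + (1 / 2) ^ 14 * X) * 3 :=
    mul_le_mul_of_nonneg_left ht (by positivity)
  have hfin : ((2 * k * 2 ^ (k - r) + 1 + Z : ℕ) : ℝ) ≤ ((gWin k r : ℕ) : ℝ) := by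
    rw [← hX]
    push_cast
    have h1 : (k : ℝ) + 1 ≥ 1 := by linarith
    linarith
  exact_mod_cast hfin

/-- The final slack is below `gSlack`. -/
lemma slack_le {k r : ℕ} (hr : 6 ≤ r) (hrk : 2 ^ 16 * r ≤ k) :
    (2 : ℝ) ^ gHeight k r * ((r : ℝ) + 3 + uAbs k) - uAbs k ≤ gSlack k := by
  have h1 := two_pow_height_le hr hrk
  have hrR : (6 : ℝ) ≤ r := by exact_mod_cast hr
  have hrk' : (r : ℝ) ≤ k := by exact_mod_cast (show r ≤ k by omega)
  have hk1 : (1 : ℝ) ≤ k := by linarith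
  have hL0 : (0 : ℝ) ≤ (2 : ℝ) ^ gHeight k r := by positivity
  have hLk : (2 : ℝ) ^ gHeight k r ≤ k / 2 ^ 14 := by
    rw [le_div_iff₀ (by positivity)]; nlinarith
  have hT := tAbs_nonneg k
  have hU0 : 0 ≤ uAbs k := by unfold uAbs; linarith
  have hp : (1 : ℝ) ≤ (2 : ℝ) ^ (k / 2) := one_le_pow₀ one_le_two
  have hkp : (k : ℝ) ≤ k * (2 : ℝ) ^ (k / 2) := le_mul_of_one_le_right (by linarith) hp
  have hb : (r : ℝ) + 3 + uAbs k ≤ 8 * k * (2 : ℝ) ^ (k / 2) + 11 := by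
    unfold uAbs tAbs; linarith
  have h2 := mul_le_mul hLk hb (by linarith) (by positivity)
  have h3 : (k : ℝ) * 1 ≤ k * (k * (2 : ℝ) ^ (k / 2)) := by
    refine mul_le_mul_of_nonneg_left ?_ (by linarith)
    linarith
  unfold gSlack
  linarith

/-- The base family meets the conditions at the bottom. -/
lemma base_conditions {k r : ℕ} (hr : 6 ≤ r) (hrk : 2 ^ 16 * r ≤ k) :
    cExp (gHeight k r) ≤ (r : ℝ) / (16 * k) ∧
      coll (dProd k (2 ^ (k - r)) (2 ^ r)) ≤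
        (2 : ℝ) ^ (-(2 * cExp (gHeight k r) * (gWin k r : ℝ) + 5)) := by
  have hk0 : (0 : ℝ) < k := by exact_mod_cast (show 0 < k by omega)
  set j := 2 ^ (k - r) with hj
  have hcL : cExp (gHeight k r) ≤ (r : ℝ) / (16 * k) := by
    refine (cExp_le _).trans ?_
    have h1 : (k : ℝ) ≤ ((2 ^ 15 * r * 2 ^ gHeight k r : ℕ) : ℝ) := by
      exact_mod_cast (gHeight_bounds (by omega) hrk).1.le
    push_cast at h1
    rw [one_div_pow (2 : ℝ) (gHeight k r), ← mul_div_assoc, mul_one,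
      div_le_div_iff₀ (by positivity) (by positivity)]
    linarith
  refine ⟨hcL, (coll_dProd_le k j r).trans ?_⟩
  rw [one_div, ← Real.rpow_natCast, ← Real.rpow_neg two_pos.le]
  refine Real.rpow_le_rpow_of_exponent_le one_le_two ?_
  have h2 : 2 * cExp (gHeight k r) * (gWin k r : ℝ) ≤ (r : ℝ) * j / 2 := by
    rw [gWin, ← hj]
    push_cast
    calc 2 * cExp (gHeight k r) * (4 * k * j) ≤ 2 * ((r : ℝ) / (16 * k)) * (4 * k * j) := by gcongr
      _ = (r : ℝ) * j / 2 := by field_simp; ring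
  have h3 : 2 ≤ j := by
    rw [hj]; exact le_trans (by norm_num) (Nat.pow_le_pow_right two_pos (show 1 ≤ k - r by omega))
  have hj12 : (12 : ℝ) ≤ (r : ℝ) * j := by
    exact_mod_cast (show 12 ≤ r * j from le_trans (by norm_num) (Nat.mul_le_mul hr h3))
  push_cast
  linarith

/-- The multiplier budget of one level. -/
noncomputable def lamAt (k r i : ℕ) : ℕ :=
  ⌈(3 / 64 * (gWin k r : ℝ) + (1 / 2 : ℝ) ^ 14 * (gWin k r : ℝ)) * (3 / 4 : ℝ) ^ (i + 1) +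
    tSlope k r * (gWin k r : ℝ) + tAbs k + 10⌉₊

/-- The lower end of the range at distance `i` from the top. -/
noncomputable def rangeLow (k r i : ℕ) : ℝ :=
  (gWin k r : ℝ) / 2 ^ (r + 1) * (1 + (3 / 4 : ℝ) ^ i)

/-- One level of the tree. -/
lemma tree_step {Ω : Type} [Fintype Ω] [Nonempty Ω] (A : Ω → ℕ) {k r i : ℕ} {S S' : ℝ}
    (hr : 6 ≤ r) (hrk : 2 ^ 16 * r ≤ k) (hi : i + 1 ≤ gHeight k r)
    (hA : ∀ w, A w < 2 ^ gWin k r)
    (hphi : ∀ g : ℕ, (2 : ℝ) ^ rangeLow k r (i + 1) ≤ g → g ≤ 2 ^ gWin k r →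
      phi A g ≤ 2 ^ S * (g : ℝ) ^ (-cExp (i + 1)))
    (hcoll : coll A ≤ (2 : ℝ) ^ (-(2 * cExp (i + 1) * (gWin k r : ℝ) + 5)))
    (hS : 0 ≤ S) (hS' : 2 * S + uAbs k ≤ S') :
    ∃ q : ℕ, 1 ≤ q ∧ q ≤ 2 ^ lamAt k r i ∧
      (∀ g : ℕ, (2 : ℝ) ^ rangeLow k r i ≤ g → g ≤ 2 ^ gWin k r →
        phi (branch A 1 q) g ≤ 2 ^ S' * (g : ℝ) ^ (-cExp i)) ∧
      coll (branch A 1 q) ≤ (2 : ℝ) ^ (-(2 * cExp i * (gWin k r : ℝ) + 5)) := by
  obtain ⟨n1, n2, n3, n4, n5⟩ := step_numerics hr hrk hi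
  set X : ℝ := (gWin k r : ℝ) with hX
  have hX0 : 0 ≤ X := by positivity
  obtain ⟨ha0, ha1⟩ := threeQuarter_mem (i + 1)
  have hRc : 2 * (mExp (i + 1) : ℝ) * cExp (i + 1) ≤ 1 := by linarith
  have hk0 : (0 : ℝ) < k := by exact_mod_cast (show 0 < k by omega)
  have hθ1 : tSlope k r ≤ 1 := by
    rw [tSlope, div_le_one hk0]
    exact_mod_cast (show 2 * r + 21 ≤ k by omega)
  have hT := tAbs_nonneg k
  have hθX : 0 ≤ tSlope k r * X := mul_nonneg (tSlope_nonneg k r) hX0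
  have hη : rangeLow k r (i + 1) ≤
      (1 - 2 * (mExp (i + 1) : ℝ) * cExp (i + 1)) * rangeLow k r i := by
    unfold rangeLow
    rw [show (3 / 4 : ℝ) ^ i = 4 / 3 * (3 / 4 : ℝ) ^ (i + 1) by rw [pow_succ]; ring, mul_left_comm]
    refine mul_le_mul_of_nonneg_left ?_ (by positivity)
    nlinarith
  have hhalf : (1 / 2 : ℝ) ^ (i + 1) ≤ (3 / 4 : ℝ) ^ (i + 1) :=
    pow_le_pow_left₀ (by norm_num) (by norm_num) _
  have hlamge : (3 / 64 * X + (1 / 2 : ℝ) ^ 14 * X) * (3 / 4 : ℝ) ^ (i + 1) +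
      tSlope k r * X + tAbs k + 10 ≤ (lamAt k r i : ℝ) := Nat.le_ceil _
  refine exists_good_multiplier A (lb := 2 * k) hA (gWin_succ_le hr hrk) hphi hcoll ?_
    (mExp_bounds (i + 1)).2.2 (cExp_pos i).le n1 n2 (tSlope_nonneg k r) hθ1 hT hS hRc hη n4
    ?_ ?_ ?_
  · intro F hF hFX η hη2
    refine card_divisors_moderate (r := r) (by omega) (by omega) hF hFX ?_
    have h1 : X / 2 ^ (r + 1) ≤ η :=
      le_trans (le_mul_of_one_le_right (by positivity) (by linarith [(threeQuarter_mem i).1])) hη2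
    rw [div_le_iff₀ (by positivity)] at h1
    linarith
  · have h1 := mul_le_mul_of_nonneg_right n5 hX0
    have h2 : 0 ≤ (1 / 2 : ℝ) ^ 14 * X * (3 / 4 : ℝ) ^ (i + 1) := by positivity
    linarith
  · have h1 : 4 * cExp (i + 1) ≤ (1 / 2 : ℝ) ^ 14 * (3 / 4 : ℝ) ^ (i + 1) := by
      nlinarith [cExp_le (i + 1)]
    have h1' := mul_le_mul_of_nonneg_right h1 hX0
    have h2 : 0 ≤ 3 / 64 * X * (3 / 4 : ℝ) ^ (i + 1) := by positivity
    linarith
  · unfold uAbs at hS'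
    push_cast
    linarith

/-- The family built at relative scale `r`. -/
lemma exists_gcd_family {k r : ℕ} (hr : 6 ≤ r) (hrk : 2 ^ 16 * r ≤ k)
    (hbig : 16 * (k + 1) * (k * (2 ^ (k / 2) + 1) + 14) ≤ 2 * k * 2 ^ (k - r)) :
    ∃ (Ω : Type) (_ : Fintype Ω) (_ : Nonempty Ω) (A : Ω → ℕ) (Ξ : ℕ),
      1 ≤ Ξ ∧ Ξ ≤ 2 ^ gWin k r ∧
      (∀ w, A w < 2 ^ gWin k r ∧ Rep (Ξ * poolProd k) (2 ^ gHeight k r) (A w)) ∧
      ∀ g : ℕ, (2 : ℝ) ^ ((gWin k r : ℝ) / 2 ^ r) ≤ g → g ≤ 2 ^ gWin k r →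
        phi A g ≤ (2 : ℝ) ^ gSlack k * (g : ℝ) ^ (-((1 / 2 : ℝ) ^ 20)) := by
  classical
  set L := gHeight k r with hL
  set j := 2 ^ (k - r) with hj
  set X := gWin k r with hX
  have hjs : j * 2 ^ r ≤ 2 ^ k := by rw [hj, ← pow_add, Nat.sub_add_cancel (by omega)]
  have hjpos : 1 ≤ j := Nat.one_le_two_pow
  set U := uAbs k with hU
  have key : ∀ l ≤ L, ∃ (Ω : Type) (_ : Fintype Ω) (_ : Nonempty Ω) (A : Ω → ℕ) (Ξ Z : ℕ),
      1 ≤ Ξ ∧ Ξ ≤ 2 ^ Z ∧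
      (∀ w, A w < 2 ^ (2 * k * j + 1 + Z) ∧ Rep (Ξ * poolProd k) (2 ^ l) (A w)) ∧
      (Z : ℝ) ≤ (3 / 64 * X + (1 / 2) ^ 14 * X) *
          (3 * ((3 / 4 : ℝ) ^ (L - l) - (3 / 4 : ℝ) ^ L)) + l * dAbs k r ∧
      (∀ g : ℕ, (2 : ℝ) ^ rangeLow k r (L - l) ≤ g → g ≤ 2 ^ X →
        phi A g ≤ (2 : ℝ) ^ ((2 : ℝ) ^ l * ((r : ℝ) + 3 + U) - U) * (g : ℝ) ^ (-cExp (L - l))) ∧
      coll A ≤ (2 : ℝ) ^ (-(2 * cExp (L - l) * X + 5)) := by
    intro l hl
    induction l with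
    | zero =>
      have : Nonempty (Fin (2 ^ r)) := ⟨⟨0, Nat.two_pow_pos r⟩⟩
      obtain ⟨hcL, hcollL⟩ := base_conditions hr hrk
      refine ⟨Fin j → Fin (2 ^ r), inferInstance, inferInstance, dProd k j (2 ^ r), 1, 0,
        le_rfl, le_of_eq (pow_zero 2).symm, ?_, by simp, ?_, hcollL⟩
      · intro w
        refine ⟨?_, ?_⟩
        · exact lt_of_le_of_lt (dProd_le (by omega) hjs w)
            (Nat.pow_lt_pow_right one_lt_two (by omega))
        · rw [one_mul, pow_zero]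
          exact Rep.single (dProd_dvd_poolProd hjs w)
      · intro g hg hgX
        have hg1 : 1 ≤ g := by
          have : (0 : ℝ) < g := lt_of_lt_of_le (by positivity) hg
          exact_mod_cast this
        refine (phi_dProd_le (by omega) hr hjpos hjs hg1 hgX).trans ?_
        rw [Nat.sub_zero, pow_zero, one_mul, add_sub_cancel_right,
          show ((r : ℝ) + 3) = ((r + 3 : ℕ) : ℝ) by push_cast; ring, Real.rpow_natCast]
        refine mul_le_mul_of_nonneg_left ?_ (by positivity)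
        exact Real.rpow_le_rpow_of_exponent_le (by exact_mod_cast hg1) (by linarith)
    | succ l ih =>
      obtain ⟨Ω, fΩ, nΩ, A, Ξ, Z, hΞ1, hΞ2, hA, hZ, hphi, hcoll⟩ := ih (by omega)
      obtain ⟨i, hi⟩ : ∃ i, L - l = i + 1 := ⟨L - l - 1, by omega⟩
      have hi' : L - (l + 1) = i := by omega
      rw [hi] at hZ hphi hcoll
      rw [hi']
      have ha := threeQuarter_mem (i + 1)
      have hAX : ∀ w, A w < 2 ^ X := fun w =>
        (hA w).1.trans_le (Nat.pow_le_pow_right two_pos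
          (height_budget hr hrk hbig (by omega) (by linarith [ha.2, (threeQuarter_mem L).1]) hZ))
      have hU0 : 0 ≤ U := by
        rw [hU]; unfold uAbs
        linarith [tAbs_nonneg k, show (0 : ℝ) ≤ k by positivity]
      have hSbd : (0 : ℝ) ≤ (2 : ℝ) ^ l * ((r : ℝ) + 3 + U) - U := by
        have h1 : (1 : ℝ) ≤ (2 : ℝ) ^ l := one_le_pow₀ one_le_two
        have h2 : (r : ℝ) + 3 + U ≤ (2 : ℝ) ^ l * ((r : ℝ) + 3 + U) :=
          le_mul_of_one_le_left (by positivity) h1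
        linarith [show (0 : ℝ) ≤ r by positivity]
      obtain ⟨q, hq1, hq2, hqphi, hqcoll⟩ := tree_step A hr hrk (show i + 1 ≤ gHeight k r by omega)
        hAX hphi hcoll hSbd (S' := (2 : ℝ) ^ (l + 1) * ((r : ℝ) + 3 + U) - U)
        (by rw [pow_succ]; linarith)
      set lam := lamAt k r i with hlam
      refine ⟨Ω × Ω, inferInstance, inferInstance, branch A 1 q, q * Ξ, Z + lam + 1,
        Nat.one_le_iff_ne_zero.2 (by positivity), ?_, ?_, ?_, hqphi, hqcoll⟩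
      · calc q * Ξ ≤ 2 ^ lam * 2 ^ Z := Nat.mul_le_mul hq2 hΞ2
          _ ≤ _ := by rw [← pow_add]; exact Nat.pow_le_pow_right two_pos (by omega)
      · intro w
        obtain ⟨h1, h1'⟩ := hA w.1
        obtain ⟨h2, h2'⟩ := hA w.2
        refine ⟨?_, ?_⟩
        · unfold branch
          rw [one_mul]
          have h3 : q * A w.2 < 2 ^ lam * 2 ^ (2 * k * j + 1 + Z) :=
            lt_of_le_of_lt (Nat.mul_le_mul_right _ hq2) (Nat.mul_lt_mul_of_pos_left h2 (by positivity))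
          have h4 : 2 ^ (2 * k * j + 1 + (Z + lam + 1)) =
              2 * (2 ^ lam * 2 ^ (2 * k * j + 1 + Z)) := by
            rw [← pow_add, ← pow_succ']
            congr 1
            omega
          have h5 : 2 ^ (2 * k * j + 1 + Z) ≤ 2 ^ lam * 2 ^ (2 * k * j + 1 + Z) :=
            Nat.le_mul_of_pos_left _ (by positivity)
          omega
        · unfold branch
          rw [one_mul, pow_succ, mul_two, mul_assoc]
          exact (h1'.mono (dvd_mul_left _ _) le_rfl).add (h2'.mul dvd_rfl)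
      · have h1 : ((lam : ℝ)) + 1 ≤
            (3 / 64 * X + (1 / 2 : ℝ) ^ 14 * X) * (3 / 4 : ℝ) ^ (i + 1) + (dAbs k r : ℝ) := by
          rw [hlam, lamAt, dAbs, ← hX]
          push_cast
          have hθX : 0 ≤ tSlope k r * (X : ℝ) := mul_nonneg (tSlope_nonneg k r) (by positivity)
          have hT := tAbs_nonneg k
          have h2 := Nat.ceil_lt_add_one (show (0 : ℝ) ≤ (3 / 64 * X + (1 / 2 : ℝ) ^ 14 * X) *
            (3 / 4 : ℝ) ^ (i + 1) + tSlope k r * X + tAbs k + 10 by positivity)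
          linarith [Nat.le_ceil (tSlope k r * X + tAbs k + 11)]
        have h3 : (3 / 4 : ℝ) ^ (i + 1) = 3 / 4 * (3 / 4 : ℝ) ^ i := by rw [pow_succ]; ring
        rw [h3] at h1 hZ
        push_cast
        linarith
  obtain ⟨Ω, fΩ, nΩ, A, Ξ, Z, hΞ1, hΞ2, hA, hZ, hphi, -⟩ := key L le_rfl
  have hfin := height_budget hr hrk hbig le_rfl
    (by rw [Nat.sub_self, pow_zero]; linarith [(threeQuarter_mem L).1]) hZ
  refine ⟨Ω, fΩ, nΩ, A, Ξ, hΞ1, hΞ2.trans (Nat.pow_le_pow_right two_pos (by omega)),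
    fun w => ⟨(hA w).1.trans_le (Nat.pow_le_pow_right two_pos hfin), (hA w).2⟩, ?_⟩
  intro g hg hgX
  rw [Nat.sub_self, cExp_zero] at hphi
  refine (hphi g (le_trans (le_of_eq ?_) hg) hgX).trans ?_
  · rw [rangeLow, pow_zero, pow_succ]; congr 1; field_simp; ring
  · exact mul_le_mul_of_nonneg_right
      (Real.rpow_le_rpow_of_exponent_le one_le_two (slack_le hr hrk)) (by positivity)

end Vale.Agent.P012
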