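import Vale.Agent.P012.LowColl
import Vale.Agent.P012.Covering
import Vale.Agent.P012.PrimeAvg

/-!
The jump: one modulus of almost full size.
-/

namespace Vale.Agent.P012

open Finset

attribute [local irreducible] gCopies

lemma eventually_poly_le (c n d : ℕ) (hd : 1 ≤ d) :
    ∃ k0 : ℕ, ∀ k ≥ k0, c * k ^ n ≤ 2 ^ (k / d) := by
  have h := tendsto_pow_const_div_const_pow_of_one_lt n (show (1 : ℝ) < 2 by norm_num)
  set K : ℕ := c * (2 * d) ^ n with hK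
  have hpos : (0 : ℝ) < 1 / ((K : ℝ) + 1) := by positivity
  obtain ⟨m0, hm0⟩ := Filter.eventually_atTop.1 (h.eventually (eventually_lt_nhds hpos))
  refine ⟨d * (m0 + 1), fun k hk => ?_⟩
  set m := k / d with hm
  have hm1 : m0 + 1 ≤ m := (Nat.le_div_iff_mul_le hd).2 (by rw [mul_comm]; exact hk)
  have h1 : k ≤ 2 * d * m := by
    have h2 := (Nat.lt_mul_div_succ k hd).le
    rw [← hm, mul_add, mul_one] at h2
    have h3 : d ≤ d * m := Nat.le_mul_of_pos_right _ (by omega)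
    rw [mul_assoc]
    omega
  have h4 := hm0 m (by omega)
  rw [div_lt_div_iff₀ (by positivity) (by positivity), one_mul] at h4
  have h5 : (K : ℝ) * (m : ℝ) ^ n ≤ (2 : ℝ) ^ m := by
    have h7 : (K : ℝ) * (m : ℝ) ^ n ≤ (m : ℝ) ^ n * ((K : ℝ) + 1) := by
      rw [mul_add, mul_one, mul_comm]
      exact le_add_of_nonneg_right (by positivity)
    linarith
  calc c * k ^ n ≤ c * (2 * d * m) ^ n := Nat.mul_le_mul_left _ (Nat.pow_le_pow_left h1 n)
    _ = K * m ^ n := by rw [hK, mul_pow (2 * d) m]; ring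
    _ ≤ 2 ^ m := by exact_mod_cast h5

/-- The condition of the congruence families. -/
lemma big_condition : ∃ k0 : ℕ, ∀ k ≥ k0, ∀ r, 2 ^ 16 * r ≤ k →
    16 * (k + 1) * (k * (2 ^ (k / 2) + 1) + 14) ≤ 2 * k * 2 ^ (k - r) := by
  obtain ⟨k0, hk0⟩ := eventually_poly_le 512 2 4 (by norm_num)
  refine ⟨k0 + 1, fun k hk r hr => ?_⟩
  have h := hk0 k (by omega)
  have h1 : k * (2 ^ (k / 2) + 1) + 14 ≤ 16 * k * 2 ^ (k / 2) := by
    have h2 : 1 ≤ 2 ^ (k / 2) := Nat.one_le_two_pow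
    have h3 : k ≤ k * 2 ^ (k / 2) := Nat.le_mul_of_pos_right _ h2
    rw [mul_add, mul_one, mul_assoc]
    omega
  calc 16 * (k + 1) * (k * (2 ^ (k / 2) + 1) + 14)
      ≤ 16 * (2 * k) * (16 * k * 2 ^ (k / 2)) := by gcongr; omega
    _ = 512 * k ^ 2 * 2 ^ (k / 2) := by ring
    _ ≤ 2 ^ (k / 4) * 2 ^ (k / 2) := Nat.mul_le_mul_right _ h
    _ ≤ 2 ^ (k - r) := by
        rw [← pow_add]; exact Nat.pow_le_pow_right two_pos (by omega)
    _ ≤ 2 * k * 2 ^ (k - r) := Nat.le_mul_of_pos_left _ (by omega)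

/-- The defect is small beside the entropy of the short family. -/
lemma colD_small : ∃ k0 : ℕ, ∀ k ≥ k0,
    2 * (colD k + 1) ≤ (((k / 2 ^ 18) * 2 ^ (k - k / 2 ^ 18) : ℕ) : ℝ) := by
  obtain ⟨k0, hk0⟩ := eventually_poly_le (2 * (4 + 10 * gCopies + 500 + 1)) 3 (2 ^ 17) (by norm_num)
  refine ⟨k0 + 2 ^ 20, fun k hk => ?_⟩
  have hk20 : 2 ^ 20 ≤ k := le_trans (Nat.le_add_left _ _) hk
  obtain ⟨-, hM, -, -⟩ := gCount_spec (show 2 ^ 16 * 6 ≤ k by omega)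
  have hR : k / 2 ^ 16 ≤ 6 * 2 ^ gCount k := Nat.div_le_of_le_mul hM.le
  set e := k - k / 2 ^ 16 with he
  have hk1 : (1 : ℝ) ≤ k := by exact_mod_cast (show 1 ≤ k by omega)
  have hk13 : (k : ℝ) ≤ (k : ℝ) ^ 3 := le_self_pow₀ hk1 (by norm_num)
  have hp : (1 : ℝ) ≤ (2 : ℝ) ^ e := one_le_pow₀ one_le_two
  have hhalf : (2 : ℝ) ^ (k / 2) ≤ (2 : ℝ) ^ e := pow_le_pow_right₀ one_le_two (by omega)
  have hk3 : (0 : ℝ) ≤ (k : ℝ) ^ 3 := by positivity
  have hk3e : (k : ℝ) ^ 3 ≤ (k : ℝ) ^ 3 * (2 : ℝ) ^ e := le_mul_of_one_le_right hk3 hp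
  have hg : (gTop k (gCount k) : ℝ) ≤ 4 * (k : ℝ) ^ 3 * (2 : ℝ) ^ e := by
    have h1 : gTop k (gCount k) ≤ 4 * k * 2 ^ e :=
      Nat.mul_le_mul_left _ (Nat.pow_le_pow_right two_pos (by omega))
    calc (gTop k (gCount k) : ℝ) ≤ ((4 * k * 2 ^ e : ℕ) : ℝ) := by exact_mod_cast h1
      _ ≤ _ := by push_cast; gcongr
  have hG0 : (0 : ℝ) ≤ (gCopies : ℝ) := Nat.cast_nonneg _
  have hG1 : (1 : ℝ) ≤ (gCopies : ℝ) := by
    have : gCopies = 3145728 := by unfold gCopies; norm_num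
    rw [this]; norm_num
  have hl : (k : ℝ) * gLoss k ≤ 10 * (gCopies : ℝ) * ((k : ℝ) ^ 3 * (2 : ℝ) ^ e) := by
    unfold gLoss gSlack
    calc (k : ℝ) * ((gCopies : ℝ) * (8 * (k : ℝ) ^ 2 * (2 : ℝ) ^ (k / 2) + 1) + 1)
        = 8 * (gCopies : ℝ) * ((k : ℝ) ^ 3 * (2 : ℝ) ^ (k / 2)) + ((gCopies : ℝ) + 1) * (k : ℝ) := by
          ring
      _ ≤ 8 * (gCopies : ℝ) * ((k : ℝ) ^ 3 * (2 : ℝ) ^ e) +
            (2 * (gCopies : ℝ)) * ((k : ℝ) ^ 3 * (2 : ℝ) ^ e) :=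
          add_le_add (mul_le_mul_of_nonneg_left (mul_le_mul_of_nonneg_left hhalf hk3) (by positivity))
            (mul_le_mul (by linarith) (hk13.trans hk3e) (by linarith) (by positivity))
      _ = _ := by ring
  have hmain : 2 * (colD k + 1) ≤
      ((2 * (4 + 10 * gCopies + 500 + 1) * k ^ 3 * 2 ^ e : ℕ) : ℝ) := by
    unfold colD
    push_cast
    linarith
  refine hmain.trans (Nat.cast_le.2 ?_)
  calc 2 * (4 + 10 * gCopies + 500 + 1) * k ^ 3 * 2 ^ e ≤ 2 ^ (k / 2 ^ 17) * 2 ^ e :=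
        Nat.mul_le_mul_right _ (hk0 k (by omega))
    _ ≤ 2 ^ (k - k / 2 ^ 18) := by
        rw [← pow_add]; exact Nat.pow_le_pow_right two_pos (by omega)
    _ ≤ _ := Nat.le_mul_of_pos_left _ (Nat.div_pos (by omega) (by norm_num))

/-- Residues of a family with few coincidences form a large set. -/
lemma card_residues_ge {Ω : Type*} [Fintype Ω] [Nonempty Ω] (A : Ω → ℕ) {p : ℕ} [NeZero p] {B : ℝ}
    (h : phi A p ≤ B) (hB : 0 < B) :
    1 / B ≤ (((univ : Finset Ω).image fun w => (A w : ZMod p)).card : ℝ) := by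
  classical
  have h1 := one_le_card_image_mul_prb (fun w => (A w : ZMod p))
  have h2 : prb (fun w : Ω × Ω => (A w.1 : ZMod p) = (A w.2 : ZMod p)) ≤ phi A p := by
    refine prb_mono fun w hw => ?_
    rw [← ZMod.intCast_zmod_eq_zero_iff_dvd, dif]
    push_cast
    rw [hw, sub_self]
  rw [div_le_iff₀ hB]
  exact h1.trans (mul_le_mul_of_nonneg_left (h2.trans h) (Nat.cast_nonneg _))

/-- The short family stays injective modulo a large prime. -/
lemma card_short_residues {k j r P : ℕ} (hk : 8 ≤ k) (hjs : j * 2 ^ r ≤ 2 ^ k) [NeZero P]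
    (hP : 2 ^ (2 * k * j) < P) :
    ((univ : Finset (Fin j → Fin (2 ^ r))).image fun f => (dProd k j (2 ^ r) f : ZMod P)).card =
      2 ^ (r * j) := by
  rw [Finset.card_image_of_injective, Finset.card_univ, Fintype.card_fun, Fintype.card_fin,
    Fintype.card_fin, ← pow_mul]
  intro f g hfg
  refine dProd_injective k j (2 ^ r) ?_
  simp only [ZMod.natCast_eq_natCast_iff', Nat.mod_eq_of_lt ((dProd_le hk hjs f).trans_lt hP),
    Nat.mod_eq_of_lt ((dProd_le hk hjs g).trans_lt hP)] at hfg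
  exact hfg

/-- The numerical condition of the covering. -/
lemma jump_hyp {a u v P : ℝ} {X D E : ℝ} (hP : 0 < P) (hP2 : P ≤ (2 : ℝ) ^ (2 * X))
    (ha : (2 : ℝ) ^ (2 * X - D - 1) ≤ a) (hu : u = a) (hv : v = (2 : ℝ) ^ E)
    (hE : 2 * (D + 1) ≤ E) (hD : 0 ≤ D) :
    P ^ 2 * (P / (u * v)) ^ 3 < a ^ 2 := by
  have ha0 : 0 < a := lt_of_lt_of_le (by positivity) ha
  subst hu hv
  have h1 : P / (u * (2 : ℝ) ^ E) ≤ (2 : ℝ) ^ (D + 1 - E) := by
    rw [div_le_iff₀ (by positivity)]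
    calc P ≤ (2 : ℝ) ^ (2 * X) := hP2
      _ = (2 : ℝ) ^ (D + 1 - E) * ((2 : ℝ) ^ (2 * X - D - 1) * (2 : ℝ) ^ E) := by
          rw [← Real.rpow_add two_pos, ← Real.rpow_add two_pos]; ring_nf
      _ ≤ _ := by gcongr
  calc P ^ 2 * (P / (u * (2 : ℝ) ^ E)) ^ 3
      ≤ ((2 : ℝ) ^ (2 * X)) ^ 2 * ((2 : ℝ) ^ (D + 1 - E)) ^ 3 := by gcongr
    _ < ((2 : ℝ) ^ (2 * X - D - 1)) ^ 2 := by
        rw [← Real.rpow_mul_natCast two_pos.le, ← Real.rpow_mul_natCast two_pos.le,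
          ← Real.rpow_mul_natCast two_pos.le, ← Real.rpow_add two_pos]
        refine Real.rpow_lt_rpow_of_exponent_lt one_lt_two ?_
        push_cast
        linarith
    _ ≤ u ^ 2 := by gcongr

/-- Five sums from a covering. -/
lemma jump_rep {P Z jw T N M : ℕ} [Fact P.Prime] {Ω Θ : Type} [Fintype Ω] [Fintype Θ] [Nonempty Ω]
    [Nonempty Θ] (A : Ω → ℕ) (B : Θ → ℕ) (hA : ∀ w, A w < 2 ^ Z ∧ Rep (N * M) T (A w))
    (hB : ∀ f, B f ≤ 2 ^ jw ∧ B f ∣ M)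
    (hyp : (P : ℝ) ^ 2 * ((P : ℝ) /
      ((((univ : Finset Ω).image fun w => (A w : ZMod P)).card : ℝ) *
        (((univ : Finset Θ).image fun f => (B f : ZMod P)).card : ℝ))) ^ 3 <
      (((univ : Finset Ω).image fun w => (A w : ZMod P)).card : ℝ) ^ 2)
    (x : ℕ) (hx : 2 ^ (Z + jw + 3) ≤ x) :
    ∃ s y, x = s + P * y ∧ s < 2 ^ (Z + jw + 3) ∧ Rep (M * (N * M)) (5 * T) s := by
  classical
  obtain ⟨a1, ha1, a2, ha2, f, hf, hsum⟩ := covering ((univ : Finset Ω).image fun w => (A w : ZMod P))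
    ((univ : Finset Ω).image fun w => (A w : ZMod P)) ((univ : Finset Θ).image fun f => (B f : ZMod P))
    (Finset.univ_nonempty.image _) (Finset.univ_nonempty.image _) 3 (x : ZMod P) hyp
  simp only [Finset.mem_image, Finset.mem_univ, true_and] at ha1 ha2 hf
  obtain ⟨w1, rfl⟩ := ha1
  obtain ⟨w2, rfl⟩ := ha2
  choose u hu using fun t => (hf t).1
  choose v hv using fun t => (hf t).2
  set s := A w1 + A w2 + ∑ t, B (v t) * A (u t) with hs
  have hcast : (x : ZMod P) = (s : ZMod P) := by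
    rw [hsum, hs]
    push_cast
    congr 1
    refine Finset.sum_congr rfl fun t _ => ?_
    rw [← hu t, ← hv t, mul_comm]
  have hlt : s < 2 ^ (Z + jw + 3) := by
    have h1 : ∑ t, B (v t) * A (u t) ≤ ∑ _t : Fin 3, 2 ^ jw * 2 ^ Z :=
      Finset.sum_le_sum fun t _ => Nat.mul_le_mul (hB _).1 (hA _).1.le
    rw [Finset.sum_const, Finset.card_univ, Fintype.card_fin, smul_eq_mul] at h1
    have h2 := (hA w1).1
    have h3 := (hA w2).1
    have h4 : 2 ^ Z ≤ 2 ^ jw * 2 ^ Z := Nat.le_mul_of_pos_left _ (Nat.two_pow_pos _)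
    have h5 : 2 ^ (Z + jw + 3) = 8 * (2 ^ jw * 2 ^ Z) := by rw [pow_add, pow_add]; ring
    omega
  have hsx : s ≤ x := hlt.le.trans hx
  obtain ⟨y, hy⟩ : P ∣ x - s := (ZMod.natCast_eq_zero_iff _ _).1 (by
    rw [Nat.cast_sub hsx, hcast, sub_self] : ((x - s : ℕ) : ZMod P) = 0)
  refine ⟨s, y, by omega, hlt, ?_⟩
  rw [show 5 * T = T + T + 3 * T by ring]
  refine ((hA w1).2.mono (dvd_mul_left _ _) le_rfl).add ((hA w2).2.mono (dvd_mul_left _ _) le_rfl)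
    |>.add ?_
  have h9 := Rep.sum (Finset.univ : Finset (Fin 3)) (N := M * (N * M)) (T := T)
    (f := fun t => B (v t) * A (u t)) fun t _ => (hA (u t)).2.mul (hB (v t)).2
  rwa [Finset.card_univ, Fintype.card_fin] at h9

/-- The jump. -/
lemma exists_jump : ∃ C k0 : ℕ, ∀ k ≥ k0, ∃ P N : ℕ,
    1 ≤ P ∧ P ≤ 2 ^ (2 * (4 * k * 2 ^ (k - 6))) ∧
    2 ^ (2 * (4 * k * 2 ^ (k - 6))) ≤ 2 ^ (2 * k) * P ∧
    1 ≤ N ∧ N ≤ 2 ^ (C * k * 2 ^ k) ∧
    ∀ x, 2 ^ (2 * (4 * k * 2 ^ (k - 6)) + 2 * k + 2 * k * 2 ^ (k - k / 2 ^ 18) + 3) ≤ x →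
      ∃ s y, x = s + P * y ∧
        s < 2 ^ (2 * (4 * k * 2 ^ (k - 6)) + 2 * k + 2 * k * 2 ^ (k - k / 2 ^ 18) + 3) ∧
        Rep N (C * k) s := by
  obtain ⟨k1, hk1⟩ := big_condition
  obtain ⟨k2, hk2⟩ := colD_small
  refine ⟨5 * (gCopies + 64) + (2 * gCopies + 69) + 4, k1 + k2 + 2 ^ 24, fun k hk => ?_⟩
  have hk24 : 2 ^ 24 ≤ k := le_trans (Nat.le_add_left _ _) hk
  obtain ⟨Ω, fΩ, nΩ, A, N, hN1, hN2, hA, hcoll⟩ :=
    exists_low_collision (show 2 ^ 16 * 6 ≤ k by omega) (hk1 k (by omega))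
  have hE := hk2 k (by omega)
  set rB := k / 2 ^ 18 with hrB
  set j := 2 ^ (k - rB) with hj
  set X := 4 * k * 2 ^ (k - 6) with hX
  set Z := 2 * X + 2 * k with hZ
  set D := colD k with hD
  have hpow : k < 2 ^ k := Nat.lt_two_pow_self
  have hX1 : 16 * k ≤ X := by
    rw [hX]
    calc 16 * k = 4 * k * 2 ^ 2 := by ring
      _ ≤ _ := Nat.mul_le_mul_left _ (Nat.pow_le_pow_right two_pos (by omega))
  have hXk : X ≤ k * 2 ^ k := by
    rw [hX, mul_comm 4 k, mul_assoc]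
    refine Nat.mul_le_mul_left _ ?_
    rw [show 4 = 2 ^ 2 by norm_num, ← pow_add]
    exact Nat.pow_le_pow_right two_pos (by omega)
  have hX3 : 12 * Z ≤ 2 ^ (3 * k) := by
    calc 12 * Z ≤ 36 * (k * 2 ^ k) := by omega
      _ ≤ 2 ^ k * (2 ^ k * 2 ^ k) := Nat.mul_le_mul (by omega) (Nat.mul_le_mul_right _ hpow.le)
      _ = _ := by rw [← pow_add, ← pow_add]; congr 1; omega
  obtain ⟨P, hPp, hP2, hP8, hPhalf, hphi⟩ :=
    exists_prime_phi_le A (l := 2 * X) (by omega) (fun w => (hA w).1)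
  have : Fact P.Prime := ⟨hPp⟩
  have : NeZero P := ⟨hPp.ne_zero⟩
  have hD3 : 500 * (k : ℝ) ^ 3 ≤ D := by
    rw [hD]; unfold colD gLoss gSlack
    exact le_add_of_nonneg_left (by positivity)
  have hkR : (1 : ℝ) ≤ k := by exact_mod_cast (show 1 ≤ k by omega)
  have hD0 : (3 : ℝ) * k ≤ D := by
    have : (k : ℝ) ≤ (k : ℝ) ^ 3 := le_self_pow₀ hkR (by norm_num)
    linarith
  -- coincidences modulo the prime
  have hphi' : phi A P ≤ (2 : ℝ) ^ (D + 1 - 2 * (X : ℝ)) := by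
    refine hphi.trans ?_
    have h1 : 12 * (Z : ℝ) / (2 : ℝ) ^ (2 * X) ≤ (2 : ℝ) ^ (D - 2 * (X : ℝ)) := by
      rw [Real.rpow_sub two_pos, show (2 * (X : ℝ)) = ((2 * X : ℕ) : ℝ) by push_cast; rfl,
        Real.rpow_natCast]
      refine div_le_div_of_nonneg_right ?_ (by positivity)
      calc 12 * (Z : ℝ) ≤ (2 : ℝ) ^ ((3 * k : ℕ) : ℝ) := by
            rw [Real.rpow_natCast]; exact_mod_cast hX3
        _ ≤ (2 : ℝ) ^ D := Real.rpow_le_rpow_of_exponent_le one_le_two (by push_cast; exact hD0)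
    refine (add_le_add hcoll h1).trans (le_of_eq ?_)
    rw [show D + 1 - 2 * (X : ℝ) = (D - 2 * (X : ℝ)) + 1 by ring, Real.rpow_add two_pos,
      Real.rpow_one]
    ring
  have hcardA := card_residues_ge A hphi' (by positivity)
  rw [one_div, ← Real.rpow_neg two_pos.le, neg_sub] at hcardA
  have hjs : j * 2 ^ rB ≤ 2 ^ k := by rw [hj, ← pow_add, Nat.sub_add_cancel (by omega)]
  have hjX : 2 * k * j < X := by
    rw [hj, hX, show 4 * k = 2 * k * 2 by ring, mul_assoc (2 * k) 2, ← pow_succ']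
    exact Nat.mul_lt_mul_of_pos_left (Nat.pow_lt_pow_right one_lt_two (by omega)) (by omega)
  have hPbig : 2 ^ (2 * k * j) < P :=
    lt_of_lt_of_le (Nat.pow_lt_pow_right one_lt_two (by omega)) hPhalf
  have hcardB := card_short_residues (show 8 ≤ k by omega) hjs hPbig
  have hstep := jump_rep (P := P) (Z := Z) (jw := 2 * k * j) A (dProd k j (2 ^ rB)) hA
    (fun f => ⟨dProd_le (by omega) hjs f, dProd_dvd_poolProd hjs f⟩) (by
      refine jump_hyp (X := (X : ℝ)) (D := D) (E := ((rB * j : ℕ) : ℝ))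
        (by exact_mod_cast hPp.pos) ?_ (le_trans (le_of_eq ?_) hcardA) rfl ?_ hE (by linarith)
      · rw [show (2 * (X : ℝ)) = ((2 * X : ℕ) : ℝ) by push_cast; rfl, Real.rpow_natCast]
        exact_mod_cast hP2
      · congr 1; ring
      · rw [Real.rpow_natCast]; exact_mod_cast hcardB)
  refine ⟨P, poolProd k * (N * poolProd k), hPp.one_le, hP2, ?_,
    Nat.mul_pos (poolProd_pos k) (Nat.mul_pos hN1 (poolProd_pos k)), ?_, fun x hx => ?_⟩
  · refine hP8.trans (Nat.mul_le_mul_right _ ?_)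
    calc 8 * (2 * X) ≤ 2 ^ 4 * (2 ^ (k - 4) * 2 ^ k) := by
          rw [show 8 * (2 * X) = 2 ^ 4 * X by ring]
          refine Nat.mul_le_mul_left _ ?_
          rw [hX, ← pow_add, show k - 4 + k = (k + 2) + (k - 6) by omega, pow_add]
          exact Nat.mul_le_mul_right _ (by rw [pow_add]; omega)
      _ = 2 ^ (2 * k) := by rw [← pow_add, ← pow_add]; congr 1; omega
  · have hpool := poolProd_le (show 8 ≤ k by omega)
    refine (Nat.mul_le_mul hpool (Nat.mul_le_mul hN2 hpool)).trans ?_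
    rw [← pow_add, ← pow_add]
    refine Nat.pow_le_pow_right two_pos ?_
    have h1 : (2 * gCopies + 69) * X ≤ (2 * gCopies + 69) * (k * 2 ^ k) := Nat.mul_le_mul_left _ hXk
    have h2 : 0 ≤ 5 * (gCopies + 64) * (k * 2 ^ k) := Nat.zero_le _
    linarith
  · obtain ⟨s, y, h1, h2, h3⟩ := hstep x hx
    refine ⟨s, y, h1, h2, h3.mono dvd_rfl ?_⟩
    rw [← mul_assoc]
    exact Nat.mul_le_mul_right _ (by omega)

end Vale.Agent.P012
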