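import Vale.Agent.P012.Spread
import Mathlib.Logic.Equiv.Fin.Basic
import Mathlib.Analysis.SpecialFunctions.Pow.Real

/-!
The last group of copies kills exact coincidences.
-/

namespace Vale.Agent.P012

open Finset

variable {Φ Ψ Ω : Type*} [Fintype Φ] [Fintype Ψ] [Fintype Ω]

/-- Multipliers with one coordinate determined by the others. -/
lemma prb_sum_eq_zero_le {T Q h : ℕ} (Δ : Fin T → ℤ) (t : Fin T) (ht : Δ t ≠ 0) (hh : h = (Δ t).natAbs)
    (r : ℤ) :
    prb (fun q : Fin T → Fin Q => ∑ i, (((q i : ℕ) : ℤ) + 1) * Δ i + r = 0) ≤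
      1 / (Q : ℝ) * prb (fun o : {i // i ≠ t} → Fin Q =>
        (h : ℤ) ∣ (∑ i, (((o i : ℕ) : ℤ) + 1) * Δ i.1) + r) := by
  classical
  rw [← prb_equiv_left (Equiv.funSplitAt t (Fin Q)).symm, prb_prod_swap, prb_prod_eq,
    prb_eq_sum (Ω := {i // i ≠ t} → Fin Q), ← mul_div_assoc, Finset.mul_sum]
  refine div_le_div_of_nonneg_right (Finset.sum_le_sum fun o _ => ?_) (Nat.cast_nonneg _)
  have hsum : ∀ x : Fin Q,
      ∑ i, ((((Equiv.funSplitAt t (Fin Q)).symm (x, o) i : Fin Q) : ℕ) + 1 : ℤ) * Δ i =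
        (∑ i : {i // i ≠ t}, (((o i : ℕ) : ℤ) + 1) * Δ i.1) + (((x : ℕ) : ℤ) + 1) * Δ t := by
    intro x
    rw [Fintype.sum_eq_add_sum_subtype_ne _ t, add_comm]
    congr 1
    · refine Finset.sum_congr rfl fun i _ => ?_
      simp [Equiv.funSplitAt, Equiv.piSplitAt, i.2]
    · simp [Equiv.funSplitAt, Equiv.piSplitAt]
  simp only [hsum]
  rw [prb_eq, Fintype.card_fin]
  generalize (∑ i : {i // i ≠ t}, (((o i : ℕ) : ℤ) + 1) * Δ i.1) = s
  by_cases hd : (h : ℤ) ∣ s + r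
  · rw [if_pos hd, mul_one]
    refine div_le_div_of_nonneg_right ?_ (Nat.cast_nonneg _)
    have : (univ.filter fun q : Fin Q => s + (((q : ℕ) : ℤ) + 1) * Δ t + r = 0).card ≤ 1 := by
      rw [Finset.card_le_one]
      intro q hq q' hq'
      simp only [Finset.mem_filter, mem_univ, true_and] at hq hq'
      have h2 : (((q : ℕ) : ℤ) + 1) * Δ t = (((q' : ℕ) : ℤ) + 1) * Δ t := by linarith
      have := mul_right_cancel₀ ht h2
      exact Fin.ext (by omega)
    exact_mod_cast this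
  · rw [if_neg hd, mul_zero, Finset.filter_false_of_mem]
    · simp
    · intro q _ hq
      apply hd
      have h3 : (h : ℤ) ∣ (((q : ℕ) : ℤ) + 1) * Δ t := by
        rw [hh]
        exact (Int.natAbs_dvd.2 dvd_rfl).mul_left _
      rw [show s + r = -((((q : ℕ) : ℤ) + 1) * Δ t) by linarith]
      exact h3.neg_right

/-- Multipliers giving an exact coincidence, for fixed differences with one of them nonzero. -/
lemma prb_zero_le {T Q X : ℕ} {C : ℝ} (Fam : Φ → Ψ → ℕ) (hF : Spread Fam X C) (hC : 0 ≤ C)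
    (Δ : Fin T → ℤ) (t : Fin T) (ht : Δ t ≠ 0) (hX : (Δ t).natAbs ≤ 2 ^ X) :
    prb (fun y : (Φ × (Ψ × Ψ)) × (Fin T → Fin Q) =>
        ∑ i, (((y.2 i : ℕ) : ℤ) + 1) * Δ i + dif (Fam y.1.1) y.1.2 = 0) ≤
      C / ((Q : ℝ) * |(Δ t : ℝ)|) := by
  classical
  have hh1 : 1 ≤ (Δ t).natAbs := Int.natAbs_pos.2 ht
  generalize hR : (fun z : Φ × (Ψ × Ψ) => dif (Fam z.1) z.2) = R
  have hRz : ∀ z : Φ × (Ψ × Ψ), dif (Fam z.1) z.2 = R z := fun z => congrFun hR z
  simp only [hRz]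
  have h1 : prb (fun y : (Φ × (Ψ × Ψ)) × (Fin T → Fin Q) =>
      ∑ i, (((y.2 i : ℕ) : ℤ) + 1) * Δ i + R y.1 = 0) ≤ 1 / (Q : ℝ) *
        prb (fun y : (Φ × (Ψ × Ψ)) × ({i // i ≠ t} → Fin Q) =>
          ((Δ t).natAbs : ℤ) ∣ (∑ i, (((y.2 i : ℕ) : ℤ) + 1) * Δ i.1) + R y.1) := by
    rw [prb_prod_eq, prb_prod_eq (Ω := Φ × (Ψ × Ψ)) (Ω' := {i // i ≠ t} → Fin Q),
      ← mul_div_assoc, Finset.mul_sum]
    exact div_le_div_of_nonneg_right
      (Finset.sum_le_sum fun z _ => prb_sum_eq_zero_le Δ t ht rfl (R z))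
      (Nat.cast_nonneg _)
  have h2 : prb (fun y : (Φ × (Ψ × Ψ)) × ({i // i ≠ t} → Fin Q) =>
      ((Δ t).natAbs : ℤ) ∣ (∑ i, (((y.2 i : ℕ) : ℤ) + 1) * Δ i.1) + R y.1) ≤
        C / ((Δ t).natAbs : ℝ) := by
    rw [prb_prod_swap]
    refine prb_prod_le (fun o => ?_) (by positivity)
    have h3 := hF (Δ t).natAbs hh1 hX (∑ i : {i // i ≠ t}, (((o i : ℕ) : ℤ) + 1) * Δ i.1)
    simp only [hRz] at h3
    exact h3
  refine h1.trans ((mul_le_mul_of_nonneg_left h2 (by positivity)).trans (le_of_eq ?_))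
  rw [Nat.cast_natAbs]
  push_cast
  field_simp

/-- Weighted sum over the dyadic levels of the largest difference. -/
lemma prb_last_le [Nonempty Ω] {T Q X : ℕ} {C : ℝ} (G : Ω → ℕ) (Fam : Φ → Ψ → ℕ)
    (hF : Spread Fam X C) (hC : 0 ≤ C) (hQ : 1 ≤ Q) (hG : ∀ w, G w < 2 ^ X) (top H : ℕ) :
    prb (fun z : ((Fin T → Fin Q) × Φ) × (((Fin T → Ω) × Ψ) × ((Fin T → Ω) × Ψ)) =>
        dif (addCopies G Fam Q z.1) z.2 = 0) ≤
      near G (2 ^ (top - H)) ^ T + ∑ η ∈ Finset.range (H + 1),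
        C / ((Q : ℝ) * (2 : ℝ) ^ (top - η)) *
          (if η = 0 then 1 else near G (2 ^ (top - (η - 1))) ^ T) := by
  classical
  rw [← prb_equiv_left (copiesEquiv T Q Φ Ψ Ω)]
  set W := Fin T → Ω × Ω with hW
  have hWpos : (0 : ℝ) < Fintype.card W := by exact_mod_cast Fintype.card_pos
  -- indicator that all differences are short
  set I : ℕ → W → ℝ := fun a w => if ∀ t, |dif G (w t)| ≤ ((2 ^ a : ℕ) : ℤ) then 1 else 0 with hI
  have hI0 : ∀ a w, 0 ≤ I a w := fun a w => by simp only [hI]; split_ifs <;> norm_num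
  set J : ℕ → W → ℝ := fun η w => if η = 0 then 1 else I (top - (η - 1)) w with hJ
  have hJ0 : ∀ η w, 0 ≤ J η w := fun η w => by
    simp only [hJ]; split_ifs
    · norm_num
    · exact hI0 _ _
  set wt : ℕ → ℝ := fun η => C / ((Q : ℝ) * (2 : ℝ) ^ (top - η)) with hwt
  have hwt0 : ∀ η, 0 ≤ wt η := fun η => by simp only [hwt]; positivity
  have hpt : ∀ w : W, prb (fun y : (Φ × (Ψ × Ψ)) × (Fin T → Fin Q) =>
      dif (addCopies G Fam Q (copiesEquiv T Q Φ Ψ Ω (w, y)).1)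
        (copiesEquiv T Q Φ Ψ Ω (w, y)).2 = 0) ≤
      I (top - H) w + ∑ η ∈ Finset.range (H + 1), wt η * J η w := by
    intro w
    have hs : 0 ≤ ∑ η ∈ Finset.range (H + 1), wt η * J η w :=
      Finset.sum_nonneg fun η _ => mul_nonneg (hwt0 η) (hJ0 η w)
    by_cases hall : ∀ t, |dif G (w t)| ≤ ((2 ^ (top - H) : ℕ) : ℤ)
    · refine (prb_le_one _).trans ?_
      simp only [hI, if_pos hall]
      linarith
    · have hex : ∃ η, ¬ ∀ t, |dif G (w t)| ≤ ((2 ^ (top - η) : ℕ) : ℤ) := ⟨H, hall⟩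
      set η := Nat.find hex with hη
      have hηH : η ≤ H := Nat.find_le hall
      obtain ⟨t, ht⟩ := not_forall.1 (Nat.find_spec hex)
      rw [← hη, not_le] at ht
      have hJ1 : J η w = 1 := by
        simp only [hJ, hI]
        split_ifs with h0 h1
        · rfl
        · rfl
        · exact absurd (not_not.1 (Nat.find_min hex (show η - 1 < η by omega))) h1
      have hne : dif G (w t) ≠ 0 := by
        intro h0; rw [h0, abs_zero] at ht; exact absurd ht (not_lt.2 (by positivity))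
      have hlt : (dif G (w t)).natAbs ≤ 2 ^ X := by
        have h1 := hG (w t).1
        have h2 := hG (w t).2
        unfold dif
        omega
      have hbig : (2 : ℝ) ^ (top - η) ≤ |(dif G (w t) : ℝ)| := by
        have h3 : ((2 : ℤ) ^ (top - η)) ≤ |dif G (w t)| := by push_cast at ht; exact ht.le
        exact_mod_cast h3
      have hle : prb (fun y : (Φ × (Ψ × Ψ)) × (Fin T → Fin Q) =>
          dif (addCopies G Fam Q (copiesEquiv T Q Φ Ψ Ω (w, y)).1)
            (copiesEquiv T Q Φ Ψ Ω (w, y)).2 = 0) ≤ wt η * J η w := by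
        simp only [dif_addCopies]
        rw [hJ1, mul_one]
        have hQR : (0 : ℝ) < Q := by exact_mod_cast hQ
        refine (prb_zero_le Fam hF hC (fun i => dif G (w i)) t hne hlt).trans ?_
        simp only [hwt]
        gcongr
      refine hle.trans ?_
      have h5 := Finset.single_le_sum (f := fun η => wt η * J η w)
        (fun η _ => mul_nonneg (hwt0 η) (hJ0 η w))
        (Finset.mem_range.2 (show η < H + 1 by omega))
      linarith [hI0 (top - H) w, h5]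
  rw [prb_prod_eq]
  refine (div_le_div_of_nonneg_right (Finset.sum_le_sum fun w _ => hpt w) hWpos.le).trans
    (le_of_eq ?_)
  have hIs : ∀ a, (∑ w : W, I a w) / (Fintype.card W : ℝ) = near G (2 ^ a) ^ T := by
    intro a
    unfold near
    rw [← prb_pi_forall, prb_eq_sum]
  rw [Finset.sum_add_distrib, add_div, hIs, Finset.sum_comm, Finset.sum_div]
  congr 1
  refine Finset.sum_congr rfl fun η _ => ?_
  rw [← Finset.mul_sum, mul_div_assoc]
  congr 1
  simp only [hJ]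
  split_ifs
  · simp [hWpos.ne']
  · exact hIs _

end Vale.Agent.P012
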