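import Vale.Agent.P012.Branch

/-!
One doubling step for short distances.
-/

namespace Vale.Agent.P012

open Finset

variable {Ω : Type*} [Fintype Ω]

/-- Few multipliers keep `a + q b` in a short interval. -/
lemma card_interval_le {Q : ℕ} (a b : ℤ) (W : ℕ) (hb : b ≠ 0) :
    ((univ.filter fun q : Fin Q => |a + (((q : ℕ) : ℤ) + 1) * b| ≤ (W : ℤ)).card : ℝ) ≤
      2 * (W : ℝ) / |(b : ℝ)| + 1 := by
  classical
  set S := univ.filter fun q : Fin Q => |a + (((q : ℕ) : ℤ) + 1) * b| ≤ (W : ℤ) with hS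
  have hbR : (0 : ℝ) < |(b : ℝ)| := by positivity
  rcases S.eq_empty_or_nonempty with he | hne
  · rw [he]; simp only [Finset.card_empty, Nat.cast_zero]; positivity
  set lo := S.min' hne
  set hi := S.max' hne
  have hcard : S.card ≤ (hi : ℕ) - (lo : ℕ) + 1 := by
    calc S.card ≤ (Finset.Icc (lo : ℕ) (hi : ℕ)).card := by
          refine Finset.card_le_card_of_injOn (fun q => (q : ℕ)) ?_ (fun x _ y _ h => Fin.ext h)
          intro q hq
          simp only [Finset.coe_Icc, Set.mem_Icc]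
          exact ⟨Fin.le_def.1 (S.min'_le q hq), Fin.le_def.1 (S.le_max' q hq)⟩
      _ ≤ _ := by rw [Nat.card_Icc]; omega
  have h1 := (Finset.mem_filter.1 (S.min'_mem hne)).2
  have h2 := (Finset.mem_filter.1 (S.max'_mem hne)).2
  have hle : (lo : ℕ) ≤ (hi : ℕ) := Fin.le_def.1 (S.min'_le _ (S.max'_mem hne))
  have h3 : |(((hi : ℕ) : ℤ) - ((lo : ℕ) : ℤ)) * b| ≤ 2 * (W : ℤ) := by
    have := abs_sub (a + (((hi : ℕ) : ℤ) + 1) * b) (a + (((lo : ℕ) : ℤ) + 1) * b)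
    have e : a + (((hi : ℕ) : ℤ) + 1) * b - (a + (((lo : ℕ) : ℤ) + 1) * b) =
        (((hi : ℕ) : ℤ) - ((lo : ℕ) : ℤ)) * b := by ring
    rw [e] at this
    linarith
  have h4 : (((hi : ℕ) - (lo : ℕ) : ℕ) : ℝ) * |(b : ℝ)| ≤ 2 * (W : ℝ) := by
    have : |((((hi : ℕ) : ℤ) - ((lo : ℕ) : ℤ)) * b : ℤ)| ≤ ((2 * W : ℕ) : ℤ) := by
      push_cast; exact h3
    have h5 : |((((((hi : ℕ) : ℤ) - ((lo : ℕ) : ℤ)) * b : ℤ)) : ℝ)| ≤ ((2 * W : ℕ) : ℝ) := by
      exact_mod_cast this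
    push_cast at h5
    rw [abs_mul, abs_of_nonneg (sub_nonneg.2 (by exact_mod_cast hle))] at h5
    push_cast [Nat.cast_sub hle]
    exact h5
  have h6 : (S.card : ℝ) ≤ (((hi : ℕ) - (lo : ℕ) : ℕ) : ℝ) + 1 := by exact_mod_cast hcard
  have h7 : (((hi : ℕ) - (lo : ℕ) : ℕ) : ℝ) ≤ 2 * (W : ℝ) / |(b : ℝ)| := by
    rwa [le_div_iff₀ hbR]
  linarith

/-- Pointwise bound for the number of multipliers giving a short distance. -/
lemma card_near_multiplier_le {Z l η : ℕ} (hη : η ≤ Z) (hη0 : 1 ≤ η) (a b : ℤ) :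
    ((univ.filter fun q : Fin (2 ^ l) =>
      |(2 ^ l : ℤ) * a + (((q : ℕ) : ℤ) + 1) * b| ≤ ((2 ^ (Z + l - η) : ℕ) : ℤ)).card : ℝ) ≤
      (2 : ℝ) ^ l * (if |a| ≤ 2 * 2 ^ (Z - η) ∧ |b| ≤ 2 ^ (Z - η) then 1 else 0) +
      ∑ i ∈ Finset.range η, ((2 : ℝ) ^ (l + 2 + i) / 2 ^ η + 1) *
        (if i = 0 ∨ (|a| ≤ 2 * 2 ^ (Z - i) ∧ |b| ≤ 2 ^ (Z - i)) then 1 else 0) := by
  classical
  set S := univ.filter fun q : Fin (2 ^ l) =>
      |(2 ^ l : ℤ) * a + (((q : ℕ) : ℤ) + 1) * b| ≤ ((2 ^ (Z + l - η) : ℕ) : ℤ) with hS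
  have hsum0 : ∀ i ∈ Finset.range η, (0 : ℝ) ≤ ((2 : ℝ) ^ (l + 2 + i) / 2 ^ η + 1) *
      (if i = 0 ∨ (|a| ≤ 2 * 2 ^ (Z - i) ∧ |b| ≤ 2 ^ (Z - i)) then (1 : ℝ) else 0) :=
    fun i _ => by split_ifs <;> positivity
  rcases S.eq_empty_or_nonempty with he | ⟨q, hq⟩
  · rw [he]
    simp only [Finset.card_empty, Nat.cast_zero]
    exact add_nonneg (by split_ifs <;> positivity) (Finset.sum_nonneg hsum0)
  have hq' := (Finset.mem_filter.1 hq).2
  -- a bound on `a` from a bound on `b`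
  have hab : ∀ i ≤ η, |b| ≤ 2 ^ (Z - i) → |a| ≤ 2 * 2 ^ (Z - i) := by
    intro i hi hb
    have hWle : ((2 ^ (Z + l - η) : ℕ) : ℤ) ≤ (2 ^ l : ℤ) * 2 ^ (Z - i) := by
      rw [← pow_add]
      push_cast
      exact pow_le_pow_right₀ (by norm_num) (by omega)
    have hq1 : |(((q : ℕ) : ℤ) + 1) * b| ≤ (2 ^ l : ℤ) * 2 ^ (Z - i) := by
      rw [abs_mul, abs_of_nonneg (by positivity : (0 : ℤ) ≤ ((q : ℕ) : ℤ) + 1)]
      refine mul_le_mul ?_ hb (abs_nonneg _) (by positivity)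
      have := q.2
      exact_mod_cast this
    have h1 : |(2 ^ l : ℤ) * a| ≤ (2 ^ l : ℤ) * (2 * 2 ^ (Z - i)) := by
      calc |(2 ^ l : ℤ) * a| = |((2 ^ l : ℤ) * a + (((q : ℕ) : ℤ) + 1) * b) -
            (((q : ℕ) : ℤ) + 1) * b| := by ring_nf
        _ ≤ |(2 ^ l : ℤ) * a + (((q : ℕ) : ℤ) + 1) * b| + |(((q : ℕ) : ℤ) + 1) * b| :=
            abs_sub _ _
        _ ≤ (2 ^ l : ℤ) * 2 ^ (Z - i) + (2 ^ l : ℤ) * 2 ^ (Z - i) :=
            add_le_add (hq'.trans hWle) hq1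
        _ = _ := by ring
    rw [abs_mul, abs_of_nonneg (by positivity : (0 : ℤ) ≤ (2 ^ l : ℤ))] at h1
    exact le_of_mul_le_mul_left h1 (by positivity)
  by_cases hsmall : |b| ≤ 2 ^ (Z - η)
  · rw [if_pos ⟨hab η le_rfl hsmall, hsmall⟩, mul_one]
    have h1 : (S.card : ℝ) ≤ (2 : ℝ) ^ l := by
      have : S.card ≤ 2 ^ l := (Finset.card_le_univ _).trans (le_of_eq (Fintype.card_fin _))
      exact_mod_cast this
    linarith [Finset.sum_nonneg hsum0]
  · push Not at hsmall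
    have hex : ∃ i, (2 : ℤ) ^ (Z - (i + 1)) < |b| := ⟨η, lt_of_le_of_lt
      (pow_le_pow_right₀ (by norm_num) (by omega)) hsmall⟩
    set i := Nat.find hex with hi
    have hib := Nat.find_spec hex
    have hiη : i ≤ η := Nat.find_le (lt_of_le_of_lt
      (pow_le_pow_right₀ (by norm_num) (by omega)) hsmall)
    have hbpos : b ≠ 0 := by
      intro h0
      rw [h0, abs_zero] at hsmall
      exact absurd hsmall (not_lt.2 (by positivity))
    have hiη' : i < η := by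
      refine lt_of_le_of_lt (Nat.find_le (lt_of_le_of_lt
        (pow_le_pow_right₀ (by norm_num) ?_) hsmall) : i ≤ η - 1) (by omega)
      omega
    have hcond : i = 0 ∨ (|a| ≤ 2 * 2 ^ (Z - i) ∧ |b| ≤ 2 ^ (Z - i)) := by
      rcases Nat.eq_zero_or_pos i with h0 | h0
      · exact Or.inl h0
      · have h1 : |b| ≤ 2 ^ (Z - i) := by
          have := Nat.find_min hex (show i - 1 < i by omega)
          rw [not_lt, show i - 1 + 1 = i by omega] at this
          exact this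
        exact Or.inr ⟨hab i hiη h1, h1⟩
    have hterm : ((2 : ℝ) ^ (l + 2 + i) / 2 ^ η + 1) *
        (if i = 0 ∨ (|a| ≤ 2 * 2 ^ (Z - i) ∧ |b| ≤ 2 ^ (Z - i)) then (1 : ℝ) else 0) ≤
        ∑ i ∈ Finset.range η, ((2 : ℝ) ^ (l + 2 + i) / 2 ^ η + 1) *
          (if i = 0 ∨ (|a| ≤ 2 * 2 ^ (Z - i) ∧ |b| ≤ 2 ^ (Z - i)) then (1 : ℝ) else 0) :=
      Finset.single_le_sum hsum0 (Finset.mem_range.2 hiη')
    rw [if_pos hcond, mul_one] at hterm
    have h1 : (S.card : ℝ) ≤ (2 : ℝ) ^ (l + 2 + i) / 2 ^ η + 1 := by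
      refine (card_interval_le _ _ _ hbpos).trans (add_le_add ?_ le_rfl)
      have hbR : (2 : ℝ) ^ (Z - (i + 1)) ≤ |(b : ℝ)| := by
        have : ((2 : ℤ) ^ (Z - (i + 1)) : ℤ) ≤ |b| := hib.le
        exact_mod_cast this
      push_cast
      calc 2 * (2 : ℝ) ^ (Z + l - η) / |(b : ℝ)|
          ≤ 2 * (2 : ℝ) ^ (Z + l - η) / (2 : ℝ) ^ (Z - (i + 1)) := by gcongr
        _ = (2 : ℝ) ^ (l + 2 + i) / 2 ^ η := by
            rw [div_eq_div_iff (by positivity) (by positivity), ← pow_succ', ← pow_add, ← pow_add]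
            congr 1
            omega
    have h2 : (0 : ℝ) ≤ (2 : ℝ) ^ l *
        (if |a| ≤ 2 * 2 ^ (Z - η) ∧ |b| ≤ 2 ^ (Z - η) then (1 : ℝ) else 0) := by
      split_ifs <;> positivity
    linarith

/-- One doubling step for short distances. -/
lemma exists_good_real_multiplier [Nonempty Ω] (A : Ω → ℕ) {Z Z0 l lb : ℕ} {c S S' : ℝ}
    (hZ : Z0 ≤ Z) (hlb : Z0 + 1 ≤ 2 ^ lb) (hS : 0 ≤ S) (hc : 0 ≤ c) (hc4 : c ≤ 1 / 4)
    (hnear : ∀ η ≤ Z0, near A (2 ^ (Z - η)) ≤ (2 : ℝ) ^ (S - c * η))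
    (hl : 2 * c * Z0 ≤ l) (hS' : 2 * S + 2 * lb + 9 ≤ S') :
    ∃ q : ℕ, 1 ≤ q ∧ q ≤ 2 ^ l ∧
      ∀ η ≤ Z0, near (branch A (2 ^ l) q) (2 ^ (Z + l - η)) ≤ (2 : ℝ) ^ (S' - 2 * c * η) := by
  classical
  set Q := 2 ^ l with hQ
  have : Nonempty (Fin Q) := ⟨⟨0, Nat.two_pow_pos l⟩⟩
  -- one copy with relaxed scale
  have hrel : ∀ i ≤ Z0, prb (fun w : (Ω × Ω) × (Ω × Ω) =>
      i = 0 ∨ (|dif A w.1| ≤ 2 * 2 ^ (Z - i) ∧ |dif A w.2| ≤ 2 ^ (Z - i))) ≤
      (2 : ℝ) ^ (2 * S + 1 - 2 * c * i) := by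
    intro i hi
    rcases Nat.eq_zero_or_pos i with h0 | h0
    · refine (prb_le_one _).trans (Real.one_le_rpow one_le_two ?_)
      subst h0
      push_cast
      linarith
    · refine (prb_mono (Q := fun w => (|dif A w.1| ≤ ((2 ^ (Z - (i - 1)) : ℕ) : ℤ)) ∧
        (|dif A w.2| ≤ ((2 ^ (Z - i) : ℕ) : ℤ))) fun w hw => ?_).trans ?_
      · rcases hw with hw | hw
        · omega
        · push_cast
          refine ⟨hw.1.trans ?_, hw.2⟩
          rw [← pow_succ']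
          exact pow_le_pow_right₀ (by norm_num) (by omega)
      · rw [prb_prod_and (fun x : Ω × Ω => |dif A x| ≤ ((2 ^ (Z - (i - 1)) : ℕ) : ℤ))
          (fun x : Ω × Ω => |dif A x| ≤ ((2 ^ (Z - i) : ℕ) : ℤ))]
        refine (mul_le_mul (hnear (i - 1) (by omega)) (hnear i hi) (prb_nonneg _)
          (by positivity)).trans ?_
        rw [← Real.rpow_add two_pos]
        refine Real.rpow_le_rpow_of_exponent_le one_le_two ?_
        push_cast [Nat.cast_sub h0]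
        nlinarith
  have hfail : ∀ η ≤ Z0, prb (fun q : Fin Q => (2 : ℝ) ^ (S' - 2 * c * η) <
      near (branch A (2 ^ l) ((q : ℕ) + 1)) (2 ^ (Z + l - η))) ≤
      (2 : ℝ) ^ ((lb : ℝ) + 2 * S + 5 - S') := by
    intro η hη
    rcases Nat.eq_zero_or_pos η with h0 | hηpos
    · subst h0
      rw [prb_eq, Finset.filter_false_of_mem]
      · simp only [Finset.card_empty, Nat.cast_zero, zero_div]
        positivity
      · intro q _
        push Not
        refine (prb_le_one _).trans (Real.one_le_rpow one_le_two ?_)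
        push_cast
        linarith
    refine (prb_markov (f := fun q : Fin Q =>
      near (branch A (2 ^ l) ((q : ℕ) + 1)) (2 ^ (Z + l - η))) (fun q => prb_nonneg _)
      (by positivity)).trans ?_
    rw [Fintype.card_fin, div_le_iff₀ (by positivity)]
    have e1 : ∀ q : Fin Q, near (branch A (2 ^ l) ((q : ℕ) + 1)) (2 ^ (Z + l - η)) =
        (∑ w : (Ω × Ω) × (Ω × Ω), if |(2 ^ l : ℤ) * dif A w.1 + (((q : ℕ) : ℤ) + 1) * dif A w.2|
          ≤ ((2 ^ (Z + l - η) : ℕ) : ℤ) then (1 : ℝ) else 0) /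
          Fintype.card ((Ω × Ω) × (Ω × Ω)) := by
      intro q
      unfold near
      rw [prb_branch A (2 ^ l) _ (fun z => |z| ≤ ((2 ^ (Z + l - η) : ℕ) : ℤ)), prb_eq_sum]
      push_cast
      rfl
    simp only [e1]
    rw [← Finset.sum_div, Finset.sum_comm]
    have hW : (0 : ℝ) < Fintype.card ((Ω × Ω) × (Ω × Ω)) := by exact_mod_cast Fintype.card_pos
    have hQR : ((Q : ℕ) : ℝ) = (2 : ℝ) ^ l := by rw [hQ]; push_cast; rfl
    calc (∑ w : (Ω × Ω) × (Ω × Ω), ∑ q : Fin Q,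
          if |(2 ^ l : ℤ) * dif A w.1 + (((q : ℕ) : ℤ) + 1) * dif A w.2|
            ≤ ((2 ^ (Z + l - η) : ℕ) : ℤ) then (1 : ℝ) else 0) /
            Fintype.card ((Ω × Ω) × (Ω × Ω)) / (Q : ℝ)
        ≤ (∑ w : (Ω × Ω) × (Ω × Ω), ((2 : ℝ) ^ l *
            (if |dif A w.1| ≤ 2 * 2 ^ (Z - η) ∧ |dif A w.2| ≤ 2 ^ (Z - η) then 1 else 0) +
            ∑ i ∈ Finset.range η, ((2 : ℝ) ^ (l + 2 + i) / 2 ^ η + 1) *
              (if i = 0 ∨ (|dif A w.1| ≤ 2 * 2 ^ (Z - i) ∧ |dif A w.2| ≤ 2 ^ (Z - i))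
                then 1 else 0))) / Fintype.card ((Ω × Ω) × (Ω × Ω)) / (Q : ℝ) := by
          gcongr with w
          rw [Finset.sum_boole]
          exact card_near_multiplier_le (hη.trans hZ) hηpos _ _
      _ = ((2 : ℝ) ^ l * prb (fun w : (Ω × Ω) × (Ω × Ω) =>
            |dif A w.1| ≤ 2 * 2 ^ (Z - η) ∧ |dif A w.2| ≤ 2 ^ (Z - η)) +
            ∑ i ∈ Finset.range η, ((2 : ℝ) ^ (l + 2 + i) / 2 ^ η + 1) *
              prb (fun w : (Ω × Ω) × (Ω × Ω) =>
                i = 0 ∨ (|dif A w.1| ≤ 2 * 2 ^ (Z - i) ∧ |dif A w.2| ≤ 2 ^ (Z - i)))) /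
            (Q : ℝ) := by
          rw [Finset.sum_add_distrib, ← Finset.mul_sum, Finset.sum_comm]
          simp only [← Finset.mul_sum]
          simp only [prb_eq_sum]
          simp only [add_div, Finset.sum_div, mul_div_assoc]
      _ ≤ ((2 : ℝ) ^ l * (2 : ℝ) ^ (2 * S + 1 - 2 * c * η) +
            ∑ i ∈ Finset.range η, ((2 : ℝ) ^ (l + 2 + i) / 2 ^ η + 1) *
              (2 : ℝ) ^ (2 * S + 1 - 2 * c * i)) / (Q : ℝ) := by
          gcongr with i hi
          · exact (prb_mono fun w hw => Or.inr hw).trans (hrel η hη)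
          · exact hrel i ((Finset.mem_range.1 hi).le.trans hη)
      _ ≤ ((η : ℝ) + 1) * ((2 : ℝ) ^ (2 * S + 5 - 2 * c * η)) := by
          rw [hQR, add_div, mul_div_cancel_left₀ _ (by positivity), add_one_mul, add_comm,
            Finset.sum_div]
          refine add_le_add ((Finset.sum_le_card_nsmul _ _
            ((2 : ℝ) ^ (2 * S + 5 - 2 * c * η)) ?_).trans (le_of_eq (by simp))) ?_
          · intro i hi
            have hiη : (i : ℝ) ≤ η := by exact_mod_cast (Finset.mem_range.1 hi).le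
            have hη0 : (η : ℝ) ≤ Z0 := by exact_mod_cast hη
            rw [mul_div_right_comm, add_div, pow_add, mul_div_assoc, mul_comm ((2:ℝ) ^ (l + 2)),
              pow_add]
            have t1 : (2 : ℝ) ^ (2 * S + 1 - 2 * c * i) * (1 / (2 : ℝ) ^ l) ≤
                (2 : ℝ) ^ (2 * S + 4 - 2 * c * η) := by
              rw [one_div, ← Real.rpow_natCast 2 l, ← Real.rpow_neg two_pos.le,
                ← Real.rpow_add two_pos]
              refine Real.rpow_le_rpow_of_exponent_le one_le_two ?_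
              nlinarith
            have t2 : (2 : ℝ) ^ (2 * S + 1 - 2 * c * i) * (4 * (2 : ℝ) ^ i / 2 ^ η) ≤
                (2 : ℝ) ^ (2 * S + 4 - 2 * c * η) := by
              rw [show (4 : ℝ) = 2 ^ (2 : ℕ) by norm_num, ← Real.rpow_natCast 2 2,
                ← Real.rpow_natCast 2 i, ← Real.rpow_natCast 2 η, ← Real.rpow_add two_pos,
                ← Real.rpow_sub two_pos, ← Real.rpow_add two_pos]
              refine Real.rpow_le_rpow_of_exponent_le one_le_two ?_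
              push_cast
              nlinarith
            have e2 : (2 : ℝ) ^ (2 * S + 5 - 2 * c * η) = (2 : ℝ) ^ (2 * S + 4 - 2 * c * η) +
                (2 : ℝ) ^ (2 * S + 4 - 2 * c * η) := by
              rw [show (2 * S + 5 - 2 * c * η) = (2 * S + 4 - 2 * c * η) + 1 by ring,
                Real.rpow_add two_pos, Real.rpow_one]
              ring
            rw [e2]
            refine le_trans (le_of_eq ?_) (add_le_add t2 t1)
            field_simp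
            ring
          · exact Real.rpow_le_rpow_of_exponent_le one_le_two (by linarith)
      _ ≤ (2 : ℝ) ^ ((lb : ℝ) + 2 * S + 5 - S') * (2 : ℝ) ^ (S' - 2 * c * η) := by
          rw [← Real.rpow_add two_pos]
          have : ((η : ℝ) + 1) ≤ (2 : ℝ) ^ (lb : ℝ) := by
            rw [Real.rpow_natCast]
            exact_mod_cast le_trans (by omega) hlb
          refine (mul_le_mul_of_nonneg_right this (by positivity)).trans (le_of_eq ?_)
          rw [← Real.rpow_add two_pos]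
          ring_nf
  have hbad : prb (fun q : Fin Q => ∃ η ∈ Finset.range (Z0 + 1), (2 : ℝ) ^ (S' - 2 * c * η) <
      near (branch A (2 ^ l) ((q : ℕ) + 1)) (2 ^ (Z + l - η))) < 1 := by
    refine lt_of_le_of_lt ((prb_exists_le _ _).trans (Finset.sum_le_card_nsmul _ _ _
      (fun η hη => hfail η (Nat.lt_succ_iff.1 (Finset.mem_range.1 hη))))) ?_
    rw [Finset.card_range, nsmul_eq_mul]
    have h1 : ((Z0 + 1 : ℕ) : ℝ) ≤ (2 : ℝ) ^ (lb : ℝ) := by
      rw [Real.rpow_natCast]; exact_mod_cast hlb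
    refine lt_of_le_of_lt (mul_le_mul_of_nonneg_right h1 (by positivity)) ?_
    rw [← Real.rpow_add two_pos]
    exact Real.rpow_lt_one_of_one_lt_of_neg one_lt_two (by linarith)
  obtain ⟨q, hq⟩ := exists_not_of_prb_lt_one hbad
  push Not at hq
  exact ⟨(q : ℕ) + 1, by omega, q.2,
    fun η hη => hq η (Finset.mem_range.2 (Nat.lt_succ_iff.2 hη))⟩

end Vale.Agent.P012
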