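import Vale.Agent.P012.Base
import Vale.Agent.P012.RealStep
import Vale.Agent.P012.Rep

/-!
The family controlling short distances.
-/

namespace Vale.Agent.P012

open Finset

/-- The distance scale of the real family. -/
def rScale (k : ℕ) : ℕ := 2 * k * 2 ^ (k - 6)

/-- The number of doublings of the real family. -/
def rHeight (k : ℕ) : ℕ := Nat.log 2 k

lemma rHeight_bounds {k : ℕ} (hk : 1 ≤ k) :
    2 ^ rHeight k ≤ k ∧ k < 2 * 2 ^ rHeight k := by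
  refine ⟨Nat.pow_log_le_self 2 (by omega), ?_⟩
  rw [← pow_succ']
  exact Nat.lt_pow_succ_log_self one_lt_two k

lemma rScale_succ_le {k : ℕ} (hk : 8 ≤ k) : rScale k + 1 ≤ 2 ^ (2 * k) := by
  unfold rScale
  have h1 : 2 * k + 1 ≤ 2 ^ (k + 6) := by
    have h2 : k < 2 ^ k := Nat.lt_two_pow_self
    rw [pow_add]
    omega
  have h2 : 1 ≤ 2 ^ (k - 6) := Nat.one_le_two_pow
  calc 2 * k * 2 ^ (k - 6) + 1 ≤ (2 * k + 1) * 2 ^ (k - 6) := by rw [add_mul, one_mul]; omega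
    _ ≤ 2 ^ (k + 6) * 2 ^ (k - 6) := Nat.mul_le_mul_right _ h1
    _ = 2 ^ (2 * k) := by rw [← pow_add]; congr 1; omega

/-- The starting family in the window. -/
lemma real_base {k η : ℕ} (hk : 8 ≤ k) (hη : η ≤ rScale k) :
    near (dWin k (2 ^ (k - 6)) (2 ^ 6)) (2 ^ (rScale k - η)) ≤
      (2 : ℝ) ^ ((2 * (k : ℝ) + 12) - (1 / (8 * (2 : ℝ) ^ rHeight k)) * η) := by
  have hjs : 2 ^ (k - 6) * 2 ^ 6 ≤ 2 ^ k := by rw [← pow_add, Nat.sub_add_cancel (by omega)]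
  refine (near_dWin_le hk hjs hη).trans ?_
  have h1 : (((2 * k * 2 ^ (k - 6) + 1 : ℕ)) : ℝ) ≤ (2 : ℝ) ^ (2 * (k : ℝ)) := by
    rw [show (2 * (k : ℝ)) = ((2 * k : ℕ) : ℝ) by push_cast; rfl, Real.rpow_natCast]
    exact_mod_cast rScale_succ_le hk
  obtain ⟨-, hL⟩ := rHeight_bounds (show 1 ≤ k by omega)
  have hk0 : (0 : ℝ) < k := by exact_mod_cast (show 0 < k by omega)
  have hLR : (k : ℝ) < 2 * (2 : ℝ) ^ rHeight k := by exact_mod_cast hL
  have h2 : 1 / (8 * (2 : ℝ) ^ rHeight k) ≤ ((6 : ℕ) : ℝ) / (2 * k) := by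
    rw [div_le_div_iff₀ (by positivity) (by positivity)]
    push_cast
    linarith
  have h3 : (2 : ℝ) ^ (-(((6 : ℕ) : ℝ) / (2 * k) * η)) ≤
      (2 : ℝ) ^ (-(1 / (8 * (2 : ℝ) ^ rHeight k) * η)) :=
    Real.rpow_le_rpow_of_exponent_le one_le_two
      (neg_le_neg (mul_le_mul_of_nonneg_right h2 (Nat.cast_nonneg η)))
  refine (mul_le_mul (mul_le_mul_of_nonneg_right h1 (by positivity)) h3 (by positivity)
    (by positivity)).trans (le_of_eq ?_)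
  rw [show ((2 : ℝ) ^ (2 * 6)) = (2 : ℝ) ^ ((12 : ℕ) : ℝ) by rw [Real.rpow_natCast],
    ← Real.rpow_add two_pos, ← Real.rpow_add two_pos]
  push_cast
  ring_nf

/-- The family after all doublings. -/
lemma real_levels {k : ℕ} (hk : 8 ≤ k) (l : ℕ) (hl : l ≤ rHeight k) :
    ∃ (Ω : Type) (_ : Fintype Ω) (_ : Nonempty Ω) (A : Ω → ℕ) (Ξ Λ : ℕ),
      1 ≤ Ξ ∧ Ξ ≤ 2 ^ (rScale k + 2 * Λ) ∧
      Λ * (4 * 2 ^ rHeight k) + rScale k ≤ rScale k * 2 ^ l + l * (4 * 2 ^ rHeight k) ∧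
      (∀ w, A w < 2 ^ (rScale k + Λ + 1 + l) ∧ Rep (Ξ * poolProd k) (2 ^ l) (A w)) ∧
      ∀ η ≤ rScale k, near A (2 ^ (rScale k + Λ - η)) ≤
        (2 : ℝ) ^ ((2 : ℝ) ^ l * (6 * (k : ℝ) + 21) - (4 * (k : ℝ) + 9) -
          ((2 : ℝ) ^ l / (8 * (2 : ℝ) ^ rHeight k)) * η) := by
  induction l with
  | zero =>
    have hjs : 2 ^ (k - 6) * 2 ^ 6 ≤ 2 ^ k := by rw [← pow_add, Nat.sub_add_cancel (by omega)]
    have : Nonempty (Fin (2 ^ 6)) := ⟨⟨0, by norm_num⟩⟩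
    refine ⟨Fin (2 ^ (k - 6)) → Fin (2 ^ 6), inferInstance, inferInstance,
      dWin k (2 ^ (k - 6)) (2 ^ 6), 2 ^ rScale k, 0, Nat.one_le_two_pow, by simp, by simp,
      fun w => ⟨?_, ?_⟩, fun η hη => ?_⟩
    · simpa [rScale] using (dWin_bounds hk hjs w).2
    · rw [pow_zero, mul_comm]
      exact Rep.single (dWin_dvd hjs w)
    · refine (real_base hk hη).trans (le_of_eq ?_)
      congr 1
      simp only [pow_zero]
      ring
  | succ l ih =>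
    obtain ⟨Ω, fΩ, nΩ, A, Ξ, Λ, hΞ1, hΞ2, hΛ, hA, hnear⟩ := ih (by omega)
    set L := rHeight k with hL
    set Z0 := rScale k with hZ0
    set c : ℝ := (2 : ℝ) ^ l / (8 * (2 : ℝ) ^ L) with hc
    set lam := Z0 * 2 ^ l / (4 * 2 ^ L) + 1 with hlam
    have hpow : (2 : ℝ) ^ l ≤ (2 : ℝ) ^ L := pow_le_pow_right₀ one_le_two (by omega)
    have hc0 : 0 ≤ c := by rw [hc]; positivity
    have hc4 : c ≤ 1 / 4 := by
      rw [hc, div_le_iff₀ (by positivity)]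
      have : (0 : ℝ) ≤ (2 : ℝ) ^ L := by positivity
      linarith
    have h1 : (1 : ℝ) ≤ (2 : ℝ) ^ l := one_le_pow₀ one_le_two
    have hk0 : (0 : ℝ) ≤ k := Nat.cast_nonneg k
    have hS : (0 : ℝ) ≤ (2 : ℝ) ^ l * (6 * (k : ℝ) + 21) - (4 * (k : ℝ) + 9) := by
      have h2 : 6 * (k : ℝ) + 21 ≤ (2 : ℝ) ^ l * (6 * (k : ℝ) + 21) :=
        le_mul_of_one_le_left (by positivity) h1
      linarith
    have hlam2 : 2 * c * (Z0 : ℝ) ≤ (lam : ℝ) := by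
      have h2 : Z0 * 2 ^ l < (4 * 2 ^ L) * lam := by
        rw [hlam]; exact Nat.lt_mul_div_succ _ (by positivity)
      have h3 : ((Z0 * 2 ^ l : ℕ) : ℝ) ≤ (((4 * 2 ^ L) * lam : ℕ) : ℝ) := by exact_mod_cast h2.le
      push_cast at h3
      rw [hc, show 2 * ((2 : ℝ) ^ l / (8 * (2 : ℝ) ^ L)) * (Z0 : ℝ) =
        ((Z0 : ℝ) * 2 ^ l) / (4 * (2 : ℝ) ^ L) by ring, div_le_iff₀ (by positivity)]
      linarith
    obtain ⟨q, hq1, hq2, hqnear⟩ := exists_good_real_multiplier A (Z := Z0 + Λ) (l := lam)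
      (lb := 2 * k) (S' := (2 : ℝ) ^ (l + 1) * (6 * (k : ℝ) + 21) - (4 * (k : ℝ) + 9))
      (Nat.le_add_right _ _) (rScale_succ_le hk) hS hc0 hc4 hnear hlam2
      (by rw [pow_succ]; push_cast; linarith)
    refine ⟨Ω × Ω, inferInstance, inferInstance, branch A (2 ^ lam) q, 2 ^ lam * q * Ξ, Λ + lam,
      Nat.one_le_iff_ne_zero.2 (by positivity), ?_, ?_, ?_, ?_⟩
    · calc 2 ^ lam * q * Ξ ≤ 2 ^ lam * 2 ^ lam * 2 ^ (Z0 + 2 * Λ) :=
            Nat.mul_le_mul (Nat.mul_le_mul_left _ hq2) hΞ2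
        _ = _ := by rw [← pow_add, ← pow_add]; congr 1; omega
    · have h2 : lam * (4 * 2 ^ L) ≤ Z0 * 2 ^ l + 4 * 2 ^ L := by
        rw [hlam, add_mul, one_mul]
        exact Nat.add_le_add_right (Nat.div_mul_le_self _ _) _
      rw [add_mul Λ lam, pow_succ 2 l, add_mul l 1]
      linarith
    · intro w
      obtain ⟨ha, ha'⟩ := hA w.1
      obtain ⟨hb, hb'⟩ := hA w.2
      refine ⟨?_, ?_⟩
      · unfold branch
        calc 2 ^ lam * A w.1 + q * A w.2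
            < 2 ^ lam * 2 ^ (Z0 + Λ + 1 + l) + 2 ^ lam * 2 ^ (Z0 + Λ + 1 + l) :=
              add_lt_add_of_lt_of_le (Nat.mul_lt_mul_of_pos_left ha (by positivity))
                (Nat.mul_le_mul hq2 hb.le)
          _ = 2 ^ (Z0 + (Λ + lam) + 1 + (l + 1)) := by
              rw [← mul_two, ← pow_add, ← pow_succ]; congr 1; omega
      · unfold branch
        rw [pow_succ 2 l, mul_two, mul_assoc]
        exact (ha'.mul (Dvd.intro q rfl)).add (hb'.mul (dvd_mul_left q _))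
    · intro η hη
      have h2 := hqnear η hη
      rw [show Z0 + Λ + lam = Z0 + (Λ + lam) by omega] at h2
      refine h2.trans (le_of_eq ?_)
      congr 1
      rw [hc, pow_succ]
      ring

/-- The family controlling short distances, padded below `2^(4 k 2^(k-6))`. -/
lemma exists_real_family {k : ℕ} (hk : 64 ≤ k) :
    ∃ (Ω : Type) (_ : Fintype Ω) (_ : Nonempty Ω) (A : Ω → ℕ) (Ξ : ℕ),
      1 ≤ Ξ ∧ Ξ ≤ 2 ^ (3 * (4 * k * 2 ^ (k - 6))) ∧
      (∀ w, A w < 2 ^ (4 * k * 2 ^ (k - 6)) ∧ Rep (Ξ * poolProd k) k (A w)) ∧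
      ∀ η ≤ 2 * k * 2 ^ (k - 6),
        near A (2 ^ (4 * k * 2 ^ (k - 6) - (Nat.log 2 k + 1) - η)) ≤
          (2 : ℝ) ^ (7 * (k : ℝ) ^ 2 - (η : ℝ) / 8) := by
  obtain ⟨Ω, fΩ, nΩ, A, Ξ, Λ, hΞ1, hΞ2, hΛ, hA, hnear⟩ :=
    real_levels (show 8 ≤ k by omega) (rHeight k) le_rfl
  obtain ⟨hLk, -⟩ := rHeight_bounds (show 1 ≤ k by omega)
  set L := rHeight k with hL
  set Z0 := rScale k with hZ0
  have hX : 4 * k * 2 ^ (k - 6) = 2 * Z0 := by rw [hZ0]; unfold rScale; ring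
  have hΛ' : Λ ≤ Z0 / 4 + L := by
    have h1 : (Λ - L) * (4 * 2 ^ L) ≤ Z0 * 2 ^ L := by
      rw [Nat.sub_mul]; omega
    have h2 : (Λ - L) * 4 ≤ Z0 := by
      refine Nat.le_of_mul_le_mul_right ?_ (Nat.two_pow_pos L)
      linarith
    omega
  have hLlt : L < 2 ^ L := Nat.lt_two_pow_self
  have hZbig : 8 * k ≤ Z0 := by
    rw [hZ0]; unfold rScale
    calc 8 * k = 2 * k * 2 ^ 2 := by ring
      _ ≤ 2 * k * 2 ^ (k - 6) := Nat.mul_le_mul_left _ (Nat.pow_le_pow_right two_pos (by omega))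
  have htop : Z0 + Λ + 1 + L ≤ 2 * Z0 := by omega
  set pad := 2 * Z0 - (Z0 + Λ + 1 + L) with hpad
  refine ⟨Ω, fΩ, nΩ, fun w => 2 ^ pad * A w, 2 ^ pad * Ξ,
    Nat.one_le_iff_ne_zero.2 (by positivity), ?_, fun w => ⟨?_, ?_⟩, ?_⟩
  · calc 2 ^ pad * Ξ ≤ 2 ^ pad * 2 ^ (Z0 + 2 * Λ) := Nat.mul_le_mul_left _ hΞ2
      _ ≤ _ := by
          rw [← pow_add, hX]
          exact Nat.pow_le_pow_right two_pos (by omega)
  · calc 2 ^ pad * A w < 2 ^ pad * 2 ^ (Z0 + Λ + 1 + L) :=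
          Nat.mul_lt_mul_of_pos_left (hA w).1 (by positivity)
      _ = _ := by rw [← pow_add, hX]; congr 1; omega
  · rw [mul_assoc]
    exact ((hA w).2.mul dvd_rfl).mono dvd_rfl hLk
  · intro η hη
    have hη' : η ≤ Z0 := hη
    have hL' : Nat.log 2 k = L := rfl
    rw [hL', hX]
    refine le_trans (prb_mono fun w hw => ?_) ((hnear η hη').trans ?_)
    · have hd : dif (fun w => 2 ^ pad * A w) w = (2 ^ pad : ℤ) * dif A w := by
        unfold dif; push_cast; ring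
      have he : ((2 ^ (2 * Z0 - (L + 1) - η) : ℕ) : ℤ) =
          (2 ^ pad : ℤ) * ((2 ^ (Z0 + Λ - η) : ℕ) : ℤ) := by
        push_cast
        rw [← pow_add]
        congr 1
        omega
      rw [hd, he, abs_mul, abs_of_nonneg (by positivity : (0 : ℤ) ≤ (2 ^ pad : ℤ))] at hw
      exact le_of_mul_le_mul_left hw (by positivity)
    · refine Real.rpow_le_rpow_of_exponent_le one_le_two ?_
      have hkR : (64 : ℝ) ≤ k := by exact_mod_cast hk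
      have hLR : (2 : ℝ) ^ L ≤ k := by exact_mod_cast hLk
      have h2 : (2 : ℝ) ^ L * (6 * (k : ℝ) + 21) ≤ (k : ℝ) * (6 * k + 21) :=
        mul_le_mul_of_nonneg_right hLR (by positivity)
      have h3 : (2 : ℝ) ^ L / (8 * (2 : ℝ) ^ L) * (η : ℝ) = (η : ℝ) / 8 := by
        field_simp
      rw [h3]
      nlinarith

end Vale.Agent.P012
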