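import Vale.Agent.P012.Chain
import Vale.Agent.P012.RealLayer
import Vale.Agent.P012.RealTree

/-!
A family of short sums with almost as few coincidences as possible.
-/

namespace Vale.Agent.P012

open Finset

attribute [local irreducible] gCopies

/-- The defect in the collision exponent. -/
noncomputable def colD (k : ℕ) : ℝ :=
  (gTop k (gCount k) : ℝ) + (k : ℝ) * gLoss k + 500 * (k : ℝ) ^ 3

lemma exists_fibre_le {α β : Type*} [Fintype α] [Fintype β] [Nonempty α] (P : α × β → Prop) {B : ℝ}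
    (h : prb P ≤ B) : ∃ a, prb (fun b => P (a, b)) ≤ B := by
  rw [prb_prod_eq, div_le_iff₀ (by exact_mod_cast Fintype.card_pos)] at h
  obtain ⟨a, -, ha⟩ := Finset.exists_le_of_sum_le Finset.univ_nonempty
    (h.trans (le_of_eq (by rw [Finset.sum_const, Finset.card_univ, nsmul_eq_mul, mul_comm] :
      B * (Fintype.card α : ℝ) = ∑ _a : α, B)))
  exact ⟨a, ha⟩

lemma gTop_zero {k : ℕ} : gTop k 0 = 4 * k * 2 ^ (k - 6) := by simp [gTop]

/-- The main term of the collision bound. -/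
lemma last_sum_le {k X H : ℕ} {D : ℝ} (hk : 64 ≤ k) (hD : 0 ≤ D) (hH : X = 2 * H)
    (hHk : H + 2 ≤ 2 ^ (2 * k)) {Ω : Type} [Fintype Ω] (G : Ω → ℕ)
    (hG : ∀ η ≤ H, near G (2 ^ (X - (Nat.log 2 k + 1) - η)) ≤
      (2 : ℝ) ^ (7 * (k : ℝ) ^ 2 - (η : ℝ) / 8)) :
    near G (2 ^ (X - (Nat.log 2 k + 1) - H)) ^ 64 + ∑ η ∈ Finset.range (H + 1),
      (2 : ℝ) ^ D / ((((2 ^ X : ℕ) : ℝ)) * (2 : ℝ) ^ (X - (Nat.log 2 k + 1) - η)) *
        (if η = 0 then 1 else near G (2 ^ (X - (Nat.log 2 k + 1) - (η - 1))) ^ 64) ≤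
      (2 : ℝ) ^ (D + 500 * (k : ℝ) ^ 3 - 2 * (X : ℝ)) := by
  set U := Nat.log 2 k + 1 with hU
  set S : ℝ := 7 * (k : ℝ) ^ 2 with hS
  have hkR : (64 : ℝ) ≤ k := by exact_mod_cast hk
  have hUk : (U : ℝ) ≤ k + 1 := by
    have : Nat.log 2 k ≤ k := Nat.log_le_self 2 k
    exact_mod_cast (show U ≤ k + 1 by omega)
  set E : ℝ := D + (U : ℝ) + 64 * S + 8 - 2 * (X : ℝ) with hE
  have hX : (X : ℝ) = 2 * (H : ℝ) := by exact_mod_cast hH
  have hH0 : (0 : ℝ) ≤ H := Nat.cast_nonneg H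
  have hU0 : (0 : ℝ) ≤ U := Nat.cast_nonneg U
  have hnn : ∀ a, 0 ≤ near G a := fun a => prb_nonneg _
  have h0 : near G (2 ^ (X - U - H)) ^ 64 ≤ (2 : ℝ) ^ E := by
    refine (pow_le_pow_left₀ (hnn _) (hG H le_rfl) 64).trans ?_
    rw [← Real.rpow_mul_natCast two_pos.le]
    refine Real.rpow_le_rpow_of_exponent_le one_le_two ?_
    rw [hE]; push_cast; linarith
  have h1 : ∀ η ∈ Finset.range (H + 1), (2 : ℝ) ^ D / ((((2 ^ X : ℕ) : ℝ)) * (2 : ℝ) ^ (X - U - η)) *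
      (if η = 0 then 1 else near G (2 ^ (X - U - (η - 1))) ^ 64) ≤ (2 : ℝ) ^ E := by
    intro η hη
    have hηH : η ≤ H := Nat.lt_succ_iff.1 (Finset.mem_range.1 hη)
    have h2 : (if η = 0 then 1 else near G (2 ^ (X - U - (η - 1))) ^ 64) ≤
        (2 : ℝ) ^ (64 * S + 8 - 8 * (η : ℝ)) := by
      split_ifs with h
      · refine Real.one_le_rpow one_le_two ?_
        rw [h, hS]; push_cast; nlinarith
      · refine (pow_le_pow_left₀ (hnn _) (hG (η - 1) (by omega)) 64).trans ?_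
        rw [← Real.rpow_mul_natCast two_pos.le]
        refine Real.rpow_le_rpow_of_exponent_le one_le_two ?_
        rw [Nat.cast_sub (show 1 ≤ η by omega)]
        push_cast
        linarith
    refine (mul_le_mul_of_nonneg_left h2 (by positivity)).trans ?_
    push_cast
    rw [← pow_add, ← Real.rpow_natCast 2 (X + (X - U - η)), ← Real.rpow_sub two_pos,
      ← Real.rpow_add two_pos]
    refine Real.rpow_le_rpow_of_exponent_le one_le_two ?_
    have h3 : (X : ℝ) ≤ ((X - U - η : ℕ) : ℝ) + (U : ℝ) + (η : ℝ) := by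
      exact_mod_cast (show X ≤ (X - U - η) + U + η by omega)
    have h4 : (0 : ℝ) ≤ η := Nat.cast_nonneg η
    rw [hE]
    push_cast
    linarith
  refine (add_le_add h0 ((Finset.sum_le_card_nsmul _ _ _ h1).trans (le_of_eq (by
    rw [Finset.card_range, nsmul_eq_mul] : _ = ((H + 1 : ℕ) : ℝ) * (2 : ℝ) ^ E)))).trans ?_
  calc (2 : ℝ) ^ E + ((H + 1 : ℕ) : ℝ) * (2 : ℝ) ^ E = ((H + 2 : ℕ) : ℝ) * (2 : ℝ) ^ E := by
        push_cast; ring
    _ ≤ (2 : ℝ) ^ ((2 * k : ℕ) : ℝ) * (2 : ℝ) ^ E := by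
        refine mul_le_mul_of_nonneg_right ?_ (by positivity)
        rw [Real.rpow_natCast]; exact_mod_cast hHk
    _ ≤ _ := by
        rw [← Real.rpow_add two_pos]
        refine Real.rpow_le_rpow_of_exponent_le one_le_two ?_
        rw [hE, hS]
        push_cast
        nlinarith

lemma values_budget {k M : ℕ} (hk : 2 ^ 16 * 6 ≤ k) (hM : M ≤ k) :
    64 + M * gCopies < 2 ^ (2 * k) := by
  have h1 : gCopies + 64 ≤ 16 * k := by
    have : gCopies = 3145728 := by unfold gCopies; norm_num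
    omega
  have h2 : 4 * k < 2 ^ k := by
    have h3 : k - 2 < 2 ^ (k - 2) := Nat.lt_two_pow_self
    have h4 : k - 8 < 2 ^ (k - 8) := Nat.lt_two_pow_self
    have h5 : 2 ^ k = 256 * 2 ^ (k - 8) := by
      rw [show (256 : ℕ) = 2 ^ 8 by norm_num, ← pow_add]; congr 1; omega
    omega
  calc 64 + M * gCopies ≤ k * (gCopies + 64) := by
        have h6 : M * gCopies ≤ k * gCopies := Nat.mul_le_mul_right _ hM
        rw [mul_add]
        omega
    _ ≤ k * (16 * k) := Nat.mul_le_mul_left _ h1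
    _ = (4 * k) * (4 * k) := by ring
    _ < 2 ^ k * 2 ^ k := Nat.mul_lt_mul_of_lt_of_lt h2 h2
    _ = 2 ^ (2 * k) := by rw [← pow_add, two_mul]

/-- A family of short sums with few coincidences. -/
lemma exists_low_collision {k : ℕ} (hk : 2 ^ 16 * 6 ≤ k)
    (hbig : ∀ r, 2 ^ 16 * r ≤ k →
      16 * (k + 1) * (k * (2 ^ (k / 2) + 1) + 14) ≤ 2 * k * 2 ^ (k - r)) :
    ∃ (Ω : Type) (_ : Fintype Ω) (_ : Nonempty Ω) (A : Ω → ℕ) (N : ℕ),
      1 ≤ N ∧ N ≤ 2 ^ ((2 * gCopies + 69) * (4 * k * 2 ^ (k - 6))) ∧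
      (∀ w, A w < 2 ^ (2 * (4 * k * 2 ^ (k - 6)) + 2 * k) ∧
        Rep (N * poolProd k) ((gCopies + 64) * k) (A w)) ∧
      coll A ≤ (2 : ℝ) ^ (colD k - 2 * ((4 * k * 2 ^ (k - 6) : ℕ) : ℝ)) := by
  obtain ⟨Φ, fΦ, nΦ, Ψ, fΨ, nΨ, Fam, T, hF, hFle, hT, hRep⟩ :=
    chain_levels hk hbig (gCount k) 0 (Nat.zero_add _)
  obtain ⟨Ω, fΩ, nΩ, G, Ξ, hΞ1, hΞ2, hG, hnear⟩ := exists_real_family (show 64 ≤ k by omega)
  rw [gTop_zero] at hF hFle hRep
  set X := 4 * k * 2 ^ (k - 6) with hX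
  set H := 2 * k * 2 ^ (k - 6) with hH
  have hXH : X = 2 * H := by rw [hX, hH]; ring
  have hHk : H + 2 ≤ 2 ^ (2 * k) := by
    have h0 : k + 1 ≤ 2 ^ k := Nat.lt_two_pow_self
    have h1 : 2 * (k + 1) ≤ 2 ^ (k + 6) := by rw [pow_add]; omega
    calc H + 2 ≤ 2 * k * 2 ^ (k - 6) + 2 * 2 ^ (k - 6) := by
          rw [hH]; exact Nat.add_le_add_left (Nat.le_mul_of_pos_right _ (Nat.two_pow_pos _)) _
      _ = 2 * (k + 1) * 2 ^ (k - 6) := by ring
      _ ≤ 2 ^ (k + 6) * 2 ^ (k - 6) := Nat.mul_le_mul_right _ h1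
      _ = _ := by rw [← pow_add]; congr 1; omega
  set D : ℝ := (gTop k (gCount k) : ℝ) + (gCount k : ℝ) * gLoss k with hD
  have hloss : 0 ≤ gLoss k := by unfold gLoss gSlack; positivity
  have hD0 : 0 ≤ D := by rw [hD]; positivity
  have hlast := (prb_last_le (T := 64) (Q := 2 ^ X) G Fam hF (by positivity) Nat.one_le_two_pow
    (fun w => (hG w).1) (X - (Nat.log 2 k + 1)) H).trans
    (last_sum_le (show 64 ≤ k by omega) hD0 hXH hHk G hnear)
  have : Nonempty ((Fin 64 → Fin (2 ^ X)) × Φ) :=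
    ⟨(fun _ => ⟨0, Nat.two_pow_pos X⟩, Classical.arbitrary Φ)⟩
  obtain ⟨a, ha⟩ := exists_fibre_le _ hlast
  obtain ⟨N, hN1, hN2, hN⟩ := hRep a.2
  set P := ∏ t, ((a.1 t : ℕ) + 1) with hP
  have hP0 : 0 < P := Finset.prod_pos fun t _ => Nat.succ_pos _
  have hP2 : P ≤ 2 ^ (X * 64) := by
    calc P ≤ ∏ _t : Fin 64, 2 ^ X := Finset.prod_le_prod' fun t _ => (a.1 t).2
      _ = _ := by rw [Finset.prod_const, Finset.card_univ, Fintype.card_fin, ← pow_mul]
  refine ⟨(Fin 64 → Ω) × Ψ, inferInstance, inferInstance, addCopies G Fam (2 ^ X) a, P * Ξ * N,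
    Nat.mul_pos (Nat.mul_pos hP0 hΞ1) hN1, ?_, fun b => ⟨?_, ?_⟩, ha.trans ?_⟩
  · calc P * Ξ * N ≤ 2 ^ (X * 64) * 2 ^ (3 * X) * 2 ^ (2 * (gCopies + 1) * X) :=
          Nat.mul_le_mul (Nat.mul_le_mul hP2 hΞ2) hN2
      _ = _ := by
          rw [← pow_add, ← pow_add,
            show X * 64 + 3 * X + 2 * (gCopies + 1) * X = (2 * gCopies + 69) * X by ring]
  · have hM := (gCount_spec hk).2.2.2
    have hbig' := values_budget hk hM
    unfold addCopies
    calc ∑ t, ((a.1 t : ℕ) + 1) * G (b.1 t) + Fam a.2 b.2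
        ≤ ∑ _t : Fin 64, 2 ^ X * 2 ^ X + gCount k * gCopies * 2 ^ (2 * X) :=
          add_le_add (Finset.sum_le_sum fun t _ => Nat.mul_le_mul (a.1 t).2 (hG _).1.le) (hFle _ _)
      _ = (64 + gCount k * gCopies) * 2 ^ (2 * X) := by
          rw [Finset.sum_const, Finset.card_univ, Fintype.card_fin, smul_eq_mul, ← pow_add, ← two_mul,
            add_mul]
      _ < 2 ^ (2 * k) * 2 ^ (2 * X) := Nat.mul_lt_mul_of_pos_right hbig' (Nat.two_pow_pos _)
      _ = _ := by rw [← pow_add, add_comm]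
  · have hT' : T ≤ gCopies * k := by
      simp only [pow_zero, mul_one] at hT
      have h1 : 2 * T ≤ T * (2 ^ 14 * 6) := by omega
      linarith
    unfold addCopies
    rw [show (gCopies + 64) * k = 64 * k + gCopies * k by ring]
    refine Rep.add ?_ ((hN b.2).mono (mul_dvd_mul_right (dvd_mul_left N _) _) hT')
    have h9 := Rep.sum (Finset.univ : Finset (Fin 64))
      (N := P * Ξ * N * poolProd k) (T := k)
      (f := fun t => ((a.1 t : ℕ) + 1) * G (b.1 t)) fun t _ => by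
        refine ((hG (b.1 t)).2.mul (Finset.dvd_prod_of_mem (fun t => (a.1 t : ℕ) + 1)
          (Finset.mem_univ t))).mono ?_ le_rfl
        rw [← hP, ← mul_assoc]
        exact mul_dvd_mul_right (Dvd.intro N rfl) _
    rwa [Finset.card_univ, Fintype.card_fin] at h9
  · refine Real.rpow_le_rpow_of_exponent_le one_le_two ?_
    have h1 : (gCount k : ℝ) * gLoss k ≤ (k : ℝ) * gLoss k :=
      mul_le_mul_of_nonneg_right (by exact_mod_cast (gCount_spec hk).2.2.2) hloss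
    rw [hD]
    unfold colD
    linarith

end Vale.Agent.P012
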