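import Mathlib.Analysis.SpecialFunctions.Pow.Real
import Mathlib.Algebra.Order.Chebyshev
import Mathlib.Algebra.BigOperators.Field
import Mathlib.Data.Fintype.BigOperators
import Mathlib.Data.Fintype.Prod
import Mathlib.Data.Fintype.Pi

/-!
Finite uniform probabilities, and collision quantities of integer valued families.
-/

namespace Vale.Agent.P012

open Finset

variable {Ω Ω' : Type*} [Fintype Ω] [Fintype Ω']

/-- Probability of a property under the uniform distribution on a finite type. -/
noncomputable def prb (P : Ω → Prop) : ℝ :=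
  letI := Classical.decPred P
  ((univ.filter P).card : ℝ) / (Fintype.card Ω : ℝ)

lemma prb_eq (P : Ω → Prop) [DecidablePred P] :
    prb P = ((univ.filter P).card : ℝ) / (Fintype.card Ω : ℝ) := by
  unfold prb
  congr!

lemma prb_eq_sum (P : Ω → Prop) [DecidablePred P] :
    prb P = (∑ w, if P w then (1 : ℝ) else 0) / (Fintype.card Ω : ℝ) := by
  rw [prb_eq, Finset.sum_boole]

lemma prb_nonneg (P : Ω → Prop) : 0 ≤ prb P := by
  unfold prb
  positivity

lemma prb_le_one (P : Ω → Prop) : prb P ≤ 1 := by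
  classical
  rw [prb_eq]
  apply div_le_one_of_le₀ _ (by positivity)
  exact_mod_cast card_le_univ _

lemma prb_mono {P Q : Ω → Prop} (h : ∀ w, P w → Q w) : prb P ≤ prb Q := by
  classical
  rw [prb_eq, prb_eq]
  refine div_le_div_of_nonneg_right ?_ (by positivity)
  have hsub : univ.filter P ⊆ univ.filter Q := fun w hw => by
    simp only [mem_filter, mem_univ, true_and] at hw ⊢
    exact h w hw
  exact_mod_cast card_le_card hsub

lemma prb_or_le (P Q : Ω → Prop) : prb (fun w => P w ∨ Q w) ≤ prb P + prb Q := by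
  classical
  rw [prb_eq, prb_eq, prb_eq, ← add_div]
  gcongr
  have : (univ.filter fun w => P w ∨ Q w) = univ.filter P ∪ univ.filter Q := filter_or _ _ _
  rw [this]
  exact_mod_cast card_union_le _ _

lemma prb_exists_le {ι : Type*} (s : Finset ι) (P : ι → Ω → Prop) :
    prb (fun w => ∃ i ∈ s, P i w) ≤ ∑ i ∈ s, prb (P i) := by
  classical
  induction s using Finset.induction with
  | empty =>
    rw [prb_eq]
    simp
  | insert a s ha ih =>
    rw [sum_insert ha]
    have h : prb (fun w => ∃ i ∈ insert a s, P i w) ≤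
        prb (P a) + prb (fun w => ∃ i ∈ s, P i w) := by
      refine le_trans (prb_mono ?_) (prb_or_le _ _)
      intro w hw
      simpa [Finset.exists_mem_insert] using hw
    linarith

/-- An event on a product is bounded by its average over fibres. -/
lemma prb_prod_eq (P : Ω × Ω' → Prop) :
    prb P = (∑ w, prb (fun w' => P (w, w'))) / (Fintype.card Ω : ℝ) := by
  classical
  rw [prb_eq_sum, Fintype.sum_prod_type, Fintype.card_prod]
  simp_rw [prb_eq_sum]
  rw [← Finset.sum_div, div_div]
  push_cast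
  ring_nf

lemma prb_prod_swap (P : Ω × Ω' → Prop) :
    prb P = prb (fun w : Ω' × Ω => P (w.2, w.1)) := by
  classical
  rw [prb_eq_sum, prb_eq_sum, Fintype.sum_prod_type, Fintype.sum_prod_type, Finset.sum_comm,
    Fintype.card_prod, Fintype.card_prod, mul_comm (Fintype.card Ω)]

lemma prb_prod_le {P : Ω × Ω' → Prop} {B : ℝ}
    (h : ∀ w, prb (fun w' => P (w, w')) ≤ B) (hB : 0 ≤ B) : prb P ≤ B := by
  rw [prb_prod_eq]
  rcases Nat.eq_zero_or_pos (Fintype.card Ω) with h0 | h0
  · simp [h0, hB]
  · rw [div_le_iff₀ (by exact_mod_cast h0)]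
    calc ∑ w, prb (fun w' => P (w, w')) ≤ ∑ _w : Ω, B := Finset.sum_le_sum fun w _ => h w
      _ = B * (Fintype.card Ω : ℝ) := by simp [mul_comm]

/-- Independent events on a product. -/
lemma prb_prod_and (P : Ω → Prop) (Q : Ω' → Prop) :
    prb (fun w : Ω × Ω' => P w.1 ∧ Q w.2) = prb P * prb Q := by
  classical
  rw [prb_eq, prb_eq, prb_eq, Fintype.card_prod, div_mul_div_comm]
  have : (univ.filter fun w : Ω × Ω' => P w.1 ∧ Q w.2) = univ.filter P ×ˢ univ.filter Q := by
    ext w; simp
  rw [this, card_product]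
  push_cast
  rfl

/-- Independent copies. -/
lemma prb_pi_forall {T : ℕ} (P : Ω → Prop) :
    prb (fun w : Fin T → Ω => ∀ t, P (w t)) = prb P ^ T := by
  classical
  rw [prb_eq, prb_eq, Fintype.card_pi_const, div_pow]
  have : (univ.filter fun w : Fin T → Ω => ∀ t, P (w t)) =
      Fintype.piFinset (fun _ : Fin T => univ.filter P) := by
    ext w; simp [Fintype.mem_piFinset]
  rw [this, Fintype.card_piFinset_const]
  push_cast
  rfl

/-- Markov's inequality for the uniform distribution. -/
lemma prb_markov {f : Ω → ℝ} (hf : ∀ w, 0 ≤ f w) {T : ℝ} (hT : 0 < T) :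
    prb (fun w => T < f w) ≤ (∑ w, f w) / (Fintype.card Ω : ℝ) / T := by
  classical
  rw [prb_eq_sum, div_right_comm]
  gcongr
  rw [Finset.sum_div]
  refine Finset.sum_le_sum fun w _ => ?_
  split_ifs with h
  · rw [le_div_iff₀ hT]; linarith
  · exact div_nonneg (hf w) hT.le

lemma exists_not_of_prb_lt_one [Nonempty Ω] {P : Ω → Prop} (h : prb P < 1) : ∃ w, ¬ P w := by
  classical
  by_contra hc
  push Not at hc
  rw [prb_eq] at h
  have : (univ.filter P) = (univ : Finset Ω) := filter_true_of_mem fun w _ => hc w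
  rw [this, card_univ, div_self (by exact_mod_cast Fintype.card_ne_zero)] at h
  exact lt_irrefl _ h

/-- Shifted coincidences are at most as likely as coincidences. -/
lemma prb_shift_le {α : Type*} [AddCommGroup α] (f : Ω → α) (c : α) :
    prb (fun w : Ω × Ω => f w.1 - f w.2 = c) ≤ prb (fun w : Ω × Ω => f w.1 = f w.2) := by
  classical
  rw [prb_eq, prb_eq]
  refine div_le_div_of_nonneg_right ?_ (by positivity)
  norm_cast
  set s := (univ : Finset Ω).image f with hs
  set N : α → ℕ := fun y => (univ.filter fun w => f w = y).card with hN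
  have key : ∀ d : α, (univ.filter fun w : Ω × Ω => f w.1 - f w.2 = d).card =
      ∑ y ∈ s, N (y + d) * N y := by
    intro d
    rw [card_eq_sum_card_fiberwise (f := fun w : Ω × Ω => f w.2) (t := s)
      (fun w _ => mem_image_of_mem _ (mem_univ _))]
    refine Finset.sum_congr rfl fun y _ => ?_
    simp only [hN]
    rw [← card_product]
    congr 1
    ext ⟨u, v⟩
    simp only [mem_filter, mem_univ, true_and, mem_product]
    constructor
    · rintro ⟨h1, h2⟩
      exact ⟨by rw [← h2, ← h1]; abel, h2⟩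
    · rintro ⟨h1, h2⟩
      exact ⟨by rw [h1, h2]; abel, h2⟩
  have h0 : (univ.filter fun w : Ω × Ω => f w.1 = f w.2) =
      univ.filter (fun w : Ω × Ω => f w.1 - f w.2 = 0) := by
    ext w; simp [sub_eq_zero]
  rw [h0, key, key]
  simp only [add_zero]
  have hle : ∑ y ∈ s, N (y + c) ^ 2 ≤ ∑ y ∈ s, N y ^ 2 := by
    calc ∑ y ∈ s, N (y + c) ^ 2 = ∑ y ∈ s.map (addRightEmbedding c), N y ^ 2 := by
          rw [Finset.sum_map]; rfl
      _ = ∑ y ∈ (s.map (addRightEmbedding c)).filter (fun y => y ∈ s), N y ^ 2 := by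
          refine (Finset.sum_filter_of_ne ?_).symm
          intro y _ hy
          by_contra hys
          apply hy
          have : N y = 0 := by
            simp only [hN, card_eq_zero, filter_eq_empty_iff]
            intro w _ hw
            exact hys (hs ▸ mem_image.2 ⟨w, mem_univ _, hw⟩)
          simp [this]
      _ ≤ ∑ y ∈ s, N y ^ 2 :=
          Finset.sum_le_sum_of_subset (fun y hy => (mem_filter.1 hy).2)
  have h2 : 2 * ∑ y ∈ s, N (y + c) * N y ≤ ∑ y ∈ s, N (y + c) ^ 2 + ∑ y ∈ s, N y ^ 2 := by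
    rw [Finset.mul_sum, ← Finset.sum_add_distrib]
    exact Finset.sum_le_sum fun y _ => by
      have := two_mul_le_add_sq (N (y + c) : ℤ) (N y)
      push_cast at this
      nlinarith
  have h3 : 2 * ∑ y ∈ s, N (y + c) * N y ≤ 2 * ∑ y ∈ s, N y ^ 2 := by omega
  have h4 : ∑ y ∈ s, N y ^ 2 = ∑ y ∈ s, N y * N y := Finset.sum_congr rfl fun y _ => sq _
  omega

/-- The image is large when collisions are rare. -/
lemma one_le_card_image_mul_prb [Nonempty Ω] {α : Type*} [DecidableEq α] (f : Ω → α) :
    (1 : ℝ) ≤ ((univ : Finset Ω).image f).card * prb (fun w : Ω × Ω => f w.1 = f w.2) := by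
  classical
  set s := (univ : Finset Ω).image f with hs
  set N : α → ℕ := fun y => (univ.filter fun w => f w = y).card with hN
  have hsum : ∑ y ∈ s, N y = Fintype.card Ω := by
    rw [← card_univ, card_eq_sum_card_fiberwise (f := f) (t := s)
      (fun w _ => mem_image_of_mem _ (mem_univ _))]
  have hsq : (univ.filter fun w : Ω × Ω => f w.1 = f w.2).card = ∑ y ∈ s, N y ^ 2 := by
    rw [card_eq_sum_card_fiberwise (f := fun w : Ω × Ω => f w.2) (t := s)
      (fun w _ => mem_image_of_mem _ (mem_univ _))]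
    refine Finset.sum_congr rfl fun y _ => ?_
    simp only [hN, sq]
    rw [← card_product]
    congr 1
    ext ⟨u, v⟩
    simp only [mem_filter, mem_univ, true_and, mem_product]
    constructor
    · rintro ⟨h1, h2⟩; exact ⟨h1.trans h2, h2⟩
    · rintro ⟨h1, h2⟩; exact ⟨h1.trans h2.symm, h2⟩
  have h := sq_sum_le_card_mul_sum_sq (s := s) (f := N)
  rw [hsum, ← hsq] at h
  rw [prb_eq, Fintype.card_prod, ← mul_div_assoc, one_le_div]
  · push_cast
    have h' : ((Fintype.card Ω : ℝ)) ^ 2 ≤
        (s.card : ℝ) * ((univ.filter fun w : Ω × Ω => f w.1 = f w.2).card : ℝ) := by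
      exact_mod_cast h
    nlinarith
  · have : 0 < Fintype.card Ω := Fintype.card_pos
    positivity

/-- The difference of a family of integers on a pair of indices. -/
def dif (A : Ω → ℕ) (w : Ω × Ω) : ℤ := (A w.1 : ℤ) - (A w.2 : ℤ)

/-- Probability that two members of the family coincide. -/
noncomputable def coll (A : Ω → ℕ) : ℝ := prb (fun w : Ω × Ω => dif A w = 0)

/-- Probability that two members of the family are congruent modulo `g`. -/
noncomputable def phi (A : Ω → ℕ) (g : ℕ) : ℝ := prb (fun w : Ω × Ω => (g : ℤ) ∣ dif A w)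

/-- Probability that two members of the family are within `W` of each other. -/
noncomputable def near (A : Ω → ℕ) (W : ℕ) : ℝ := prb (fun w : Ω × Ω => |dif A w| ≤ (W : ℤ))

lemma phi_nonneg (A : Ω → ℕ) (g : ℕ) : 0 ≤ phi A g := prb_nonneg _

lemma phi_le_one (A : Ω → ℕ) (g : ℕ) : phi A g ≤ 1 := prb_le_one _

lemma coll_nonneg (A : Ω → ℕ) : 0 ≤ coll A := prb_nonneg _

lemma coll_le_one (A : Ω → ℕ) : coll A ≤ 1 := prb_le_one _

lemma coll_le_phi (A : Ω → ℕ) (g : ℕ) : coll A ≤ phi A g :=
  prb_mono fun w h => by rw [h]; exact dvd_zero _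

lemma coll_le_near (A : Ω → ℕ) (W : ℕ) : coll A ≤ near A W :=
  prb_mono fun w h => by rw [h]; simp

end Vale.Agent.P012
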