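import Vale.Agent.P012.Bottom
import Vale.Agent.P012.Jump

/-!
All integers of one window are short sums of divisors of one number.
-/

namespace Vale.Agent.P012

attribute [local irreducible] gCopies

/-- Descending through `n` steps of the top modulus. -/
lemma descend {p S N0 T0 e : ℕ} (M : ℕ) (hMN : M ∣ N0) (hS : 5 * S + 5 * S ≤ 2 ^ e)
    (hstep : ∀ x, 5 * S ≤ x → ∃ s y, x = s + p * y ∧ s ≤ 5 * S ∧ Rep M 5 s) (hp : 1 ≤ p) (hi : ℕ)
    (hbase : ∀ x, 2 ^ e ≤ x → x < 2 ^ hi → Rep N0 T0 x) :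
    ∀ n x, 2 ^ (e + n) * p ^ n ≤ x → x < 2 ^ hi * p ^ n → Rep (N0 * p ^ n) (T0 + 5 * n) x := by
  intro n
  induction n with
  | zero => intro x h1 h2; simpa using hbase x (by simpa using h1) (by simpa using h2)
  | succ n ih =>
    intro x h1 h2
    have hpow : 2 ^ e ≤ 2 ^ (e + n) * p ^ (n + 1) :=
      le_trans (Nat.pow_le_pow_right two_pos (Nat.le_add_right e n))
        (Nat.le_mul_of_pos_right _ (Nat.pow_pos hp))
    rw [← add_assoc, pow_succ 2 (e + n)] at h1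
    obtain ⟨s, y, hx, hs, hr⟩ := hstep x (by linarith)
    have hlow : 2 ^ (e + n) * p ^ n ≤ y := by
      refine Nat.le_of_mul_le_mul_left ?_ hp
      have h3 : p * (2 ^ (e + n) * p ^ n) = 2 ^ (e + n) * p ^ (n + 1) := by ring
      rw [h3]
      linarith
    have hhigh : y < 2 ^ hi * p ^ n := by
      refine Nat.lt_of_mul_lt_mul_left (a := p) ?_
      have h3 : p * (2 ^ hi * p ^ n) = 2 ^ hi * p ^ (n + 1) := by ring
      rw [h3]
      omega
    have h4 := (ih y hlow hhigh).mul (dvd_refl p)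
    rw [show p * (N0 * p ^ n) = N0 * p ^ (n + 1) by ring] at h4
    rw [hx, show T0 + 5 * (n + 1) = 5 + (T0 + 5 * n) by ring]
    exact (hr.mono (hMN.mul_right _) le_rfl).add h4

lemma pow_sub_ge {k r t : ℕ} (h : r + t ≤ k) : 2 ^ t ≤ 2 ^ (k - r) :=
  Nat.pow_le_pow_right two_pos (by omega)

/-- The windows. -/
theorem exists_window : ∃ C D k0 : ℕ, 1 ≤ C ∧ ∀ k ≥ k0, ∃ N V : ℕ, 1 ≤ N ∧
    N ≤ V * 2 ^ (C * k * 2 ^ k) ∧ 2 ^ (9 * C * k * 2 ^ k) ≤ V ∧
    ∀ x, V ≤ x → x ≤ 4 * V → Rep N (D * k) x := by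
  obtain ⟨Cj, k1, hjump⟩ := exists_jump
  obtain ⟨Cb, k2, hbot⟩ := exists_bottom
  obtain ⟨k3, hmod⟩ := exists_step_modulus
  obtain ⟨C, hC⟩ : ∃ C, C = Cj + Cb + 2 := ⟨_, rfl⟩
  refine ⟨C, 5 * (192 * C) + Cj + Cb, k1 + k2 + k3 + (192 * C + 10) + 2 ^ 24, by omega,
    fun k hk => ?_⟩
  have hk24 : 2 ^ 24 ≤ k := le_trans (Nat.le_add_left _ _) hk
  obtain ⟨P, Nj, hP1, hP2, hPlow, hNj1, hNj2, hjmp⟩ := hjump k (by omega)
  set iB := k - k / 2 ^ 18 with hiB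
  obtain ⟨Nb, hNb1, hNb2, hMM, hbt⟩ := hbot k (by omega) iB (by omega) (by omega)
  obtain ⟨p, hp, -, hplo, -, hstep⟩ := hmod k (by omega) (k - 6) (by omega)
  rw [show k - (k - 6) = 6 by omega] at hplo
  set X := 4 * k * 2 ^ (k - 6) with hX
  set e := 2 * X + 2 * k + 2 * k * 2 ^ iB + 3 with he
  set R := 192 * C * k with hR
  set N0 := P * Nb * Nj with hN0
  have hbase : ∀ x, 2 ^ e ≤ x → x < 2 ^ (e + R + 3) → Rep N0 ((Cj + Cb) * k) x := by
    intro x hx1 hx2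
    obtain ⟨s, y, hx, -, hs⟩ := hjmp x hx1
    have hy : y < 2 ^ (4 * k * 2 ^ iB) := by
      by_contra hc
      push Not at hc
      have hlarge : 192 * C * k + 3 * k + 6 + 2 * k ≤ 2 * k * 2 ^ iB := by
        have h1 : 192 * C + 10 ≤ 2 ^ iB := by
          have h2 : k / 2 < 2 ^ (k / 2) := Nat.lt_two_pow_self
          have h3 : 2 ^ (k / 2) * 4 ≤ 2 ^ iB := by
            rw [show (4 : ℕ) = 2 ^ 2 by norm_num, ← pow_add]
            exact Nat.pow_le_pow_right two_pos (by omega)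
          omega
        calc 192 * C * k + 3 * k + 6 + 2 * k ≤ (192 * C + 10) * k := by rw [add_mul]; omega
          _ ≤ 2 ^ iB * k := Nat.mul_le_mul_right _ h1
          _ ≤ 2 * k * 2 ^ iB := by rw [mul_comm, mul_assoc 2]; omega
      have h4 : 2 ^ (2 * k) * x < 2 ^ (2 * k + (e + R + 3)) := by
        rw [pow_add]; exact Nat.mul_lt_mul_of_pos_left hx2 (Nat.two_pow_pos _)
      have h5 : 2 ^ (2 * X) * 2 ^ (4 * k * 2 ^ iB) ≤ 2 ^ (2 * k) * x := by
        calc 2 ^ (2 * X) * 2 ^ (4 * k * 2 ^ iB) ≤ 2 ^ (2 * k) * P * y := Nat.mul_le_mul hPlow hc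
          _ = 2 ^ (2 * k) * (P * y) := mul_assoc _ _ _
          _ ≤ _ := Nat.mul_le_mul_left _ (by omega)
      rw [← pow_add] at h5
      have h6 := (Nat.pow_lt_pow_iff_right one_lt_two).1 (h5.trans_lt h4)
      have h7 : 4 * k * 2 ^ iB = 2 * (2 * k * 2 ^ iB) := by ring
      omega
    have h8 := (hbt y hy).mul (dvd_refl P)
    rw [hx, add_mul]
    exact (hs.mono (dvd_mul_left _ _) le_rfl).add (h8.mono (dvd_mul_right _ _) le_rfl)
  refine ⟨N0 * p ^ R, 2 ^ (e + R) * p ^ R,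
    Nat.mul_pos (Nat.mul_pos (Nat.mul_pos hP1 hNb1) hNj1) (Nat.pow_pos hp.pos), ?_, ?_, ?_⟩
  · have hX2 : 2 * X ≤ k * 2 ^ k := by
      rw [hX, show 2 * (4 * k * 2 ^ (k - 6)) = k * (2 ^ 3 * 2 ^ (k - 6)) by ring, ← pow_add]
      exact Nat.mul_le_mul_left _ (Nat.pow_le_pow_right two_pos (by omega))
    calc N0 * p ^ R ≤ 2 ^ (C * k * 2 ^ k) * p ^ R := by
          refine Nat.mul_le_mul_right _
            ((Nat.mul_le_mul (Nat.mul_le_mul hP2 hNb2) hNj2).trans ?_)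
          rw [← pow_add, ← pow_add]
          refine Nat.pow_le_pow_right two_pos ?_
          rw [hC, add_mul, add_mul, add_mul, add_mul]
          linarith
      _ = p ^ R * 2 ^ (C * k * 2 ^ k) := mul_comm _ _
      _ ≤ _ := Nat.mul_le_mul_right _ (Nat.le_mul_of_pos_left _ (Nat.two_pow_pos _))
  · have h1 : 2 ^ (3 * 2 ^ (k - 6) * R) ≤ p ^ R := by
      rw [pow_mul]
      refine Nat.pow_le_pow_left (le_trans (le_of_eq ?_) hplo) R
      congr 1
      omega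
    refine le_trans (le_trans (le_of_eq ?_) h1) (Nat.le_mul_of_pos_left _ (Nat.two_pow_pos _))
    congr 1
    rw [hR, show 2 ^ k = 2 ^ 6 * 2 ^ (k - 6) by rw [← pow_add]; congr 1; omega]
    ring
  · intro x hx1 hx2
    have hS : 5 * 2 ^ (4 * k * 2 ^ (k - 6)) + 5 * 2 ^ (4 * k * 2 ^ (k - 6)) ≤ 2 ^ e := by
      calc 5 * 2 ^ X + 5 * 2 ^ X ≤ 2 ^ 4 * 2 ^ X := by omega
        _ ≤ 2 ^ e := by rw [← pow_add]; exact Nat.pow_le_pow_right two_pos (by omega)
    have hlt : x < 2 ^ (e + R + 3) * p ^ R := by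
      have h2 : 0 < 2 ^ (e + R) * p ^ R := Nat.mul_pos (Nat.two_pow_pos _) (Nat.pow_pos hp.pos)
      have h3 : 2 ^ (e + R + 3) * p ^ R = 8 * (2 ^ (e + R) * p ^ R) := by rw [pow_add]; ring
      omega
    have h := descend (T0 := (Cj + Cb) * k) (N0 := N0) (poolProd k * poolProd k)
      (Dvd.dvd.mul_right (hMM.mul_left P) _) hS hstep hp.one_le (e + R + 3) hbase R x hx1 hlt
    refine h.mono dvd_rfl (le_of_eq ?_)
    rw [hR]
    ring

end Vale.Agent.P012
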